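import Vale.Agent.P281Z.Lg.Bas
import Vale.Agent.P281Z.Lg.Cp

/-!
# P281Z, block LV: chains of slices
-/

open scoped Topology
open Set Filter MeasureTheory
open Vale.Agent.P272.K Vale.Agent.P281Z.Lg

set_option linter.unusedSectionVars false

noncomputable section

namespace Vale.Agent.P281Z.Lv.As

variable {κ V : Type} [Fintype κ] [LinearOrder κ] {n : ℕ} (L : Lad κ V n) {m j N : ℕ}

/-- `c'` is the slice of `c` along the divisors `σ a` -/
structure Chn (c : (L.K N).I) (σ : Fin j ↪ κ) (c' : (L.K m).I)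
    (Ψ : ((Fin j → ℂ) × Cm m) ≃ᵐ Cm N) : Prop where
  mp : MeasurePreserving Ψ
  iso : Isometry Ψ
  on : ∀ a p, zt (L.co c (σ a)) (Ψ p) = p.1 a
  off : ∀ l ∉ Finset.univ.map σ, ∀ p, zt (L.co c l) (Ψ p) = zt (L.co c' l) p.2
  non : ∀ a, L.co c' (σ a) = none
  tg : ∀ v, v ∈ ((L.K m).e c').target ↔ Ψ (0, v) ∈ ((L.K N).e c).target
  bs : L.bs c' = L.bs c
  φ : ∀ v ∈ ((L.K m).e c').target, (L.K m).φ c' v = (L.K N).φ c (Ψ (0, v))
  sub : ∀ y' ∈ ((L.K m).e c').source, Finset.univ.map σ ⊆ L.lab y'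
  up : ∀ y' : (L.Y m).X, Finset.univ.map σ ⊆ L.lab y' → ∃ y : (L.Y N).X, L.pt y = L.pt y' ∧
    L.lab y = L.lab y' \ Finset.univ.map σ ∧
    (y ∈ ((L.K N).e c).source ↔ y' ∈ ((L.K m).e c').source) ∧
    (y' ∈ ((L.K m).e c').source → (L.K N).e c y = Ψ (0, (L.K m).e c' y'))

theorem mem_map_succ (σ : Fin (j + 1) ↪ κ) (l : κ) : l ∈ Finset.univ.map σ ↔
    l = σ 0 ∨ l ∈ Finset.univ.map ((Fin.succEmb j).trans σ) := by
  simp [Fin.exists_fin_succ, eq_comm]

/-- **CHAIN** -/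
theorem chain : ∀ (j N : ℕ), m + j = N → ∀ (c : (L.K N).I) (σ : Fin j ↪ κ),
    (∀ a, ∃ k, L.co c (σ a) = some k) → ∃ (c' : (L.K m).I) (Ψ : _ ≃ᵐ Cm N), Chn L c σ c' Ψ
  | 0, _, rfl, c, σ, _ => by
    have : IsProbabilityMeasure (volume : Measure (Fin 0 → ℂ)) :=
      @Measure.pi.instIsProbabilityMeasure _ _ _ _ _ fun i => i.elim0
    exact ⟨c, ⟨.uniqueProd _ _, measurable_snd, measurable_prodMk_left⟩, measurePreserving_snd,
      Isometry.of_dist_eq fun p q => (by simp [Prod.dist_eq, Subsingleton.elim p.1 q.1] :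
        dist p.2 q.2 = dist p q), fun a => a.elim0, fun _ _ _ => rfl,
      fun a => a.elim0, fun _ => Iff.rfl, rfl, fun _ _ => rfl, fun _ _ => by simp,
      fun y _ => ⟨y, rfl, by simp, Iff.rfl, fun _ => rfl⟩⟩
  | j + 1, _, rfl, c, σ, h => by
    obtain ⟨k, hk⟩ := h 0
    have ne : ∀ a : Fin j, σ a.succ ≠ σ 0 := fun a => σ.injective.ne (Fin.succ_ne_zero a)
    have nk : ∀ l, l ≠ σ 0 → L.co c l ≠ some k := fun l hl e => hl (L.inj _ c _ _ k e hk)
    obtain ⟨c', Ψ, H⟩ := chain j _ rfl (L.sl c hk) ((Fin.succEmb j).trans σ) fun a => by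
      obtain ⟨k', hk'⟩ := h a.succ
      obtain ⟨k'', rfl⟩ := Fin.exists_succAbove_eq (x := k') (y := k)
        fun e => nk _ (ne a) (e ▸ hk')
      exact ⟨k'', (L.sl_co _ c _ k hk _ _).2 hk'⟩
    let Φ : ((Fin (j + 1) → ℂ) × Cm m) ≃ᵐ Cm (m + j + 1) :=
      ((MeasurableEquiv.piFinSuccAbove (fun _ => ℂ) 0).prodCongr (.refl _)).trans
        (MeasurableEquiv.prodAssoc.trans (((MeasurableEquiv.refl ℂ).prodCongr Ψ).trans
          (MeasurableEquiv.piFinSuccAbove (fun _ => ℂ) k).symm))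
    have e : ∀ p, Φ p = k.insertNth (p.1 0) (Ψ (fun a => p.1 a.succ, p.2)) := fun _ => rfl
    have z : ∀ l, l ≠ σ 0 → ∀ p, zt (L.co c l) (Φ p) =
        zt (L.co (L.sl c hk) l) (Ψ (fun a => p.1 a.succ, p.2)) := fun l hl p => by
      exact (CpH.zt_ins (nk l hl) _ _).trans (L.zt_ins c hk hl _)
    have n0 : σ 0 ∉ Finset.univ.map ((Fin.succEmb j).trans σ) := fun m =>
      let ⟨a, _, b⟩ := Finset.mem_map.1 m
      ne a b
    have U : ∀ y' : (L.Y m).X, Finset.univ.map σ ⊆ L.lab y' →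
        Finset.univ.map ((Fin.succEmb j).trans σ) ⊆ L.lab y' :=
      fun _ b _ a => b ((mem_map_succ σ _).2 (.inr a))
    refine ⟨c', Φ, ((volume_preserving_piFinSuccAbove (fun _ => ℂ) k).symm _).comp
      (((MeasurePreserving.id _).prod H.mp).comp ((measurePreserving_prodAssoc _ _ _).comp
        ((volume_preserving_piFinSuccAbove (fun _ => ℂ) 0).prod (.id _)))),
      Isometry.of_dist_eq fun p q => ?_, fun a p => ?_, fun l hl p => ?_, fun a => ?_,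
      fun v => ?_, H.bs.trans (L.sl_bs _ c _ k hk), fun v hv => ?_, fun y' hy l hl => ?_,
      fun y' hy => ?_⟩
    · rw [e, e, Fin.dist_insertNth_insertNth, H.iso.dist_eq, Prod.dist_eq, Prod.dist_eq,
        ← max_assoc, ← Fin.dist_insertNth_insertNth (α := fun _ => ℂ) 0]
      simp only [Fin.insertNth_zero', Fin.cons_self_tail, show ∀ t : Fin (j + 1) → ℂ,
        (fun a : Fin j => t a.succ) = Fin.tail t from fun _ => rfl]
    · refine a.cases ?_ fun a => ?_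
      · rw [hk, e]
        exact Fin.insertNth_apply_same (α := fun _ => ℂ) k _ _
      · rw [z _ (ne a)]
        exact H.on a _
    · rw [mem_map_succ, not_or] at hl
      rw [z l hl.1, H.off l hl.2]
    · refine a.cases (Option.eq_none_iff_forall_ne_some.2 fun k' e => ?_) H.non
      have := H.off _ n0 (0, 0)
      rw [L.co_sl c hk, e] at this
      exact one_ne_zero this
    · rw [H.tg, L.sl_tg]
      rfl
    · exact (H.φ v hv).trans (L.sl_φ _ c _ k hk _ ((H.tg v).1 hv))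
    · rcases (mem_map_succ σ l).1 hl with rfl | b
      · obtain ⟨y, -, b2, b3, -⟩ := H.up y' (H.sub y' hy)
        obtain ⟨b, -⟩ := (L.sl_src _ c _ k hk y).1 (b3.2 hy)
        exact (Finset.mem_sdiff.1 (b2 ▸ b)).1
      · exact H.sub y' hy b
    · obtain ⟨y, b1, b2, b3, b4⟩ := H.up y' (U y' hy)
      have b : σ 0 ∈ L.lab y :=
        b2 ▸ Finset.mem_sdiff.2 ⟨hy ((mem_map_succ σ _).2 (.inl rfl)), n0⟩
      refine ⟨L.up y b, (L.up_pt _ y _ b).trans b1, ?_, ?_, fun a => ?_⟩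
      · rw [L.up_lab, b2]
        ext l
        simp only [Finset.mem_erase, Finset.mem_sdiff, mem_map_succ σ l]
        tauto
      · rw [← b3, L.sl_src]
        exact ⟨fun a => ⟨b, a⟩, fun ⟨_, a⟩ => a⟩
      · exact (L.sl_e _ c _ k hk y (b3.2 a) b).trans (congrArg (ins k) (b4 a))

theorem ex_emb {I : Finset κ} (h : I.card = j) : ∃ σ : Fin j ↪ κ, Finset.univ.map σ = I :=
  ⟨(I.orderEmbOfFin h).toEmbedding, I.map_orderEmbOfFin_univ h⟩

/-- **CHAIN** for a finite set -/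
theorem chain' (hN : m + j = N) (c : (L.K N).I) {I : Finset κ} (h : I.card = j)
    (hI : ∀ l ∈ I, ∃ k, L.co c l = some k) : ∃ (σ : Fin j ↪ κ) (c' : (L.K m).I) (Ψ : _ ≃ᵐ Cm N),
      Finset.univ.map σ = I ∧ Chn L c σ c' Ψ :=
  let ⟨σ, e⟩ := ex_emb h
  let ⟨c', Ψ, H⟩ := chain L j N hN c σ fun a =>
    hI _ (e ▸ Finset.mem_map_of_mem σ (Finset.mem_univ a))
  ⟨σ, c', Ψ, e, H⟩

/-- **RAISE** -/
theorem raise (y : (L.Y m).X) : ∀ (j : ℕ) (S : Finset κ), S ⊆ L.lab y → S.card = j →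
    ∃ y' : (L.Y (m + j)).X, L.pt y' = L.pt y ∧ L.lab y' = L.lab y \ S
  | 0, S, _, h => ⟨y, rfl, by simp [Finset.card_eq_zero.1 h]⟩
  | j + 1, S, hS, h => by
    obtain ⟨i, T, hi, rfl, hT⟩ := Finset.card_eq_succ.1 h
    obtain ⟨y', a, b⟩ := raise y j T ((Finset.subset_insert _ _).trans hS) hT
    have k : i ∈ L.lab y' := b ▸ Finset.mem_sdiff.2 ⟨hS (Finset.mem_insert_self _ _), hi⟩
    exact ⟨L.up y' k, (L.up_pt _ y' _ k).trans a, by rw [L.up_lab, b, Finset.sdiff_insert]⟩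

/-- the point of the top stratum -/
theorem ex_top (y : (L.Y m).X) : ∃ y' : (L.Y n).X, L.pt y' = L.pt y := by
  have h := L.card m y
  generalize hj : (L.lab y).card = j at h
  obtain rfl : n = m + j := by omega
  exact (raise L y j _ subset_rfl hj).imp fun _ k => k.1

/-- **LABJ** -/
theorem labj (hi : Function.Injective (L.pt (m := n))) {y : (L.Y m).X} {y' : (L.Y n).X}
    (hp : L.pt y' = L.pt y) {c : (L.K n).I} (hc : y' ∈ ((L.K n).e c).source) {l : κ}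
    (hl : l ∈ L.lab y) : ∃ k, L.co c l = some k ∧ (L.K n).e c y' k = 0 := by
  have h := L.card m y
  rw [← Finset.card_erase_add_one hl] at h
  generalize hj : ((L.lab y).erase l).card = j at h
  obtain rfl : n = m + j + 1 := by omega
  obtain ⟨y₁, a, b⟩ := raise L y j _ (Finset.erase_subset _ _) hj
  have k : l ∈ L.lab y₁ := b ▸ Finset.mem_sdiff.2 ⟨hl, Finset.notMem_erase _ _⟩
  obtain rfl : L.up y₁ k = y' := hi ((L.up_pt _ y₁ _ k).trans (a.trans hp.symm))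
  cases e : L.co c l with
  | none => exact (L.nb _ c l e y₁ k hc).elim
  | some i => exact ⟨i, rfl, by
      rw [L.sl_e _ c l i e y₁ ((L.sl_src _ c l i e y₁).2 ⟨k, hc⟩) k, ins_same]⟩

variable {L} {c : (L.K N).I} {σ : Fin j ↪ κ} {c' : (L.K m).I} {Ψ : ((Fin j → ℂ) × Cm m) ≃ᵐ Cm N}

theorem Chn.cont (H : Chn L c σ c' Ψ) : Continuous Ψ := H.iso.continuous

theorem Chn.nrm (H : Chn L c σ c' Ψ) (t : Fin j → ℂ) (v : Cm m) :
    ‖Ψ (t, v) - Ψ (0, v)‖ = ‖t‖ := by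
  rw [← dist_eq_norm, H.iso.dist_eq, Prod.dist_eq, dist_self, dist_zero_right,
    max_eq_left (norm_nonneg t)]

theorem Chn.mem_ball (H : Chn L c σ c' Ψ) (t : Fin j → ℂ) (v v₀ : Cm m) (δ : ℝ) :
    Ψ (t, v) ∈ Metric.ball (Ψ (0, v₀)) δ ↔ ‖t‖ < δ ∧ v ∈ Metric.ball v₀ δ := by
  rw [Metric.mem_ball, H.iso.dist_eq, Prod.dist_eq, max_lt_iff, dist_zero_right, Metric.mem_ball]

/-- the points where the coordinates `σ a` vanish are in the slice -/
theorem Chn.slice (H : Chn L c σ c' Ψ) {z : Cm N} (h : ∀ a, zt (L.co c (σ a)) z = 0) :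
    ∃ v, Ψ (0, v) = z := by
  obtain ⟨⟨t, v⟩, rfl⟩ := Ψ.surjective z
  obtain rfl : t = 0 := funext fun a => (H.on a _).symm.trans (h a)
  exact ⟨v, rfl⟩

theorem Chn.symm (H : Chn L c σ c' Ψ) {v : Cm m} (hv : v ∈ ((L.K m).e c').target) :
    L.pt (((L.K N).e c).symm (Ψ (0, v))) = L.pt (((L.K m).e c').symm v) := by
  have h := ((L.K m).e c').map_target hv
  obtain ⟨y, a, -, b, d⟩ := H.up _ (H.sub _ h)
  rw [← a, ← ((L.K N).e c).left_inv (b.2 h), d h, ((L.K m).e c').right_inv hv]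

theorem Chn.nm (H : Chn L c σ c' Ψ) (b : L.B → V → ℂ) {v : Cm m} (hv : v ∈ ((L.K m).e c').target) :
    L.nm N b c (Ψ (0, v)) = L.nm m b c' v := by
  rw [Lad.nm, Lad.nm, H.symm hv, H.bs]

theorem Chn.prod {M : Type} [CommMonoid M] (H : Chn L c σ c' Ψ) (f : κ → ℂ → M)
    (hf : ∀ l, f l 1 = 1) (p : (Fin j → ℂ) × Cm m) : ∏ l ∈ (Finset.univ.map σ)ᶜ, f l (zt (L.co c l) (Ψ p)) =
      ∏ l, f l (zt (L.co c' l) p.2) := by
  rw [← Finset.prod_compl_mul_prod (Finset.univ.map σ), Finset.prod_map,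
    Finset.prod_eq_one (s := Finset.univ) fun a _ => by rw [H.non a]; exact hf _, mul_one]
  exact Finset.prod_congr rfl fun l hl => by rw [H.off l (Finset.mem_compl.1 hl)]

theorem Chn.prod' {M : Type} [CommMonoid M] (H : Chn L c σ c' Ψ) (f : κ → ℂ → M)
    (p : (Fin j → ℂ) × Cm m) : ∏ l ∈ Finset.univ.map σ, f l (zt (L.co c l) (Ψ p)) =
      ∏ a, f (σ a) (p.1 a) := by
  simp only [Finset.prod_map, H.on]

end Vale.Agent.P281Z.Lv.As
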