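import Vale.Agent.P281Z.Lg.Bas

/-!
# P281Z, block LV: functions which vanish on the strata of a given depth
-/

open scoped Topology
open Filter Set

noncomputable section

namespace Vale.Agent.P281Z.Lv.As

open Vale.Agent.P272.K Vale.Agent.P281Z.Lg

theorem smallest {κ : Type} [DecidableEq κ] (J : Finset κ) (t : κ → ℝ) (j : ℕ) (hj : j ≤ J.card) :
    ∃ I ⊆ J, I.card = j ∧ ∀ l ∈ I, ∀ l' ∈ J, l' ∉ I → t l ≤ t l' := by
  induction j with
  | zero => exact ⟨∅, Finset.empty_subset _, rfl, by simp⟩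
  | succ j ih =>
    obtain ⟨I, h1, h2, h3⟩ := ih (Nat.le_of_succ_le hj)
    obtain ⟨l₀, h4, h5⟩ := (J \ I).exists_min_image t
      (Finset.sdiff_nonempty.2 fun c => by have := Finset.card_le_card c; omega)
    obtain ⟨h6, h7⟩ := Finset.mem_sdiff.1 h4
    refine ⟨insert l₀ I, Finset.insert_subset h6 h1, by rw [Finset.card_insert_of_notMem h7, h2],
      fun l hl l' a b => ?_⟩
    have c : l' ∉ I := fun c => b (Finset.mem_insert_of_mem c)
    rcases Finset.mem_insert.1 hl with rfl | hl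
    exacts [h5 l' (Finset.mem_sdiff.2 ⟨a, c⟩), h3 l hl l' a c]

theorem lip {κ : Type} [Fintype κ] [DecidableEq κ] {N : ℕ} (o : κ → Option (Fin N)) {a : Cm N}
    {J : Finset κ} (hJ : ∀ l, l ∈ J ↔ zt (o l) a = 0) {f : Cm N → ℂ} (hf : AnalyticAt ℂ f a)
    {j : ℕ} (hj : j ≤ J.card) (hv : ∀ᶠ z in 𝓝 a, ∀ S ⊆ J, S.card = j + 1 →
      (∀ l ∈ S, zt (o l) z = 0) → f z = 0) :
    ∃ C : ℝ, ∀ᶠ z in 𝓝 a, ‖f z‖ ≤ C * ∑ I ∈ J.powersetCard j,
      ∏ l, ‖zt (o l) z‖ ^ (if l ∈ I then 0 else ((Fintype.card κ : ℝ) + 1)⁻¹ : ℝ) := by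
  classical
  set α : ℝ := ((Fintype.card κ : ℝ) + 1)⁻¹ with hα
  have α0 : 0 ≤ α := by positivity
  have hc : ∀ l, ContinuousAt (fun z => ‖zt (o l) z‖) a := fun l => (zt_an _ a).continuousAt.norm
  have one : ∀ z, ∀ I ⊆ J, I.card = j → ∏ l, ‖zt (o l) z‖ ^ (if l ∈ I then 0 else α : ℝ) ≤
      ∑ I ∈ J.powersetCard j, ∏ l, ‖zt (o l) z‖ ^ (if l ∈ I then 0 else α : ℝ) := fun z I h h' =>
    Finset.single_le_sum (f := fun I => ∏ l, ‖zt (o l) z‖ ^ (if l ∈ I then 0 else α : ℝ))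
      (fun _ _ => by positivity) (Finset.mem_powersetCard.2 ⟨h, h'⟩)
  rcases hj.eq_or_lt with rfl | hj
  · have h1 : ContinuousAt (fun z => ∏ l, ‖zt (o l) z‖ ^ (if l ∈ J then 0 else α : ℝ)) a :=
      tendsto_finsetProd _ fun l _ => (hc l).rpow_const (.inr (by split_ifs; exacts [le_rfl, α0]))
    have h2 : 0 < ∏ l, ‖zt (o l) a‖ ^ (if l ∈ J then 0 else α : ℝ) :=
      Finset.prod_pos fun l _ => by
        split_ifs with h
        exacts [by simp, Real.rpow_pos_of_pos (norm_pos_iff.2 (mt (hJ l).2 h)) _]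
    refine ⟨(‖f a‖ + 1) / ((∏ l, ‖zt (o l) a‖ ^ (if l ∈ J then 0 else α : ℝ)) / 2), ?_⟩
    filter_upwards [h1.eventually (lt_mem_nhds (half_lt_self h2)),
      hf.continuousAt.norm.eventually (gt_mem_nhds (lt_add_one _))] with z b c
    rw [div_mul_eq_mul_div, le_div_iff₀ (half_pos h2)]
    exact mul_le_mul c.le (b.le.trans (one z J subset_rfl rfl)) (half_pos h2).le (by positivity)
  obtain ⟨K, U, hU, hK⟩ := (hf.contDiffAt (n := 1)).exists_lipschitzOnWith
  obtain ⟨R, hR, hb⟩ := Metric.eventually_nhds_iff_ball.1 (hv.and hU)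
  have h1 : ∀ᶠ z in 𝓝 a, ∀ l₀ ∈ J, ‖zt (o l₀) z‖ < 1 ∧ ∀ l ∉ J, ‖zt (o l₀) z‖ < ‖zt (o l) z‖ :=
    eventually_all.2 fun l₀ => eventually_imp_distrib_left.2 fun h =>
      ((hc l₀).eventually_lt continuousAt_const (by simp [(hJ l₀).1 h])).and
        (eventually_all.2 fun l => eventually_imp_distrib_left.2 fun h' =>
          (hc l₀).eventually_lt (hc l) (by simpa [(hJ l₀).1 h] using mt (hJ l).2 h'))
  refine ⟨K, ?_⟩
  filter_upwards [h1, Metric.ball_mem_nhds a hR] with z h2 hz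
  obtain ⟨I, i1, i2, i3⟩ := smallest J (fun l => ‖zt (o l) z‖) j hj.le
  obtain ⟨l₀, h4, h5⟩ := (J \ I).exists_min_image (fun l => ‖zt (o l) z‖)
    (Finset.sdiff_nonempty.2 fun c => by have := Finset.card_le_card c; omega)
  obtain ⟨h6, h7⟩ := Finset.mem_sdiff.1 h4
  have hS := Finset.insert_subset h6 i1
  set z' : Cm N := fun k => if ∃ l ∈ insert l₀ I, o l = some k then 0 else z k with hz'
  have b1 : z' ∈ Metric.ball a R := by
    refine lt_of_le_of_lt ((dist_pi_le_iff dist_nonneg).2 fun k => ?_) hz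
    simp only [hz']
    split_ifs with h
    · obtain ⟨l, c, d⟩ := h
      have := (hJ l).1 (hS c)
      rw [d] at this
      rw [show a k = 0 from this, dist_self]
      exact dist_nonneg
    · exact dist_le_pi_dist z a k
  have b2 : f z' = 0 := (hb z' b1).1 _ hS (by rw [Finset.card_insert_of_notMem h7, i2]) fun l hl => by
    cases d : o l with
    | none => exact absurd (d ▸ (hJ l).1 (hS hl)) one_ne_zero
    | some k => exact if_pos ⟨l, hl, d⟩
  have b3 : dist z z' ≤ ‖zt (o l₀) z‖ := (dist_pi_le_iff (norm_nonneg _)).2 fun k => by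
    simp only [hz']
    split_ifs with h
    · obtain ⟨l, c, d⟩ := h
      rw [dist_zero_right, show z k = zt (o l) z by rw [d]; rfl]
      rcases Finset.mem_insert.1 c with rfl | c
      exacts [le_rfl, i3 l c l₀ h6 h7]
    · rw [dist_self]
      exact norm_nonneg _
  have b4 : ‖zt (o l₀) z‖ ≤ ∏ l, ‖zt (o l) z‖ ^ (if l ∈ I then 0 else α : ℝ) := by
    refine le_trans ?_ (Finset.prod_le_prod (f := fun _ => ‖zt (o l₀) z‖ ^ α)
      (fun _ _ => by positivity) fun l _ => ?_)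
    · rw [Finset.prod_const, ← Real.rpow_natCast, ← Real.rpow_mul (norm_nonneg _)]
      refine Real.self_le_rpow_of_le_one (norm_nonneg _) (h2 l₀ h6).1.le ?_
      rw [hα, Finset.card_univ, inv_mul_le_iff₀ (by positivity)]
      linarith
    · split_ifs with h
      · rw [Real.rpow_zero]
        exact Real.rpow_le_one (norm_nonneg _) (h2 l₀ h6).1.le α0
      · refine Real.rpow_le_rpow (norm_nonneg _) ?_ α0
        by_cases c : l ∈ J
        exacts [h5 l (Finset.mem_sdiff.2 ⟨c, h⟩), ((h2 l₀ h6).2 l c).le]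
  have b5 := hK.dist_le_mul z (hb z hz).2 z' (hb z' b1).2
  rw [b2, dist_zero_right] at b5
  exact b5.trans (mul_le_mul_of_nonneg_left (b3.trans (b4.trans (one z I i1 i2))) K.2)

end Vale.Agent.P281Z.Lv.As
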