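import Vale.Agent.P281Z.Lv.AsyF
import Vale.Agent.P281Z.Lg.Bas

/-!
# P281Z, block LV: the asymptotics in a chart
-/

open scoped Topology
open Set Filter MeasureTheory Metric
open Vale.Agent.P272.K Vale.Agent.P281Z.Lg

set_option linter.unusedSectionVars false

noncomputable section

namespace Vale.Agent.P281Z.Lv.As

variable {κ : Type} [Fintype κ] {N m j : ℕ} {o : κ → Option (Fin N)} {o' : κ → Option (Fin m)}

/-- a monomial -/
def mn (o : κ → Option (Fin N)) (γ : κ → ℝ) (z : Cm N) : ℝ := ∏ l, ‖zt (o l) z‖ ^ γ l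

theorem mn_nn (γ : κ → ℝ) (z : Cm N) : 0 ≤ mn o γ z := Finset.prod_nonneg fun _ _ => by positivity

theorem zt_cont (o : Option (Fin N)) : Continuous (zt o) :=
  continuous_iff_continuousAt.2 fun z => (zt_an o z).continuousAt

theorem mn_meas (γ : κ → ℝ) : Measurable (mn o γ) :=
  Finset.measurable_fun_prod _ fun _ _ => (zt_cont _).measurable.norm.pow_const _

theorem mn_cont {γ : κ → ℝ} (h : ∀ l, 0 ≤ γ l) : Continuous (mn o γ) :=
  continuous_finsetProd _ fun l _ => (zt_cont _).norm.rpow_const fun _ => .inr (h l)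

theorem mn_mul (γ γ' : κ → ℝ) (z : Cm N) : mn o γ z * mn o γ' z ≤ mn o (fun l => γ l + γ' l) z := by
  rw [mn, mn, ← Finset.prod_mul_distrib]
  exact Finset.prod_le_prod (fun _ _ => by positivity) fun _ _ => Real.le_rpow_add (norm_nonneg _) _ _

theorem mn_rpow (γ : κ → ℝ) (t : ℝ) (z : Cm N) : mn o γ z ^ t = mn o (fun l => γ l * t) z := by
  rw [mn, ← Real.finsetProd_rpow _ _ fun _ _ => by positivity]
  exact Finset.prod_congr rfl fun l _ => (Real.rpow_mul (norm_nonneg _) _ _).symm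

theorem mn_le {γ : κ → ℝ} (h : ∀ l, 0 ≤ γ l) {M : ℝ} (h1 : 1 ≤ M) {z : Cm N} (hz : ‖z‖ ≤ M) :
    mn o γ z ≤ ∏ l, M ^ γ l :=
  Finset.prod_le_prod (fun _ _ => by positivity) fun l _ => Real.rpow_le_rpow (norm_nonneg _) (by
    cases o l with
    | none => exact norm_one.trans_le h1
    | some k => exact (norm_le_pi_norm z k).trans hz) (h l)

theorem ae_zt (o : κ → Option (Fin N)) : ∀ᵐ z : Cm N, ∀ l, zt (o l) z ≠ 0 := by
  filter_upwards [eventually_all.2 fun j : Fin N =>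
    Measure.ae_eval_ne (fun _ : Fin N => (volume : Measure ℂ)) j 0] with z hz l
  cases o l with
  | none => exact one_ne_zero
  | some j => exact hz j

theorem zt_lt {a z : Cm N} {R : ℝ} {o : Option (Fin N)} (h : zt o a = 0) (hz : z ∈ ball a R) :
    ‖zt o z‖ < R := by
  cases o with
  | none => exact (one_ne_zero h).elim
  | some k =>
    have h1 := (dist_le_pi_dist z a k).trans_lt hz
    rwa [show a k = 0 from h, dist_zero_right] at h1

variable [DecidableEq κ] {I : Finset κ} {P : Finset (Finset κ)}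

/-- the weight of `I` -/
def pI (o : κ → Option (Fin N)) (I : Finset κ) : Cm N → ℝ :=
  mn o fun l => if l ∈ I then 0 else ((Fintype.card κ : ℝ) + 1)⁻¹

/-- the sum of the weights -/
def sD (o : κ → Option (Fin N)) (P : Finset (Finset κ)) (z : Cm N) : ℝ := ∑ I ∈ P, pI o I z

theorem pI_cont : Continuous (pI o I) := mn_cont fun _ => by split_ifs <;> positivity

theorem sD_cont : Continuous (sD o P) := continuous_finsetSum _ fun _ _ => pI_cont

theorem pI_le (h : I ∈ P) (z : Cm N) : pI o I z ≤ sD o P z :=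
  Finset.single_le_sum (f := fun I => pI o I z) (fun _ _ => mn_nn _ _) h

theorem sD_nn (z : Cm N) : 0 ≤ sD o P z := Finset.sum_nonneg fun _ _ => mn_nn _ _

/-- the coordinates with labels in `I` and the other ones -/
structure Sp (o : κ → Option (Fin N)) (o' : κ → Option (Fin m)) (I : Finset κ) (σ : Fin j ↪ κ)
    (Ψ : (Fin j → ℂ) × Cm m ≃ᵐ Cm N) : Prop where
  eq : I = Finset.univ.map σ
  mp : MeasurePreserving Ψ
  iso : Isometry Ψ
  fst : ∀ t v a, zt (o (σ a)) (Ψ (t, v)) = t a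
  snd : ∀ t v, ∀ l ∉ I, zt (o l) (Ψ (t, v)) = zt (o' l) v
  non : ∀ l ∈ I, o' l = none
  inj : ∀ l l' k, o' l = some k → o' l' = some k → l = l'

/-- the data near the point `a` -/
structure Loc (o : κ → Option (Fin N)) (r : κ → ℝ) (P : Finset (Finset κ)) (a : Cm N) (R C : ℝ)
    (h : Cm N → ℂ) (ρ u : Cm N → ℝ) : Prop where
  inj : ∀ l l' k, o l = some k → o l' = some k → l = l'
  pos : ∀ l, 0 < r l
  le : R ≤ 1
  C0 : 0 < C
  sup : ∃ K, IsClosed K ∧ K ⊆ ball a R ∧ ∀ z ∉ K, h z = 0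
  hc : Continuous h
  mρ : Measurable ρ
  bd : ∀ z ∈ ball a R, ‖h z‖ ≤ C ∧ ‖h z‖ ≤ C * sD o P z
  uc : ∀ z ∈ ball a R, ContinuousAt u z ∧ 0 ≤ u z ∧ u z ≤ C
  cp : ∀ z ∈ ball a R, ρ z ≤ C * (u z * mn o r z) ∧ u z * mn o r z ≤ C * ρ z

variable {σ : Fin j ↪ κ} {Ψ : (Fin j → ℂ) × Cm m ≃ᵐ Cm N} {r : κ → ℝ} {a : Cm N} {R C : ℝ}
  {h : Cm N → ℂ} {ρ u : Cm N → ℝ}

theorem Sp.mn (S : Sp o o' I σ Ψ) (γ : κ → ℝ) (t : Fin j → ℂ) (v : Cm m) :
    mn o γ (Ψ (t, v)) = (∏ a, ‖t a‖ ^ γ (σ a)) * mn o' γ v := by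
  rw [As.mn, As.mn, ← Finset.prod_mul_prod_compl I, ← Finset.prod_mul_prod_compl I (fun l =>
    ‖zt (o' l) v‖ ^ γ l), Finset.prod_eq_one (s := I) (f := fun l => ‖zt (o' l) v‖ ^ γ l)
      fun l hl => by simp [S.non l hl, zt], one_mul]
  congr 1
  · rw [S.eq, Finset.prod_map]
    simp only [S.fst]
  · exact Finset.prod_congr rfl fun l hl => by rw [S.snd t v l (Finset.mem_compl.1 hl)]

theorem Sp.mem (S : Sp o o' I σ Ψ) (b : Fin j) : σ b ∈ I := by simp [S.eq]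

theorem Sp.pI (S : Sp o o' I σ Ψ) (t : Fin j → ℂ) (v : Cm m) :
    pI o I (Ψ (t, v)) = As.mn o' (fun _ => ((Fintype.card κ : ℝ) + 1)⁻¹) v := by
  rw [As.pI, S.mn, Finset.prod_eq_one fun b _ => by rw [if_pos (S.mem b), Real.rpow_zero], one_mul]
  refine Finset.prod_congr rfl fun l _ => ?_
  by_cases hl : l ∈ I
  · simp [S.non l hl, zt]
  · simp only [if_neg hl]

theorem Sp.sD (S : Sp o o' I σ Ψ) (hI : I ∈ P) (hP : ∀ I' ∈ P, I'.card = I.card) (v : Cm m) :
    sD o P (Ψ (0, v)) = As.pI o I (Ψ (0, v)) := by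
  refine Finset.sum_eq_single_of_mem I hI fun I' h1 h2 => ?_
  obtain ⟨l, h3, h4⟩ := Finset.not_subset.1 fun c : I ⊆ I' =>
    h2 (Finset.eq_of_subset_of_card_le c (hP I' h1).le).symm
  obtain ⟨b, -, rfl⟩ := Finset.mem_map.1 (S.eq ▸ h3)
  refine Finset.prod_eq_zero (Finset.mem_univ (σ b)) ?_
  simp only [if_neg h4, S.fst, Pi.zero_apply, norm_zero]
  exact Real.zero_rpow (by positivity)

theorem Loc.zero (D : Loc o r P a R C h ρ u) {z : Cm N} (hz : z ∉ ball a R) : h z = 0 :=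
  let ⟨_, _, h1, h2⟩ := D.sup
  h2 z fun c => hz (h1 c)

theorem Loc.nn (D : Loc o r P a R C h ρ u) {z : Cm N} (hz : z ∈ ball a R) : 0 ≤ ρ z :=
  (mul_nonneg_iff_of_pos_left D.C0).1
    ((mul_nonneg (D.uc z hz).2.1 (mn_nn _ _)).trans (D.cp z hz).2)

theorem Loc.int (D : Loc o r P a R C h ρ u) {ε : ℝ} (hε : 0 < ε) :
    Integrable fun z => h z * ((ρ z ^ ε * mn o (fun _ => -2) z : ℝ) : ℂ) := by
  have h0 := D.C0
  refine (((int_mon D.inj (γ := fun l => r l * ε + -2) (fun l => by linarith [mul_pos (D.pos l) hε])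
    a R).integrable_indicator measurableSet_ball).const_mul (C * (C * C) ^ ε)).mono'
    (D.hc.measurable.mul ((D.mρ.pow_const ε).mul (mn_meas _)).complex_ofReal).aestronglyMeasurable
    (.of_forall fun z => ?_)
  by_cases hz : z ∈ ball a R
  · have h1 := Real.rpow_le_rpow (D.nn hz) ((D.cp z hz).1.trans (mul_le_mul_of_nonneg_left
      (mul_le_mul_of_nonneg_right (D.uc z hz).2.2 (mn_nn _ _)) h0.le)) hε.le
    rw [← mul_assoc, Real.mul_rpow (by positivity) (mn_nn _ _), mn_rpow] at h1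
    have h2 := mul_nonneg (Real.rpow_nonneg (D.nn hz) ε) (mn_nn (o := o) (fun _ => -2) z)
    rw [indicator_of_mem hz, norm_mul, Complex.norm_of_nonneg h2, mul_assoc]
    refine mul_le_mul (D.bd z hz).1 ((mul_le_mul_of_nonneg_right h1 (mn_nn _ _)).trans ?_) h2 h0.le
    rw [mul_assoc]
    exact mul_le_mul_of_nonneg_left (mn_mul _ _ z) (by positivity)
  · rw [indicator_of_notMem hz, D.zero hz, zero_mul, norm_zero, mul_zero]

theorem Loc.term (D : Loc o r P a R C h ρ u) (S : Sp o o' I σ Ψ) (hI : I ∈ P)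
    (hP : ∀ I' ∈ P, I'.card = I.card) (ha : ∀ l ∈ I, zt (o l) a = 0)
    (hu : ∀ᵐ v, Ψ (0, v) ∈ ball a R → 0 < u (Ψ (0, v))) :
    Integrable (fun v => h (Ψ (0, v)) * (mn o' (fun _ => -2) v : ℝ)) ∧
    Tendsto (fun ε : ℝ => ((ε ^ j : ℝ) : ℂ) * ∫ z, ((pI o I z / sD o P z : ℝ) : ℂ) *
      (h z * ((ρ z ^ ε * mn o (fun _ => -2) z : ℝ) : ℂ))) (𝓝[>] 0)
      (𝓝 (((∏ l ∈ I, 2 * Real.pi / r l : ℝ) : ℂ) *
        ∫ v, h (Ψ (0, v)) * (mn o' (fun _ => -2) v : ℝ))) := by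
  have h0 := D.C0
  set M := dist a (Ψ 0) + 1 with hM
  have hM1 : 1 ≤ M := le_add_of_nonneg_left dist_nonneg
  have k1 : ∀ t v, Ψ (t, v) ∈ ball a R → t ∈ ball 0 1 ∧ v ∈ ball 0 M := fun t v hz =>
    ⟨mem_ball_zero_iff.2 ((pi_norm_lt_iff one_pos).2 fun b => by
      rw [← S.fst t v b]
      exact (zt_lt (ha _ (S.mem b)) hz).trans_le D.le), by
      have h1 := dist_triangle (Ψ (t, v)) a (Ψ 0)
      rw [S.iso.dist_eq, Prod.dist_eq] at h1
      have h2 := mem_ball.1 hz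
      exact mem_ball.2 (((le_max_right _ _).trans h1).trans_lt (by linarith [D.le]))⟩
  have k2 : Integrable ((ball 0 M).indicator (mn o' fun _ => ((Fintype.card κ : ℝ) + 1)⁻¹ + -2)) :=
    (int_mon S.inj (γ := fun _ => ((Fintype.card κ : ℝ) + 1)⁻¹ + -2)
      (fun _ => lt_add_of_pos_left _ (by positivity)) 0 M).integrable_indicator measurableSet_ball
  have k3 : ∀ t v, Ψ (t, v) ∈ ball a R → ‖h (Ψ (t, v))‖ * (pI o I (Ψ (t, v)) / sD o P (Ψ (t, v))) *
      mn o' (fun _ => -2) v ≤ C * (ball 0 M).indicator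
        (mn o' fun _ => ((Fintype.card κ : ℝ) + 1)⁻¹ + -2) v := fun t v hz => by
    rw [indicator_of_mem (k1 t v hz).2]
    refine le_trans ?_ (mul_le_mul_of_nonneg_left (mn_mul _ _ v) h0.le)
    rw [← mul_assoc, ← S.pI t v]
    refine mul_le_mul_of_nonneg_right ((mul_le_mul_of_nonneg_right (D.bd _ hz).2
      (div_nonneg (mn_nn _ _) (sD_nn _))).trans ?_) (mn_nn _ _)
    rw [mul_assoc, mul_div_left_comm]
    exact mul_le_mul_of_nonneg_left (mul_le_of_le_one_right (mn_nn _ _) (div_self_le_one _)) h0.le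
  have k4 : ∀ v, (∀ l, zt (o' l) v ≠ 0) → ∀ γ, 0 < mn o' γ v := fun v hv γ =>
    Finset.prod_pos fun l _ => Real.rpow_pos_of_pos (norm_pos_iff.2 (hv l)) _
  have k5 : ∀ v, (∀ l, zt (o' l) v ≠ 0) → pI o I (Ψ (0, v)) / sD o P (Ψ (0, v)) = 1 :=
    fun v hv => by rw [S.sD hI hP, S.pI, div_self (k4 v hv _).ne']
  have c0 : ∀ v, Continuous fun t => Ψ (t, v) := fun v => S.iso.continuous.comp (by fun_prop)
  constructor
  · refine (k2.const_mul C).mono' ((D.hc.comp (S.iso.continuous.comp (by fun_prop))).measurable.mul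
      (mn_meas _).complex_ofReal).aestronglyMeasurable ((ae_zt o').mono fun v hv => ?_)
    by_cases hz : Ψ (0, v) ∈ ball a R
    · simpa only [k5 v hv, mul_one, norm_mul, Complex.norm_of_nonneg (mn_nn _ _)] using k3 0 v hz
    · rw [D.zero hz, zero_mul, norm_zero]
      exact mul_nonneg h0.le (indicator_nonneg (fun _ _ => mn_nn _ _) _)
  let A : (Fin j → ℂ) × Cm m → ℝ := fun p => ρ (Ψ p) / ∏ b, ‖p.1 b‖ ^ r (σ b)
  have a1 : ∀ t v, Ψ (t, v) ∈ ball a R → 0 ≤ A (t, v) ∧ A (t, v) ≤ C * (u (Ψ (t, v)) * mn o' r v) :=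
    fun t v hz => ⟨div_nonneg (D.nn hz) (by positivity), div_le_of_le_mul₀ (by positivity)
      (mul_nonneg h0.le (mul_nonneg (D.uc _ hz).2.1 (mn_nn _ _)))
      ((D.cp _ hz).1.trans_eq (by rw [S.mn]; ring))⟩
  rw [show ∏ l ∈ I, 2 * Real.pi / r l = ∏ b, 2 * Real.pi / r (σ b) by rw [S.eq, Finset.prod_map]]
  refine (flat' (fun b => D.pos (σ b)) (G := fun ε p => h (Ψ p) *
    ((pI o I (Ψ p) / sD o P (Ψ p) * mn o' (fun _ => -2) p.2 * A p ^ ε : ℝ) : ℂ)) (fun ε => ?_)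
    ((k2.const_mul C).mul_const (max (C * (C * ∏ l, M ^ r l)) 1)) (Ioo_mem_nhdsGT one_pos)
    (.of_forall fun v ε hε t _ => ?_) ?_).congr' ?_
  · exact (D.hc.measurable.comp Ψ.measurable).mul (((((pI_cont.measurable.div
      sD_cont.measurable).comp Ψ.measurable).mul ((mn_meas _).comp measurable_snd)).mul
      (((D.mρ.comp Ψ.measurable).div (Finset.measurable_fun_prod _ fun b _ =>
        ((measurable_pi_apply b).comp measurable_fst).norm.pow_const _)).pow_const ε)).complex_ofReal)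
  · by_cases hz : Ψ (t, v) ∈ ball a R
    · have h1 := a1 t v hz
      have h2 : 0 ≤ pI o I (Ψ (t, v)) / sD o P (Ψ (t, v)) * mn o' (fun _ => -2) v :=
        mul_nonneg (div_nonneg (mn_nn _ _) (sD_nn _)) (mn_nn _ _)
      rw [indicator_of_mem (k1 t v hz).1, Pi.one_apply, one_mul, norm_mul, Complex.norm_of_nonneg
        (mul_nonneg h2 (Real.rpow_nonneg h1.1 _)), ← mul_assoc, ← mul_assoc]
      refine mul_le_mul (k3 t v hz) ((Real.rpow_le_rpow h1.1 (h1.2.trans ((mul_le_mul_of_nonneg_left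
        (mul_le_mul (D.uc _ hz).2.2 (mn_le (fun l => (D.pos l).le) hM1 (mem_ball_zero_iff.1
          (k1 t v hz).2).le) (mn_nn _ _) h0.le) h0.le).trans (le_max_left _ 1))) hε.1.le).trans ?_)
        (Real.rpow_nonneg h1.1 _) (mul_nonneg h0.le (indicator_nonneg (fun _ _ => mn_nn _ _) _))
      exact (Real.rpow_le_rpow_of_exponent_le (le_max_right _ _) hε.2.le).trans_eq (Real.rpow_one _)
    · rw [D.zero hz, zero_mul, norm_zero]
      exact mul_nonneg (indicator_nonneg (fun _ _ => zero_le_one) _) (mul_nonneg (mul_nonneg h0.le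
        (indicator_nonneg (fun _ _ => mn_nn _ _) _)) (by positivity))
  · filter_upwards [ae_zt o', hu] with v hv hv'
    have t1 : Tendsto (fun p : ℝ × (Fin j → ℂ) => Ψ (p.2, v))
        (𝓝[>] 0 ×ˢ 𝓝[{t | ∀ b, t b ≠ 0}] 0) (𝓝 (Ψ (0, v))) :=
      ((c0 v).tendsto 0).comp (tendsto_snd.mono_right nhdsWithin_le_nhds)
    obtain ⟨K, s1, s2, s3⟩ := D.sup
    by_cases hz : Ψ (0, v) ∈ K
    swap
    · rw [s3 _ hz, zero_mul]
      exact tendsto_const_nhds.congr' ((t1.eventually (s1.isOpen_compl.mem_nhds hz)).mono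
        fun p hp => by simp only [s3 _ hp, zero_mul])
    have t2 : Tendsto (fun p : ℝ × (Fin j → ℂ) => p.1) (𝓝[>] 0 ×ˢ 𝓝[{t | ∀ b, t b ≠ 0}] 0) (𝓝 0) :=
      tendsto_fst.mono_right nhdsWithin_le_nhds
    have t3 := (((D.uc _ (s2 hz)).1.tendsto.comp t1).mul_const (mn o' r v))
    have t4 := mul_pos (hv' (s2 hz)) (k4 v hv r)
    have t5 : Tendsto (fun p : ℝ × (Fin j → ℂ) => A (p.2, v) ^ p.1)
        (𝓝[>] 0 ×ˢ 𝓝[{t | ∀ b, t b ≠ 0}] 0) (𝓝 1) := by
      have t6 := (t3.div_const C).rpow t2 (.inl (div_pos t4 h0).ne')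
      have t7 := (t3.const_mul C).rpow t2 (.inl (mul_pos h0 t4).ne')
      rw [Real.rpow_zero] at t6 t7
      have t8 := (t1.eventually (isOpen_ball.mem_nhds (s2 hz))).and
        ((tendsto_fst.eventually self_mem_nhdsWithin).and
          (tendsto_snd.eventually self_mem_nhdsWithin))
      refine tendsto_of_tendsto_of_tendsto_of_le_of_le' t6 t7 (t8.mono fun p hp => ?_)
        (t8.mono fun p hp => Real.rpow_le_rpow (a1 _ _ hp.1).1 (a1 _ _ hp.1).2 hp.2.1.le)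
      refine Real.rpow_le_rpow (div_nonneg (mul_nonneg (D.uc _ hp.1).2.1 (mn_nn _ _)) h0.le) ?_
        hp.2.1.le
      rw [div_le_div_iff₀ h0 (Finset.prod_pos fun b _ =>
        Real.rpow_pos_of_pos (norm_pos_iff.2 (hp.2.2 b)) _)]
      have t9 := (D.cp _ hp.1).2
      rw [S.mn] at t9
      exact le_trans (le_of_eq (by simp only [Function.comp]; ring)) (t9.trans_eq (mul_comm _ _))
    have t6 := (((pI_cont (o := o) (I := I)).tendsto _).comp t1).div
      (((sD_cont (o := o) (P := P)).tendsto _).comp t1) (by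
      rw [S.sD hI hP, S.pI]
      exact (k4 v hv _).ne')
    rw [k5 v hv] at t6
    have t7 := ((D.hc.tendsto _).comp t1).mul ((t6.mul_const (mn o' (fun _ => -2) v)).mul t5).ofReal
    rwa [one_mul, mul_one] at t7
  · filter_upwards [self_mem_nhdsWithin] with ε hε
    rw [← S.mp.integral_comp']
    refine congrArg _ (integral_congr_ae ?_)
    filter_upwards [Measure.quasiMeasurePreserving_fst.ae (ae_zt (N := j) some)] with ⟨t, v⟩ ht
    by_cases hz : Ψ (t, v) ∈ ball a R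
    swap
    · simp only [D.zero hz, zero_mul, mul_zero]
    have e1 : ∀ b, 0 < ‖t b‖ := fun b => norm_pos_iff.2 (ht b)
    have e2 : ∏ b, ‖t b‖ ^ (ε * r (σ b) - 2) =
        (∏ b, ‖t b‖ ^ r (σ b)) ^ ε * ∏ b, ‖t b‖ ^ (-2 : ℝ) := by
      rw [← Real.finsetProd_rpow _ _ fun _ _ => by positivity, ← Finset.prod_mul_distrib]
      exact Finset.prod_congr rfl fun b _ => by
        rw [← Real.rpow_mul (e1 b).le, ← Real.rpow_add (e1 b), mul_comm, sub_eq_add_neg]
    have e3 : (∏ b, ‖t b‖ ^ r (σ b)) ^ ε ≠ 0 :=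
      (Real.rpow_pos_of_pos (Finset.prod_pos fun b _ => Real.rpow_pos_of_pos (e1 b) _) _).ne'
    simp only [A]
    rw [mul_assoc, mul_left_comm _ (h _), ← Complex.ofReal_mul, ← Complex.ofReal_mul, e2, S.mn,
      Real.div_rpow (D.nn hz) (by positivity)]
    congr 2
    field_simp

end Vale.Agent.P281Z.Lv.As
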