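import Vale.Agent.P281Z.Lv.Sk
import Vale.Agent.P281Z.Lv.AsyT
import Vale.Agent.P281Z.Lv.AsyC
import Vale.Agent.P281Z.Lv.AsyP
import Vale.Agent.P281Z.Lg.Gl
import Vale.Agent.P281Z.Ha.Int

/-!
# P281Z, block LV: the asymptotics of the weighted integrals
-/

open scoped Topology ComplexConjugate ComplexOrder ContDiff
open Set Filter MeasureTheory Metric
open Vale.Agent.P272.K Vale.Agent.P284.H608.K Vale.Agent.P284.H205.K
open Vale.Agent.P281Z.Ha Vale.Agent.P281Z.Lg

noncomputable section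

namespace Vale.Agent.P281Z.Lv

namespace As

variable {κ V : Type} [Fintype κ] [LinearOrder κ] {n : ℕ} {L : Lad κ V n} {m j : ℕ}
  {b b' : L.B → V → ℂ} {r : κ → ℝ} {ρ : V → ℝ} {T : Set V}

variable (L b b') in
/-- the density in a chart, without the poles -/
def dn (c : (L.K m).I) (z : Cm m) : ℂ :=
  (Real.exp (-(L.K m).φ c z) : ℂ) * conj (L.nm m b' c z) * L.nm m b c z

variable (L b b') in
/-- the density -/
abbrev dd (m : ℕ) : (L.Y m).X → ℂ := dS (L.K m) (L.fm (L.nm m b)) (L.fm (L.nm m b'))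

theorem mn_two (c : (L.K m).I) (z : Cm m) :
    (mn (L.co c) (fun _ => -2) z : ℂ) = (L.pr c z * conj (L.pr c z))⁻¹ := by
  rw [← nsq, ← Complex.ofReal_inv, Lad.pr, norm_prod, ← Finset.prod_pow, ← Finset.prod_inv_distrib]
  exact congrArg _ (Finset.prod_congr rfl fun l _ => by
    rw [Real.rpow_neg (norm_nonneg _), Real.rpow_two])

theorem ch (hb : L.Chg (L.sk m) b) (hb' : L.Chg (L.sk m) b') (c : (L.K m).I) {g : (L.Y m).X → ℂ}
    (g0 : ∀ y ∉ ((L.K m).e c).source, g y = 0) {Φ : Cm m → ℂ} (hΦ : Integrable Φ)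
    (Φ0 : ∀ z ∉ ((L.K m).e c).target, Φ z = 0) (e : ∀ z ∈ ((L.K m).e c).target,
      Φ z = g (((L.K m).e c).symm z) * dn L b b' c z * (mn (L.co c) (fun _ => -2) z : ℝ)) :
    Integrable (fun y => g y * dd L b b' m y) (L.K m).μ ∧
      ∫ y, g y * dd L b b' m y ∂(L.K m).μ = ∫ z, Φ z := by
  let K := L.K m
  have mt := (K.e c).open_target.measurableSet
  have h6 : ∀ z ∈ (K.e c).target, Φ z =
      g ((K.e c).symm z) * dd L b b' m ((K.e c).symm z) * (K.w c z).det := fun z hz => by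
    have k := (K.e c).map_target hz
    rw [dd, dS_eq k (fun j => (L.top_fm (L.num_nm hb)).chg c j _ k)
      fun j => (L.top_fm (L.num_nm hb')).chg c j _ k, (K.e c).right_inv hz, Lad.fm, Lad.fm,
      if_pos hz, if_pos hz, wt, mul_assoc, mul_right_comm (_ / _),
      div_mul_cancel₀ _ (K.wpos c z hz).det_pos.ne', e z hz, mn_two, dn, map_div₀, map_mul,
      L.eps_conj, div_mul_div_comm, mul_mul_mul_comm (L.ε c), L.eps, one_mul]
    ring
  obtain ⟨h1, h2⟩ := (stInt stApi _ _ K).chart c (fun y => g y * dd L b b' m y)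
    (fun y hy => by rw [g0 y hy, zero_mul]) ((hΦ.integrableOn.1.mul
      (ContinuousOn.aestronglyMeasurable (f := fun z => ((K.w c z).det)⁻¹) (fun z hz =>
        ((contDiffAt_det (m := ∞) (K.wsm c z hz)).continuousAt.inv₀
          (K.wpos c z hz).det_pos.ne').continuousWithinAt) mt)).congr
      ((ae_restrict_mem mt).mono fun z hz =>
        (mul_inv_eq_iff_eq_mul₀ (K.wpos c z hz).det_pos.ne').2 (h6 z hz)))
  exact ⟨h1.2 (hΦ.integrableOn.congr_fun h6 mt), h2.trans ((setIntegral_congr_fun mt h6).symm.trans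
    (setIntegral_eq_integral_of_forall_compl_eq_zero Φ0))⟩

theorem ae_ch (c : (L.K m).I) {P : (L.Y m).X → Prop} (h : ∀ᵐ y ∂(L.K m).μ, P y) :
    ∀ᵐ z, z ∈ ((L.K m).e c).target → P (((L.K m).e c).symm z) := by
  have mt := ((L.K m).e c).open_target.measurableSet
  have h1 := ae_restrict_of_ae (s := ((L.K m).e c).source) h
  rw [map_nuC] at h1
  exact (ae_restrict_iff' mt).1 ((withDensity_absolutelyContinuous' det_meas ((ae_restrict_mem
    mt).mono fun z hz => (ENNReal.ofReal_pos.2 (It.det_re hz).1).ne')).ae_le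
      (ae_of_ae_map (symm_meas.mono_ac nuC_ac) h1))

theorem chg_down (hb : L.Sec n b) : L.Chg (L.sk m) b := fun β β' _ ⟨y, e⟩ =>
  let ⟨y', e'⟩ := ex_top L y
  hb.chg β β' _ ⟨y', e'.trans e⟩

theorem locj (hW : Wt L r ρ T) (hb : L.Sec n b) (hb' : L.Sec n b') (hj : m + j = n)
    {tp : (L.Y m).X → (L.Y n).X} (htp : ∀ y, L.pt (tp y) = L.pt y) {c : (L.K n).I} {J : Finset κ}
    {a : Cm n} {R C : ℝ} {χ : (L.Y n).X → ℝ} {h : Cm n → ℂ} {ρ' u : Cm n → ℝ}
    (D : Loc (L.co c) r (J.powersetCard j) a R C h ρ' u) (hJ : ∀ l ∈ J, zt (L.co c l) a = 0)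
    (hB : ∀ z ∈ ball a R, z ∈ ((L.K n).e c).target ∧ (∀ l ∉ J, zt (L.co c l) z ≠ 0) ∧
      ρ' z = ρ (L.pt (((L.K n).e c).symm z)) ∧ (L.pt (((L.K n).e c).symm z) ∉ T → 0 < u z))
    (hχ : ∀ y, χ y ≠ 0 → y ∈ ((L.K n).e c).source ∧ (L.K n).e c y ∈ ball a R)
    (hh : ∀ z ∈ ((L.K n).e c).target, h z = χ (((L.K n).e c).symm z) * dn L b b' c z) :
    (∀ ε : ℝ, 0 < ε → Integrable (fun y => χ y * dρ L ρ ε b b' y) (L.K n).μ) ∧
    Integrable (fun y => (χ (tp y) * wI r (L.lab y) : ℝ) * dd L b b' m y) (L.K m).μ ∧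
    Tendsto (fun ε : ℝ => ((ε ^ j : ℝ) : ℂ) * ∫ y, χ y * dρ L ρ ε b b' y ∂(L.K n).μ) (𝓝[>] 0)
      (𝓝 (∫ y, (χ (tp y) * wI r (L.lab y) : ℝ) * dd L b b' m y ∂(L.K m).μ)) := by
  have h0 : ∀ z ∉ ((L.K n).e c).target, h z = 0 := fun z hz => D.zero fun k => hz (hB z k).1
  have M1 := fun (ε : ℝ) (hε : 0 < ε) => ch hb.chg hb'.chg c
    (g := fun y => χ y * (ρ (L.pt y) ^ ε : ℝ)) (fun y hy => by
      rw [by_contra fun k : ¬ χ y = 0 => hy (hχ y k).1, Complex.ofReal_zero, zero_mul])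
    (D.int hε) (fun z hz => by rw [h0 z hz, zero_mul]) fun z hz => by
      by_cases k : z ∈ ball a R
      · rw [hh z hz, (hB z k).2.2.1, Complex.ofReal_mul]
        ring
      · rw [D.zero k, by_contra fun k' : ¬ χ (((L.K n).e c).symm z) = 0 =>
          k (((L.K n).e c).right_inv hz ▸ (hχ _ k').2)]
        simp
  simp only [mul_assoc] at M1
  have M2 : ∀ I ∈ J.powersetCard j, Integrable (fun y => (if L.lab y = I then
      ((χ (tp y) * wI r I : ℝ) : ℂ) else 0) * dd L b b' m y) (L.K m).μ ∧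
      Tendsto (fun ε : ℝ => ((ε ^ j : ℝ) : ℂ) * ∫ z, ((pI (L.co c) I z /
        sD (L.co c) (J.powersetCard j) z : ℝ) : ℂ) *
          (h z * ((ρ' z ^ ε * mn (L.co c) (fun _ => -2) z : ℝ) : ℂ))) (𝓝[>] 0)
        (𝓝 (∫ y, (if L.lab y = I then ((χ (tp y) * wI r I : ℝ) : ℂ) else 0) *
          dd L b b' m y ∂(L.K m).μ)) := fun I hI => by
    obtain ⟨k1, k2⟩ := Finset.mem_powersetCard.1 hI
    obtain ⟨σ, c', Ψ, rfl, H⟩ := chain' L hj c k2 fun l hl => Option.ne_none_iff_exists'.1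
      fun e => one_ne_zero (e ▸ hJ l (k1 hl) :)
    obtain ⟨k3, k4⟩ := D.term (σ := σ) (Ψ := Ψ) ⟨rfl, H.mp, H.iso, fun t v a => H.on a _,
      fun t v l hl => H.off l hl _, fun l hl => by
        obtain ⟨a, -, rfl⟩ := Finset.mem_map.1 hl
        exact H.non a, L.inj _ c'⟩ hI
      (fun I' hI' => (Finset.mem_powersetCard.1 hI').2.trans k2.symm) (fun l hl => hJ l (k1 hl))
      ((ae_ch c' (hW.ae m)).mono fun v hv hz => (hB _ hz).2.2.2 (by
        rw [H.symm ((H.tg v).2 (hB _ hz).1)]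
        exact hv ((H.tg v).2 (hB _ hz).1)))
    obtain ⟨k5, k6⟩ := ch (chg_down hb) (chg_down hb') c' (g := fun y =>
      if L.lab y = Finset.univ.map σ then ((χ (tp y) * wI r (Finset.univ.map σ) : ℝ) : ℂ) else 0)
      (fun y hy => ite_eq_right_iff.2 fun e => by
        obtain ⟨y₁, e1, -, e2, -⟩ := H.up y e.ge
        rw [by_contra fun k : ¬ χ (tp y) = 0 =>
          hy (e2.1 (hW.inj (e1.trans (htp y).symm) ▸ (hχ _ k).1)), zero_mul, Complex.ofReal_zero])
      (k3.const_mul (wI r (Finset.univ.map σ) : ℝ))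
      (fun v hv => by rw [h0 _ (mt (H.tg v).2 hv), zero_mul, mul_zero]) fun v hv => by
        have e1 := L.card m (((L.K m).e c').symm v)
        rw [if_pos (Finset.eq_of_subset_of_card_le (H.sub _ (((L.K m).e c').map_target hv))
          (by omega)).symm, hh _ ((H.tg v).1 hv), hW.inj ((H.symm hv).trans (htp _).symm), dn, dn,
          H.nm b hv, H.nm b' hv, H.φ v hv, Complex.ofReal_mul]
        ring
    exact ⟨k5, by rwa [k6, integral_const_mul]⟩
  have M3 : ∀ y, ∑ I ∈ J.powersetCard j, (if L.lab y = I then ((χ (tp y) * wI r I : ℝ) : ℂ)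
      else 0) * dd L b b' m y = (χ (tp y) * wI r (L.lab y) : ℝ) * dd L b b' m y := fun y => by
    rw [← Finset.sum_mul, Finset.sum_ite_eq]
    refine congrArg (· * _) (ite_eq_left_iff.2 fun k => ?_)
    rw [by_contra fun k' : ¬ χ (tp y) = 0 => k (Finset.mem_powersetCard.2 ⟨fun l hl => ?_, by
      have := L.card m y
      omega⟩), zero_mul, Complex.ofReal_zero]
    obtain ⟨i, e1, e2⟩ := labj L hW.inj (htp y) (hχ _ k').1 hl
    exact by_contra fun k'' => (hB _ (hχ _ k').2).2.1 l k'' (by rw [e1]; exact e2)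
  refine ⟨fun ε hε => (M1 ε hε).1, (integrable_finsetSum _ fun I hI => (M2 I hI).1).congr
    (.of_forall M3), ?_⟩
  rw [← integral_congr_ae (.of_forall M3), integral_finsetSum _ fun I hI => (M2 I hI).1]
  refine (tendsto_finsetSum _ fun I hI => (M2 I hI).2).congr' ?_
  filter_upwards [self_mem_nhdsWithin] with ε hε
  rw [← Finset.mul_sum, ← integral_finsetSum _ fun I hI => (D.int hε).bdd_mul (c := 1)
    (f := fun z => ((pI (L.co c) I z / sD (L.co c) (J.powersetCard j) z : ℝ) : ℂ))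
    (pI_cont.measurable.div sD_cont.measurable).complex_ofReal.aestronglyMeasurable
    (.of_forall fun z => by
      exact (Complex.norm_of_nonneg (div_nonneg (mn_nn _ _) (sD_nn _))).trans_le
        (div_le_one_of_le₀ (pI_le hI z) (sD_nn _)))]
  refine congrArg _ (Eq.trans (integral_congr_ae (.of_forall fun z => ?_)) (M1 ε hε).2.symm)
  simp only [← Finset.sum_mul, ← Complex.ofReal_sum, ← Finset.sum_div]
  by_cases k : sD (L.co c) (J.powersetCard j) z = 0
  · rw [show h z = 0 from (em (z ∈ ball a R)).elim (fun k' => norm_le_zero_iff.1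
      ((D.bd z k').2.trans_eq (by rw [k, mul_zero]))) D.zero, zero_mul, mul_zero]
  · rw [show (∑ I ∈ _, pI _ I z) / sD _ _ z = 1 from div_self k, Complex.ofReal_one, one_mul]

theorem van (hj : m + j = n) {c : (L.K n).I} {S : Finset κ} (hS : S.card = j) {z : Cm n}
    (hz : z ∈ ((L.K n).e c).target) (h : ∀ l ∈ S, zt (L.co c l) z = 0) :
    L.pt (((L.K n).e c).symm z) ∈ L.sk m := by
  obtain ⟨σ, c', Ψ, rfl, H⟩ := chain' L hj c hS fun l hl => Option.ne_none_iff_exists'.1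
    fun e => one_ne_zero (e ▸ h l hl :)
  obtain ⟨v, rfl⟩ := H.slice fun a => h _ (Finset.mem_map_of_mem σ (Finset.mem_univ a))
  exact ⟨_, (H.symm ((H.tg v).2 hz)).symm⟩

theorem card_le (c : (L.K n).I) {S : Finset κ} {z : Cm n} (h : ∀ l ∈ S, zt (L.co c l) z = 0) :
    S.card ≤ n := by
  have h1 : ∀ l : S, ∃ k, L.co c l = some k := fun l => Option.ne_none_iff_exists'.1
    fun e => one_ne_zero (e ▸ h l l.2 :)
  choose f hf using h1
  simpa using Fintype.card_le_of_injective f fun l l' e =>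
    Subtype.ext (L.inj _ c _ _ _ (hf l) (e ▸ hf l'))

theorem loc (hW : Wt L r ρ T) (hb : L.Sec n b) (hb' : L.Sec n b') {e k : ℕ} (hk : e + k = n)
    (hv : ∀ m, m + 1 = e → L.Agr (L.sk m) b 0) {tp : (L.Y e).X → (L.Y n).X}
    (htp : ∀ y, L.pt (tp y) = L.pt y) (x : (L.Y n).X) : ∃ W ∈ 𝓝 x, ∀ χ : (L.Y n).X → ℝ,
      tsupport χ ⊆ W → (∀ y, 0 ≤ χ y ∧ χ y ≤ 1) → (Sm (L.K n) fun i z => χ (((L.K n).e i).symm z)) →
      (∀ ε : ℝ, 0 < ε → Integrable (fun y => χ y * dρ L ρ ε b b' y) (L.K n).μ) ∧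
      Integrable (fun y => (χ (tp y) * wI r (L.lab y) : ℝ) * dd L b b' e y) (L.K e).μ ∧
      Tendsto (fun ε : ℝ => ((ε ^ k : ℝ) : ℂ) * ∫ y, χ y * dρ L ρ ε b b' y ∂(L.K n).μ) (𝓝[>] 0)
        (𝓝 (∫ y, (χ (tp y) * wI r (L.lab y) : ℝ) * dd L b b' e y ∂(L.K e).μ)) := by
  classical
  obtain ⟨c, u, hx, hu, C₁, c1, c2⟩ := hW.cpb x
  let E := (L.K n).e c
  have ha := E.map_source hx
  have tg : ∀ᶠ z in 𝓝 (E x), z ∈ E.target := E.open_target.mem_nhds ha
  let J : Finset κ := {l | zt (L.co c l) (E x) = 0}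
  have hJ : ∀ l, l ∈ J ↔ zt (L.co c l) (E x) = 0 := fun l => by simp [J]
  obtain ⟨C₂, c3⟩ := lip (L.co c) hJ (hb.hol c _ ha) (min_le_right k _) (tg.mono
    fun z hz S h1 h2 h3 => by
      have h4 := Finset.card_le_card h1
      have h5 := card_le c h3
      exact hv (e - 1) (by omega) _ _ (van (j := S.card) (by omega) rfl hz h3)
        (L.mem n c _ (E.map_target hz)))
  have dc : ∀ z ∈ E.target, ContinuousAt (fun z => (Real.exp (-(L.K n).φ c z) : ℂ) *
      conj (L.nm n b' c z)) z := fun z hz => (Complex.continuous_ofReal.continuousAt.comp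
        ((L.K n).φsm c z hz).continuousAt.neg.rexp).mul
      (Complex.continuous_conj.continuousAt.comp (hb'.hol c z hz).continuousAt)
  obtain ⟨C₃, c4, c5⟩ := bdd_near hu.self_of_nhds.1
  obtain ⟨C₄, c6, c7⟩ := bdd_near (dc _ ha).norm
  obtain ⟨C₅, c8, c9⟩ := bdd_near (hb.hol c _ ha).continuousAt.norm
  have c10 : ∀ᶠ z in 𝓝 (E x), ∀ l, l ∉ J → zt (L.co c l) z ≠ 0 := eventually_all.2 fun l =>
    eventually_imp_distrib_left.2 fun hl => (zt_cont _).continuousAt.eventually_ne (mt (hJ l).2 hl)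
  obtain ⟨R, hR, hB⟩ := Metric.eventually_nhds_iff_ball.1 (tg.and (((E.tendsto_symm hx).eventually
    (hu.and (c2.and c5))).and (c3.and (c7.and (c9.and c10)))))
  replace hB := fun z (hz : z ∈ ball (E x) (min R 1)) => hB z (ball_subset_ball (min_le_left _ _) hz)
  refine ⟨_, inter_mem (E.open_source.mem_nhds hx) ((E.continuousAt hx).preimage_mem_nhds
    (ball_mem_nhds _ (lt_min hR one_pos))), fun χ h1 h2 h3 => ?_⟩
  let h : Cm n → ℂ := E.target.indicator fun z => χ (E.symm z) * dn L b b' c z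
  have hC : IsCompact (E '' tsupport χ) := (isClosed_tsupport _).isCompact.image_of_continuousOn
    (E.continuousOn.mono fun y hy => (h1 hy).1)
  have z0 : ∀ z ∉ E '' tsupport χ, h z = 0 := fun z hz => indicator_apply_eq_zero.2 fun k =>
    mul_eq_zero_of_left (Complex.ofReal_eq_zero.2 (image_eq_zero_of_notMem_tsupport
      fun k' => hz ⟨_, k', E.right_inv k⟩)) _
  have n1 : ∀ z ∈ ball (E x) (min R 1), ‖h z‖ ≤ C₄ * ‖L.nm n b c z‖ := fun z hz => by
    rw [show h z = _ from indicator_of_mem (hB z hz).1 _, norm_mul, dn, norm_mul,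
      Complex.norm_of_nonneg (h2 _).1]
    exact (mul_le_of_le_one_left (by positivity) (h2 _).2).trans
      (mul_le_mul_of_nonneg_right (hB z hz).2.2.2.1 (norm_nonneg _))
  have p1 := mul_pos c6 c8
  have p2 := mul_nonneg c6.le (abs_nonneg C₂)
  have D : Loc (L.co c) r (J.powersetCard (min k J.card)) (E x) (min R 1)
      (C₁ + C₃ + C₄ * C₅ + C₄ * |C₂|) h ((ball (E x) (min R 1)).piecewise
        (fun z => ρ (L.pt (E.symm z))) 0) fun z => u (E.symm z) :=
    { inj := L.inj _ c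
      pos := hW.pos
      le := min_le_right _ _
      C0 := by positivity
      sup := ⟨_, hC.isClosed, image_subset_iff.2 fun y hy => (h1 hy).2, z0⟩
      hc := continuous_iff_continuousAt.2 fun z => by
        by_cases hz : z ∈ E.target
        · refine ((Complex.continuous_ofReal.continuousAt.comp (h3 c z hz).continuousAt).mul
            ((dc z hz).mul (hb.hol c z hz).continuousAt)).congr ?_
          filter_upwards [E.open_target.mem_nhds hz] with v hv using (indicator_of_mem hv _).symm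
        · exact continuousAt_const.congr (eventually_of_mem (hC.isClosed.isOpen_compl.mem_nhds
            fun ⟨y, k1, k2⟩ => hz (k2 ▸ E.map_source (h1 k1).1)) fun v hv => (z0 v hv).symm)
      mρ := ContinuousOn.measurable_piecewise (hW.cont.comp_continuousOn
        (E.continuousOn_symm.mono fun z hz => (hB z hz).1)) continuousOn_const measurableSet_ball
      bd := fun z hz => ⟨(n1 z hz).trans ((mul_le_mul_of_nonneg_left (hB z hz).2.2.2.2.1
        c6.le).trans (by linarith)), (n1 z hz).trans ((mul_le_mul_of_nonneg_left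
          ((hB z hz).2.2.1.trans (mul_le_mul_of_nonneg_right (le_abs_self _) (sD_nn z)))
            c6.le).trans ((mul_assoc _ _ _).ge.trans
              (mul_le_mul_of_nonneg_right (by linarith) (sD_nn z))))⟩
      uc := fun z hz => ⟨(hB z hz).2.1.1.1.comp (E.continuousAt_symm (hB z hz).1),
        (hB z hz).2.1.1.2.1, (hB z hz).2.1.2.2.trans (by linarith)⟩
      cp := fun z hz => by
        obtain ⟨k1, ⟨⟨-, k2, -⟩, k3, -⟩, -⟩ := hB z hz
        rw [piecewise_eq_of_mem _ _ _ hz]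
        simp only [show (L.K n).e c (E.symm z) = z from E.right_inv k1] at k3
        have k4 := mul_nonneg k2 (mn_nn (o := L.co c) r z)
        exact ⟨k3.1.trans (mul_le_mul_of_nonneg_right (by linarith) k4),
          k3.2.trans (mul_le_mul_of_nonneg_right (by linarith)
            ((mul_nonneg_iff_of_pos_left c1).1 (k4.trans k3.2)))⟩ }
  have hχ : ∀ y, χ y ≠ 0 → y ∈ E.source ∧ E y ∈ ball (E x) (min R 1) :=
    fun y hy => h1 (subset_tsupport _ hy)
  have key := fun (m : ℕ) (hm : m + min k J.card = n) (tp : (L.Y m).X → (L.Y n).X) htp =>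
    locj hW hb hb' hm (tp := tp) htp D (fun l => (hJ l).1) (fun z hz => ⟨(hB z hz).1,
      (hB z hz).2.2.2.2.2, piecewise_eq_of_mem _ _ _ hz, (hB z hz).2.1.1.2.2⟩) hχ
      fun z hz => indicator_of_mem hz _
  rcases le_or_gt k J.card with k1 | k1
  · rw [min_eq_left k1] at key
    exact key e hk tp htp
  rw [min_eq_right k1.le] at key
  choose tp' htp' using ex_top L (m := n - J.card)
  obtain ⟨k2, -, k3⟩ := key _ (by omega) tp' htp'
  have k4 : ∀ y, χ (tp y) = 0 := fun y => by_contra fun k5 => by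
    have k6 : L.lab y ⊆ J := fun l hl => by
      obtain ⟨i, e1, e2⟩ := labj L hW.inj (htp y) (hχ _ k5).1 hl
      exact by_contra fun k7 => (hB _ (hχ _ k5).2).2.2.2.2.2 l k7 (by rw [e1]; exact e2)
    have := Finset.card_le_card k6
    have := L.card e y
    omega
  simp only [k4, zero_mul, Complex.ofReal_zero, integral_zero]
  refine ⟨k2, integrable_zero _ _ _, ?_⟩
  have k5 : Tendsto (fun ε : ℝ => ((ε ^ (k - J.card) : ℝ) : ℂ)) (𝓝[>] 0) (𝓝 0) :=
    tendsto_nhdsWithin_of_tendsto_nhds (Continuous.tendsto' (by fun_prop) _ _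
      (by simp [Nat.sub_ne_zero_of_lt k1]))
  simpa only [zero_mul, ← mul_assoc, ← Complex.ofReal_mul, ← pow_add, Nat.sub_add_cancel k1.le]
    using k5.mul k3

theorem main (hW : Wt L r ρ T) (hb : L.Sec n b) (hb' : L.Sec n b') {e k : ℕ} (hk : e + k = n)
    (hv : ∀ m, m + 1 = e → L.Agr (L.sk m) b 0) :
    (∀ ε : ℝ, 0 < ε → Integrable (dρ L ρ ε b b') (L.K n).μ) ∧
    Tendsto (fun ε : ℝ => ((ε ^ k : ℝ) : ℂ) * ∫ y, dρ L ρ ε b b' y ∂(L.K n).μ) (𝓝[>] 0)
      (𝓝 (pS _ (mu _ (fun y => wI r (L.lab y)) (L.fm (L.nm e b))) (L.fm (L.nm e b')))) := by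
  choose tp htp using ex_top L (m := e)
  choose W hW' h using loc hW hb hb' hk hv htp
  obtain ⟨s, χ, h1, h2, h3, h4⟩ := (stInt stApi _ _ (L.K n)).pou W hW'
  replace h := fun x (hx : x ∈ s) => h x _ (h1 x) (fun y => ⟨h3 x y, (Finset.single_le_sum
    (fun x _ => h3 x y) hx).trans_eq (h2 y)⟩) (h4 x)
  have e1 : ∀ ε y, ∑ x ∈ s, χ x y * dρ L ρ ε b b' y = dρ L ρ ε b b' y := fun ε y => by
    rw [← Finset.sum_mul, ← Complex.ofReal_sum, h2, Complex.ofReal_one, one_mul]
  have e2 : ∀ y, ∑ x ∈ s, (χ x (tp y) * wI r (L.lab y) : ℝ) * dd L b b' e y =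
      dS _ (mu _ (fun y => wI r (L.lab y)) (L.fm (L.nm e b))) (L.fm (L.nm e b')) y := fun y => by
    rw [← Finset.sum_mul, ← Complex.ofReal_sum, ← Finset.sum_mul, h2, one_mul, dd, dS, dS, mu,
      ((L.K e).e _).left_inv (ix_src _ y)]
    ring
  refine ⟨fun ε hε => (integrable_finsetSum s fun x hx => (h x hx).1 ε hε).congr
    (.of_forall (e1 ε)), ?_⟩
  rw [pS, ← integral_congr_ae (.of_forall e2), integral_finsetSum _ fun x hx => (h x hx).2.1]
  refine (tendsto_finsetSum _ fun x hx => (h x hx).2.2).congr' ?_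
  filter_upwards [self_mem_nhdsWithin] with ε hε
  rw [← Finset.mul_sum, ← integral_finsetSum _ fun x hx => (h x hx).1 ε hε,
    integral_congr_ae (.of_forall (e1 ε))]

end As

/-- **ASY** -/
theorem stAsy : StAsy := fun _ _ _ _ _ _ _ _ _ _ _ _ _ hk he hW hb hb' =>
  As.main hW hb hb' hk fun m hm _ _ ⟨y, _⟩ => ((he m (by omega)).false y).elim

/-- **ASYG** -/
theorem stAsyG : StAsyG := fun _ _ _ _ _ _ _ _ _ _ _ _ _ hk hv hW hb hb' =>
  (As.main hW hb hb' hk hv).2

end Vale.Agent.P281Z.Lv
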