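import Vale.Agent.P281Z.Lv.Num

/-!
# P281Z, block LV: sections on a general fibre extend
-/

open scoped Manifold ContDiff Topology
open Set Filter
open Vale.Agent.P272.K Vale.Agent.P285.H281.FD Vale.Agent.P284.H608.K
open Vale.Agent.P277Z (Hol at_chart hol_const)
open Vale.Agent.P277Z.Slc (LEq Snc isLB_can)
open Vale.Agent.P277.HD (pull)
open Vale.Agent.P281Z.Ha Vale.Agent.P281Z.Lg

noncomputable section

namespace Vale.Agent.P281Z.Lv

namespace Nm

variable {κ : Type} [Fintype κ] [LinearOrder κ] {w d : ℕ} {V : Mf (w + d)} {W : Mf w}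
  {L : Lad κ V.X (w + d)} {D : κ → Set V.X} {fr : L.B → Chart (w + d) V.X → V.X → ℂ}
  {f : V.X → W.X} {χ : Chart w W.X} {y : W.X} (S : Slc L f χ y)

/-- in the fibre the divisors are coordinate hyperplanes -/
theorem off_of (h : Geo L D fr) {c : (S.F.K d).I} {z : (S.F.Y d).X}
    (hz : z ∈ ((S.F.K d).e c).source) (k : S.F.pr c ((S.F.K d).e c z) ≠ 0) : S.F.pt z ∈ off D := by
  intro l hl
  have h1 : L.lab (S.j z) = ∅ := Finset.card_eq_zero.1 (by simpa using L.card _ (S.j z))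
  have h2 := ((h.co _ _ _ (j_src S hz) l).2 (by simp [h1])).1 (by rwa [S.pt])
  rw [S.val d c z hz, S.co] at h2
  refine Finset.prod_ne_zero_iff.1 k l (Finset.mem_univ l) ?_
  cases h3 : S.F.co c l with
  | none => simp [h3, zt] at h2
  | some a => simpa [h3, zt] using h2

theorem freq (h : Geo L D fr) (z : (S.F.Y d).X) : ∃ᶠ z' in 𝓝 z, S.F.pt z' ∈ off D := by
  have hz := ix_src (S.F.K d) z
  set c := (S.F.K d).ix z
  have h1 := ((S.F.K d).e c).map_source hz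
  have h2 := (mem_closure_iff_frequently.1 (S.F.dense_pr c ((S.F.K d).e c z))).and_eventually
    (((S.F.K d).e c).open_target.mem_nhds h1)
  refine (((S.F.K d).e c).tendsto_symm hz).frequently (h2.mono fun v a => ?_)
  exact off_of S h (((S.F.K d).e c).map_target a.2) (by rw [((S.F.K d).e c).right_inv a.2]; exact a.1)

theorem u_mem {m : ℕ} {c : (S.F.K m).I} {z : (S.F.Y m).X} (hz : z ∈ ((S.F.K m).e c).source) :
    S.F.pt z ∈ L.U (S.bb (S.F.bs c)) := S.U _ ▸ S.F.mem m c z hz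

/-- a section on the fibre as a section of the pull back of `K + D` -/
theorem secP (h : Geo L D fr) (hp : HolM d (w + d) (S.F.pt (m := d))) {b : S.F.B → V.X → ℂ}
    (hb : S.F.Sec d b) : ∃ t, SecP d (w + d) (S.F.pt (m := d)) univ
      (pull S.F.pt (Bd.can (w + d) V.X)) D (fun _ => 1) t ∧ ∀ c, ∀ z ∈ ((S.F.K d).e c).source,
      S.F.pt z ∈ off D → ∀ e, At e (S.F.pt z) →
        t e z = b (S.F.bs c) (S.F.pt z) * fr (S.bb (S.F.bs c)) e (S.F.pt z) := by
  set t : Chart (w + d) V.X → (S.F.Y d).X → ℂ := fun e z => b (S.F.bs ((S.F.K d).ix z)) (S.F.pt z) *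
    fr (S.bb (S.F.bs ((S.F.K d).ix z))) e (S.F.pt z) with ht
  have h1 : ∀ c, ∀ z ∈ ((S.F.K d).e c).source, S.F.pt z ∈ off D → ∀ e, At e (S.F.pt z) →
      t e z = b (S.F.bs c) (S.F.pt z) * fr (S.bb (S.F.bs c)) e (S.F.pt z) := fun c z a1 a2 e a3 => by
    have a4 := ix_src (S.F.K d) z
    rw [h.frB _ _ e _ a2 (u_mem S a4) (u_mem S a1) a3, ← S.G, ← mul_assoc, mul_comm (b _ _),
      ← hb.chg _ _ _ ⟨z, rfl⟩ (S.F.mem d _ z a4) (S.F.mem d c z a1)]
  have h2 : ∀ z e, At e (S.F.pt z) → ∀ᶠ z' in 𝓝 z, S.F.pt z' ∈ off D → t e z' =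
      b (S.F.bs ((S.F.K d).ix z)) (S.F.pt z') * fr (S.bb (S.F.bs ((S.F.K d).ix z))) e (S.F.pt z') :=
    fun z e a => by
      filter_upwards [((S.F.K d).e _).open_source.mem_nhds (ix_src (S.F.K d) z),
        hp.cont.continuousAt.eventually (at_near a)] with z' a1 a2 a3 using h1 _ z' a1 a3 e a2
  refine ⟨t, ⟨fun e z _ a1 a2 => ?_, fun e e' z _ a1 a1' a2 => ?_, fun e z _ a1 => ?_⟩, h1⟩
  · have a3 := ix_src (S.F.K d) z
    refine ((holS hb a3).mul (hp.hol (fr_hol h a2 (u_mem S a3) a1))).congr ?_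
    filter_upwards [h2 z e a1, hp.cont.continuousAt.eventually
      ((Hyp.of_snc h.snc).isOpen.mem_nhds a2)] with z' a4 a5 using (a4 a5).symm
  · simp only [ht]
    rw [h.frC _ e e' _ a2 (u_mem S (ix_src _ z)) a1 a1', mul_left_comm]
    rfl
  · have a3 := ix_src (S.F.K d) z
    exact (((fr_bd h (u_mem S a3) a1).comp hp.cont.continuousAt).cmul
      (holS hb a3).cont).congr (h2 z e a1)

end Nm

open Nm

theorem stExt (hG : GR) (hT : StTr) (hN : StNum) : StExt := by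
  intro κ _ _ w d V W L D fr f h hf hW
  obtain ⟨T, ρ, hT', -, hU⟩ := hG _ w V W f _ κ D (fun _ => 1) hW hf isLB_can h.snc
  obtain ⟨n1, n2⟩ := hN κ w d V W L D fr f h hf
  refine ⟨T, hT', fun y hy χ S b' hb' => ?_⟩
  obtain ⟨U, k, s, u1, u2, u3, -, u4⟩ := hU y
  have hE := (hT κ w d V W L D fr f h hf χ y S).1
  obtain ⟨t, t1, t2⟩ := secP S h hE.hol hb'
  obtain ⟨a, ha⟩ := (u4 y u2 hy).1 d _ _ hE t t1
  obtain ⟨b, b1, b2⟩ := n1 _ (u1.preimage hf.cont) _
    (secP_sum Finset.univ fun j _ => (u3 j).smul fun x _ => hol_const (a j) x)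
  have b3 := n2 χ y S _ b b1 (fun x hx => by rw [mem_preimage, hx]; exact u2) d
  refine ⟨U, b, u1, u2, b1, fun β x ⟨z, hz⟩ a1 => ?_⟩
  subst hz
  have a2 := ix_src (S.F.K d) z
  have a3 := S.F.mem d _ z a2
  rw [b3.chg β _ _ ⟨z, rfl⟩ a1 a3, hb'.chg β _ _ ⟨z, rfl⟩ a1 a3]
  refine congrArg _ (tendsto_nhds_unique_of_frequently_eq (holS b3 a2).cont
    (holS hb' a2).cont (((freq S h z).and_eventually
      (((S.F.K d).e _).open_source.mem_nhds a2)).mono fun z' a4 => ?_))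
  have a5 := at_chart (n := w + d) (S.F.pt z')
  refine mul_right_cancel₀ (fr_ne h a4.1 (u_mem S a4.2) a5) ?_
  rw [← t2 _ z' a4.2 a4.1 _ a5, ha z' a4.1 _ a5]
  exact (b2 _ _ _ (by rw [mem_preimage, f_pt S]; exact u2) a4.1 (u_mem S a4.2) a5).symm

end Vale.Agent.P281Z.Lv
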