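import Vale.Agent.P281Z.Lv.FibA

/-!
# P281Z, block LV, row FIB: the slice of a Kähler atlas
-/

open scoped Manifold ContDiff Topology ENNReal Matrix ComplexConjugate ComplexOrder
open Set Filter MeasureTheory
open Vale.Agent.P272.K Vale.Agent.P284.H608.K Vale.Agent.P281Z.Lg Vale.Agent.P281Z.Ha

noncomputable section

namespace Vale.Agent.P281Z.Lv.Fb

variable {w m : ℕ} {Z : Mf (w + m)}

/-- a family of charts of `K` which cut out the closed set `S` -/
structure Sli (K : KA (w + m) Z.X) (S : Set Z.X) (t : Cm w) : Type 1 where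
  J : Type
  p : J → K.I
  z : J → S
  cl : IsClosed S
  cut : ∀ c, Cut S t (K.e (p c))
  cov : ∀ x : S, ∃ c, x.1 ∈ (K.e (p c)).source
  fst : ∀ c c', ∀ x ∈ (K.e (p c)).source, x ∈ (K.e (p c')).source → ∀ a,
    K.e (p c') x (Fin.castAdd m a) = K.e (p c) x (Fin.castAdd m a)

namespace Sli

variable {K : KA (w + m) Z.X} {S : Set Z.X} {t : Cm w} (A : Sli K S t)

/-- the charts -/
def e (c : A.J) : Chart m S := (A.cut c).ch (A.z c)

theorem symm_eq {c : A.J} {v : Cm m} (h : v ∈ (A.e c).target) :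
    ((A.e c).symm v : Z.X) = (K.e (A.p c)).symm (Fin.append t v) := (A.cut c).symm_eq _ h

theorem val {c : A.J} {x : S} (h : x ∈ (A.e c).source) :
    K.e (A.p c) x = Fin.append t (A.e c x) := (A.cut c).val h

theorem hol (c c' : A.J) (v : Cm m) (h : v ∈ (A.e c).target)
    (h' : (A.e c).symm v ∈ (A.e c').source) :
    AnalyticAt ℂ (fun z => A.e c' ((A.e c).symm z)) v := by
  have h1 : (K.e (A.p c)).symm (Fin.append t v) ∈ (K.e (A.p c')).source := A.symm_eq h ▸ h'
  exact analyticAt_pi_iff.2 fun k => (A.cut c).an (A.z c)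
    (F := fun x => K.e (A.p c') x (Fin.natAdd w k)) h
    (analyticAt_pi_iff.1 (K.hol _ _ _ h h1) _)

theorem jac {c c' : A.J} {x : S} (h : x ∈ (A.e c).source) (h' : x ∈ (A.e c').source) :
    jacM (A.e c) (A.e c') x =
      (jacM (K.e (A.p c)) (K.e (A.p c')) x).submatrix (Fin.natAdd w) (Fin.natAdd w) := by
  ext p i
  refine (A.cut c).jac (A.cut c') _ _ h (K.hol _ _ _ ((K.e _).map_source h) ?_) p i
  rw [(K.e _).left_inv h]
  exact h'

theorem det {c c' : A.J} {x : S} (h : x ∈ (A.e c).source) (h' : x ∈ (A.e c').source) :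
    (jacM (A.e c) (A.e c') x).det = (jacM (K.e (A.p c)) (K.e (A.p c')) x).det := by
  rw [A.jac h h', blk_det (jac_fst h h' (A.fst c c'))]

/-- the complex structure -/
@[reducible] def cs : ChartedSpace (Cm m) S where
  atlas := range A.e
  chartAt x := A.e (A.cov x).choose
  mem_chart_source x := (A.cov x).choose_spec
  chart_mem_atlas _ := ⟨_, rfl⟩

theorem isManifold : @IsManifold ℂ _ (Cm m) _ _ (Cm m) _ 𝓘(ℂ, Cm m) ω S _ A.cs := by
  let := A.cs
  refine isManifold_of_contDiffOn 𝓘(ℂ, Cm m) ω S ?_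
  rintro _ _ ⟨c, rfl⟩ ⟨c', rfl⟩ z hz
  have hz' : z ∈ ((A.e c).symm ≫ₕ A.e c').source := by simpa using hz.1
  exact (A.hol c c' z hz'.1 hz'.2).contDiffAt.contDiffWithinAt

/-- the manifold -/
@[reducible] def mf : Mf m :=
  { X := S, cpt := isCompact_iff_compactSpace.1 A.cl.isCompact, ch := A.cs, mf := A.isManifold }

/-- the metric -/
def wm (c : A.J) (v : Cm m) : Matrix (Fin m) (Fin m) ℂ :=
  (K.w (A.p c) (Fin.append t v)).submatrix (Fin.natAdd w) (Fin.natAdd w)

theorem wsm (c : A.J) (v : Cm m) (h : v ∈ (A.e c).target) (j k : Fin m) :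
    ContDiffAt ℝ ∞ (fun z => A.wm c z j k) v :=
  (K.wsm _ _ h (Fin.natAdd w j) (Fin.natAdd w k)).comp v (cd_append t v)

theorem wpos (c : A.J) (v : Cm m) (h : v ∈ (A.e c).target) : (A.wm c v).PosDef :=
  (K.wpos _ _ h).submatrix (Fin.natAdd_injective m w)

theorem wcl (c : A.J) (v : Cm m) (h : v ∈ (A.e c).target) (j k l : Fin m) :
    dz l (fun z => A.wm c z j k) v = dz j (fun z => A.wm c z l k) v :=
  (dz_append t ((K.wsm _ _ h _ _).differentiableAt (by simp)) l).trans
    ((K.wcl _ _ h _ _ _).trans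
      (dz_append t ((K.wsm _ _ h _ _).differentiableAt (by simp)) j).symm)

theorem wch (c c' : A.J) (x : S) (h : x ∈ (A.e c).source) (h' : x ∈ (A.e c').source) :
    A.wm c (A.e c x) = (jacM (A.e c) (A.e c') x).transpose * A.wm c' (A.e c' x) *
      (jacM (A.e c) (A.e c') x).map (starRingEnd ℂ) := by
  rw [wm, wm, ← A.val h, ← A.val h', K.wch _ _ _ h h', blk_conj (jac_fst h h' (A.fst c c')),
    A.jac h h']

variable [MeasurableSpace S] [BorelSpace S]

theorem meas : ∃ μ : Measure S, ∀ c (f : S → ℝ≥0∞), Measurable f →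
    (∀ x, x ∉ (A.e c).source → f x = 0) → ∫⁻ x, f x ∂μ =
      ∫⁻ z in (A.e c).target, f ((A.e c).symm z) * ENNReal.ofReal ((A.wm c z).det.re) := by
  have : CompactSpace S := A.mf.cpt
  refine P284.H286.K.measStmt m S A.J A.e (fun c z => (A.wm c z).det.re) A.cov A.hol
    (fun c z hz => ?_) (fun c z hz => (Complex.pos_iff.1 (A.wpos c z hz).det_pos).1)
    fun c c' x h h' => ?_
  · have h1 : ContinuousAt (A.wm c) z := continuousAt_pi.2 fun j => continuousAt_pi.2 fun k =>
      (A.wsm c z hz j k).continuousAt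
    exact (Complex.continuous_re.continuousAt.comp
      ((continuous_id.matrix_det).continuousAt.comp h1)).continuousWithinAt
  · have h1 : ((jacM (A.e c) (A.e c') x).map (starRingEnd ℂ)).det =
        conj (jacM (A.e c) (A.e c') x).det := by
      rw [← RingHom.mapMatrix_apply, ← RingHom.map_det]
    rw [A.wch c c' x h h', Matrix.det_mul, Matrix.det_mul, Matrix.det_transpose, h1,
      mul_right_comm, Complex.mul_conj, Complex.re_ofReal_mul, Complex.normSq_eq_norm_sq]

/-- the Kähler atlas of the slice -/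
@[reducible] def ka : KA m S where
  I := A.J
  e := A.e
  w := A.wm
  φ _ _ := 0
  a _ _ _ := 1
  μ := A.meas.choose
  cover := A.cov
  wsm := A.wsm
  wpos := A.wpos
  wcl := A.wcl
  φsm _ _ _ := contDiffAt_const
  hol := A.hol
  wch := A.wch
  ahol _ _ _ _ _ := analyticAt_const
  coc _ _ _ _ _ _ _ := (one_mul _).symm
  aself _ _ _ := rfl
  φch _ _ _ _ _ := by simp
  hμ := A.meas.choose_spec

end Sli

end Vale.Agent.P281Z.Lv.Fb
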