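import Vale.Agent.P281Z.Lv.Sk
import Vale.Agent.P281Z.Lv.FibB

/-!
# P281Z, block LV, row FIB: the ladder of a fibre
-/

open scoped Manifold ContDiff Topology ENNReal Matrix ComplexConjugate
open Set Filter MeasureTheory
open Vale.Agent.P272.K Vale.Agent.P285.H281.FD Vale.Agent.P284.H608.K
open Vale.Agent.P281Z.Ha Vale.Agent.P281Z.Lg Vale.Agent.P281Z.Pk

noncomputable section

namespace Vale.Agent.P281Z.Lv

namespace Fb

variable {κ : Type} [Fintype κ] [LinearOrder κ] {w d : ℕ} {V : Mf (w + d)} {W : Mf w}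
  (L : Lad κ V.X (w + d)) (f : V.X → W.X) (χ : Chart w W.X) (y : W.X)

/-- the chart `c` has a centre over `y` -/
def Cen {m : ℕ} (c : (L.K (w + m)).I) : Prop :=
  ∃ z ∈ ((L.K (w + m)).e c).source, gm L f m z = y ∧
    ∀ l k, L.co c l = some k → (L.K (w + m)).e c z k = 0

/-- what is used -/
structure Cx : Prop where
  hy : At χ y
  cont : ∀ m, Continuous (gm L f m)
  cov : ∀ m z, gm L f m z = y → ∃ c, Pc L f χ c ∧ z ∈ ((L.K (w + m)).e c).source ∧
    ∀ l k, L.co c l = some k → (L.K (w + m)).e c z k = 0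
  tri : Tri L

variable {L f χ y}

theorem gm_up {m : ℕ} (z : (L.Y (w + m)).X) {i : κ} (h : i ∈ L.lab z) :
    gm L f (m + 1) (L.up z h) = gm L f m z := congrArg f (L.up_pt _ z i h)

theorem pc_sl {m : ℕ} {c : (L.K (w + (m + 1))).I} (H : Pc L f χ c) {i : κ} {k : Fin (m + 1)}
    (h : L.co (m := w + m + 1) c i = some (Fin.natAdd w k)) :
    Pc L f χ (m := m) (L.sl c h) := by
  refine ⟨fun z hz => ?_, fun l k' hk => ?_⟩
  · obtain ⟨hi, h1⟩ := (L.sl_src (w + m) c i _ h z).1 hz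
    obtain ⟨h2, h3⟩ := H.fst _ h1
    rw [gm_up] at h2 h3
    refine ⟨h2, fun a => ?_⟩
    have h4 := congrFun (L.sl_e (w + m) c i _ h z hz hi) (Fin.castAdd (m + 1) a)
    rw [← h3 a]
    refine Eq.trans ?_ h4.symm
    rw [← sa_cast k a, ins, Fin.insertNth_apply_succAbove]
  · have h1 := H.co l _ ((L.sl_co (w + m) c i _ h l k').1 hk)
    by_contra h2
    have h3 : k' = Fin.castAdd m ⟨k', not_le.1 h2⟩ := rfl
    rw [h3, sa_cast] at h1
    exact h2 h1

theorem cen_sl {m : ℕ} {c : (L.K (w + (m + 1))).I} (H : Cen L f y c) {i : κ}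
    {k : Fin (w + m + 1)} (h : L.co (m := w + m + 1) c i = some k) :
    Cen L f y (m := m) (L.sl c h) := by
  obtain ⟨z, h1, h2, h3⟩ := H
  have h4 : ins k (k.removeNth ((L.K (w + m + 1)).e c z)) = (L.K (w + m + 1)).e c z := by
    have h5 := Fin.insertNth_self_removeNth k ((L.K (w + m + 1)).e c z)
    rwa [show (L.K (w + m + 1)).e c z k = 0 from h3 i k h] at h5
  have h5 : k.removeNth ((L.K (w + m + 1)).e c z) ∈ ((L.K (w + m)).e (L.sl c h)).target := by
    rw [L.sl_tg, mem_preimage, h4]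
    exact ((L.K (w + m + 1)).e c).map_source h1
  have h6 := ((L.K (w + m)).e (L.sl c h)).map_target h5
  obtain ⟨hi, h7⟩ := (L.sl_src (w + m) c i k h _).1 h6
  have h8 := L.sl_e (w + m) c i k h _ h6 hi
  rw [((L.K (w + m)).e (L.sl c h)).right_inv h5, h4] at h8
  refine ⟨_, h6, ?_, fun l k' hk => ?_⟩
  · rw [← gm_up _ hi, ((L.K (w + m + 1)).e c).injOn h7 h1 h8]
    exact h2
  · rw [((L.K (w + m)).e (L.sl c h)).right_inv h5]
    exact h3 l _ ((L.sl_co (w + m) c i k h l k').1 hk)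

variable (H : Cx L f χ y)

/-- the charts -/
@[reducible] def Cx.sli (m : ℕ) : Sli (L.K (w + m)) (gm L f m ⁻¹' {y}) (χ y) where
  J := {c : (L.K (w + m)).I // Pc L f χ c ∧ Cen L f y c}
  p := Subtype.val
  z c := ⟨c.2.2.choose, c.2.2.choose_spec.2.1⟩
  cl := isClosed_singleton.preimage (H.cont m)
  cut c z hz := by
    obtain ⟨h1, h2⟩ := c.2.1.fst z hz
    refine ⟨fun h a => ?_, fun h => χ.injOn h1 H.hy.2 (funext fun a => (h2 a).symm.trans (h a))⟩
    rw [h2 a, show gm L f m z = y from h]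
  cov x := by
    obtain ⟨c, h1, h2, h3⟩ := H.cov m x.1 x.2
    exact ⟨⟨c, h1, x, h2, x.2, h3⟩, h2⟩
  fst c c' x h h' a := ((c'.2.1.fst x h').2 a).trans ((c.2.1.fst x h).2 a).symm

theorem Cx.prod {m : ℕ} (c : (H.sli m).J) {z : (gm L f m ⁻¹' {y} : Set _)}
    (hz : z ∈ ((H.sli m).e c).source) :
    ∏ l, zt (dn w (L.co c.1 l)) ((H.sli m).e c z) =
      ∏ l, zt (L.co c.1 l) ((L.K (w + m)).e c.1 z) :=
  Finset.prod_congr rfl fun l _ => by
    rw [zt_dn (c.2.1.co l) (χ y), ← (H.sli m).val hz]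

/-- the ladder of the fibre -/
@[reducible] def Cx.lad : Lad κ V.X d where
  Y m := (H.sli m).mf
  K m := @Sli.ka _ _ _ _ _ _ (H.sli m) (msM (H.sli m).mf) (bsM (H.sli m).mf)
  B := L.B
  U := L.U
  G := L.G
  pt z := L.pt z.1
  lab z := L.lab z.1
  up z _ h := ⟨L.up z.1 h, (gm_up z.1 h).trans z.2⟩
  bs c := L.bs c.1
  co c l := dn w (L.co c.1 l)
  ε {m} c := (-1) ^ (w * m) * L.ε c.1
  sl c _ _ h := ⟨L.sl (m := w + _) c.1 ((dn_some (w := w)).1 h), pc_sl c.2.1 ((dn_some (w := w)).1 h),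
    cen_sl c.2.2 ((dn_some (w := w)).1 h)⟩
  atl _ _ := Iff.rfl
  self := L.self
  coc := L.coc
  opn m β := (L.opn (w + m) β).preimage continuous_subtype_val
  mem m c z hz := L.mem _ c.1 z.1 hz
  hol m c β β' v hv h h' := ((H.sli m).cut c).an _ (F := fun x => L.G β β' (L.pt x)) hv
    (L.hol _ c.1 β β' _ hv ((H.sli m).symm_eq hv ▸ h) ((H.sli m).symm_eq hv ▸ h'))
  rel m c c' z h h' := by
    have h1 := L.rel _ c.1 c'.1 z.1 h h'
    rw [ta, H.tri.a _ _ _ _ h h'] at h1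
    simp only [ta]
    rw [H.prod c h, H.prod c' h', (H.sli m).det h h']
    linear_combination (-1) ^ (w * m) * h1
  eps m c := by
    rw [mul_mul_mul_comm, L.eps, ← mul_pow]
    simp
  inj m c l l' k h h' := L.inj _ c.1 l l' _ ((dn_some (w := w)).1 h) ((dn_some (w := w)).1 h')
  card m z := by
    have := L.card _ z.1
    omega
  up_pt m z i h := L.up_pt _ z.1 i h
  up_lab m z i h := L.up_lab _ z.1 i h
  sl_bs m c i k h := L.sl_bs _ c.1 i _ ((dn_some (w := w)).1 h)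
  sl_tg m c i k h := by
    ext v
    refine (Set.ext_iff.1 (L.sl_tg (w + m) c.1 i _ ((dn_some (w := w)).1 h)) (Fin.append (χ y) v)).trans ?_
    rw [mem_preimage, ← append_ins]
    rfl
  sl_src m c i k h z := L.sl_src (w + m) c.1 i _ ((dn_some (w := w)).1 h) z.1
  sl_e m c i k h z hz hi := by
    funext j
    refine (congrFun (L.sl_e (w + m) c.1 i _ ((dn_some (w := w)).1 h) z.1 hz hi) (Fin.natAdd w j)).trans ?_
    rw [(H.sli m).val hz, ← append_ins, Fin.append_right]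
  sl_φ _ _ _ _ _ _ _ := rfl
  sl_co m c i k h l k' := by
    refine (dn_some (w := w)).trans ((L.sl_co (w + m) c.1 i _ ((dn_some (w := w)).1 h) l _).trans ?_)
    rw [sa_nat]
    exact (dn_some (w := w) (m := m + 1)).symm
  sl_ε m c i k h z hz := by
    have h1 := L.sl_ε (w + m) c.1 i _ ((dn_some (w := w)).1 h) z.1 hz
    rw [Fin.val_natAdd] at h1
    rw [h1]
    ring
  nb m c i h z hi := L.nb (w + m) c.1 i ((dn_map (c.2.1.co i)).trans (congrArg _ h)) z.1 hi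
  bd m z z' h := by
    obtain ⟨z'', i, hi, h1⟩ := L.bd (w + m) z.1 z'.1 h
    exact ⟨⟨z'', (gm_up z'' hi).symm.trans ((congrArg (gm L f (m + 1)) h1).trans z.2)⟩, i, hi,
      Subtype.ext h1⟩
  uniq m c z hz z' h h' := (H.prod c hz).trans
    (L.uniq _ c.1 z.1 hz z'.1 h fun h1 => h' (Subtype.ext h1))

/-- the slice -/
def Cx.slc : Slc L f χ y where
  F := H.lad
  j := Subtype.val
  par := Subtype.val
  bb := Equiv.refl _
  at' := H.hy
  tri := ⟨fun _ _ _ _ => rfl, fun _ _ _ _ _ _ => rfl⟩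
  U _ := rfl
  G _ _ := rfl
  emb _ := Topology.IsEmbedding.subtypeVal
  rng _ := Subtype.range_coe
  pt _ _ := rfl
  lab _ _ := rfl
  up _ _ _ _ _ := rfl
  pc _ c := c.2.1
  all _ c h h' := ⟨⟨c, h, h'⟩, rfl⟩
  src _ _ := rfl
  tgt _ _ := rfl
  val m _ _ hz := (H.sli m).val hz
  bs _ _ := rfl
  co _ c l := dn_map (c.2.1.co l)
  ε _ _ := rfl

end Fb

/-- (FIB) -/
theorem stFib (h : StPc) : StFib := fun κ _ _ w d V W L D fr f G hf _ χ hχ hr =>
  ⟨Fb.Cx.slc ⟨hχ, fun _ => hf.cont.comp (G.hol _).cont, fun m z hz =>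
    (h κ w d V W L D fr f G hf χ hχ.1 m).2 z (hz ▸ hχ.2) (hz ▸ hr), G.tri⟩⟩

end Vale.Agent.P281Z.Lv
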