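import Vale.Agent.P281Z.Lv.GamS
import Vale.Agent.P281Z.Hg.K1b
import Vale.Agent.P281Z.Hg.F1b
import Vale.Agent.P281Z.Hg.Pb1

/-!
# P281Z, block LV, row GAM: the dictionary between forms and vectors
-/

open scoped Manifold ContDiff Topology Matrix
open Set Filter
open Vale.Agent.P272.K Vale.Agent.P272.K.INT Vale.Agent.P299.IX Vale.Agent.P299.IX.Fock
open Vale.Agent.P284.H608.K (KA)
open Vale.Agent.P281Z.Hg

noncomputable section

namespace Vale.Agent.P281Z.Lv

namespace DcH

open F1aH F1bH Ka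

variable {d m : ℕ}

theorem hl_mem (j : Fin d) : hl j ∈ Hd d := Finset.mem_filter.2 ⟨Finset.mem_univ _, hl_lt j⟩

theorem ah_nmem (j : Fin d) : ah j ∉ Hd d := fun h => ah_lt j (Finset.mem_filter.1 h).2

theorem top_blk (A B : Matrix (Fin d) (Fin d) ℂ) (u : Fo d) :
    (lam (blk A B) *ᵥ u) (Hd d) = A.det * u (Hd d) := by
  have h : (lam (blk A B) *ᵥ u) (Hd d) = ((lam (blk A B))ᵀ *ᵥ ev (Hd d)) ⬝ᵥ u :=
    congrArg (· ⬝ᵥ u) (funext fun K => (mulVec_ev (lam (blk A B))ᵀ (Hd d) K).symm)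
  rw [h, lam_transpose, f1b.blk_tr, blk_Hd, Matrix.det_transpose, smul_dotProduct, ev,
    single_one_dotProduct, smul_eq_mul]

theorem sg_Hd (k : Fin d) : sg (hl k) (Hd d) = (-1) ^ (k : ℕ) := by
  have : (Hd d).filter (· < hl k) = Finset.Iio (hl k) := by
    ext l
    rw [Finset.mem_filter, Finset.mem_Iio]
    exact ⟨fun h => h.2, fun h => ⟨Finset.mem_filter.2
      ⟨Finset.mem_univ _, lt_trans (show l.val < (hl k).val from h) (hl_lt k)⟩, h⟩⟩
  rw [sg, this, Fin.card_Iio]
  rfl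

theorem iot_Hd (k : Fin d) :
    iot (hl k) *ᵥ ev (Hd d) = (-1 : ℂ) ^ (k : ℕ) • ev ((Hd d).erase (hl k)) := by
  have := iot_ev_insert (Finset.notMem_erase (hl k) (Hd d))
  rwa [Finset.insert_erase (hl_mem k), sg_erase (hl_mem k), if_neg (lt_irrefl _), sg_Hd] at this

/-- the vector `g` as a vector of holomorphic type -/
def xt (g : Cm d) : Fin (d + d) → ℂ := Fin.append g 0

theorem xt_hl (g : Cm d) (j : Fin d) : xt g (hl j) = g j := Fin.append_left _ _ j

theorem xt_ah (g : Cm d) (j : Fin d) : xt g (ah j) = 0 := Fin.append_right _ _ j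

theorem fo_eq (g : Cm d) : fo g = iotV (xt g) *ᵥ ev (Hd d) := by
  rw [fo, ctr, iotV, sum_idx]
  simp only [xt_hl, xt_ah, zero_smul, Finset.sum_const_zero, add_zero]

theorem eps_fo (g : Cm d) (j : Fin d) : eps (hl j) *ᵥ fo g = g j • ev (Hd d) := by
  have h := congrArg (· *ᵥ ev (Hd d)) (iotV_eps (xt g) (hl j))
  simp only [Matrix.add_mulVec, ← Matrix.mulVec_mulVec, f1b.eps_Hd, Matrix.mulVec_zero, zero_add,
    Matrix.smul_mulVec, Matrix.one_mulVec, xt_hl] at h
  rw [fo_eq, h]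

/-- the matrix of `fo` -/
def FA (d : ℕ) : Matrix (FI (d + d)) (Fin d) ℂ := .of fun I l => (iot (hl l) *ᵥ ev (Hd d)) I

theorem fo_sum (g : Cm d) : fo g = ∑ l, g l • (iot (hl l) *ᵥ ev (Hd d)) := by
  rw [fo, ctr, Matrix.sum_mulVec]
  simp only [Matrix.smul_mulVec]

theorem fo_FA (g : Cm d) : fo g = FA d *ᵥ g := by
  funext I
  rw [fo_sum, Finset.sum_apply]
  exact Finset.sum_congr rfl fun l _ => mul_comm _ _

theorem fo_deg (g : Cm (m + 1)) : dg m *ᵥ fo g = fo g := by
  rw [fo_sum, Matrix.mulVec_sum]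
  refine Finset.sum_congr rfl fun l _ => ?_
  rw [Matrix.mulVec_smul, Matrix.mulVec_mulVec, dg_iot, ← Matrix.mulVec_mulVec, dg, dgl_ev, card_Hd,
    if_pos rfl, one_smul]

theorem fo_chg {J B : Matrix (Fin d) (Fin d) ℂ} (hJ : J.det ≠ 0) {g g' : Cm d}
    (h : ∀ c, ∑ b, J c b * g b = J.det * g' c) : fo g = lam (blk Jᵀ B) *ᵥ fo g' := by
  have e : xt g ᵥ* blk Jᵀ B = J.det • xt g' := by
    funext l
    rw [Matrix.vecMul, dotProduct, sum_idx, Pi.smul_apply, smul_eq_mul]
    induction l using idx with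
    | h c => simp only [xt_hl, xt_ah, blk_hh, zero_mul, Finset.sum_const_zero, add_zero, ← h,
        Matrix.transpose_apply, mul_comm]
    | h' c => simp only [xt_ah, blk_ha, zero_mul, mul_zero, Finset.sum_const_zero, add_zero]
  have k := congrArg (· *ᵥ ev (Hd d)) (iotV_lam (blk Jᵀ B) (xt g))
  simp only [← Matrix.mulVec_mulVec, blk_Hd, e, iotV_smul, Matrix.mulVec_smul, Matrix.smul_mulVec,
    Matrix.det_transpose] at k
  rw [fo_eq, fo_eq]
  exact smul_right_injective _ hJ k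

theorem vc_chg (J B : Matrix (Fin d) (Fin d) ℂ) (u : Fo d) (c : Fin d) :
    ∑ b, J c b * vc (lam (blk Jᵀ B) *ᵥ u) b = J.det * vc u c := by
  have k := congrFun (lam_eps_mulVec (blk Jᵀ B) (hl c) u) (Hd d)
  rw [top_blk, Matrix.det_transpose, epsV, sum_idx] at k
  simp only [blk_hh, blk_ah, zero_smul, Finset.sum_const_zero, add_zero, Matrix.sum_mulVec,
    Matrix.smul_mulVec, Finset.sum_apply, Pi.smul_apply, smul_eq_mul] at k
  exact k.symm

theorem dT_fo {g : Cm d → Cm d} {z : Cm d} (h : DifferentiableAt ℂ g z) :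
    dT (fun y => fo (g y)) z = (∑ b, dz b (fun y => g y b) z) • ev (Hd d) := by
  have e : ∀ c, Dv c (fun y => fo (g y)) z = fo (Dv c g z) := fun c => by
    simp only [fo_FA]
    exact Dv_mul _ (h.restrictScalars ℝ)
  have e2 : ∀ j, Dv (ah j) g z = 0 := fun j => funext fun I => by
    rw [Dv, dr_ah]
    exact Kb.dzb_hol (differentiableAt_pi.1 h I) j
  rw [dT, sum_idx, Finset.sum_smul]
  simp only [e, e2, eps_fo, Dv, dr_hl]
  simp only [fo_FA, Matrix.mulVec_zero, Finset.sum_const_zero, add_zero]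

theorem dT_vc {u : Cm d → Fo d} {z : Cm d} (h : DifferentiableAt ℝ u z) :
    ∑ b, dz b (fun y => vc (u y) b) z = dT u z (Hd d) := by
  rw [dT, sum_idx, Pi.add_apply, Finset.sum_apply, Finset.sum_apply]
  simp only [eps_mulVec (ah _), if_neg (ah_nmem _), Finset.sum_const_zero, add_zero]
  refine Finset.sum_congr rfl fun b _ => ?_
  rw [← Dv_mul _ h, Dv, dr_hl]
  rfl

/-! ### the hyperplane -/

theorem hl_ah (i j : Fin d) : hl i < ah j := (hl_lt i).trans_le (Nat.le_add_right d j)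

/-- the embedding of the indices -/
def P (k : Fin (m + 1)) : Fin (m + m) ↪o Fin (m + 1 + (m + 1)) :=
  OrderEmbedding.ofStrictMono
    (Fin.addCases (fun j => hl (k.succAbove j)) fun j => ah (k.succAbove j)) fun a b h => by
      induction a using idx <;> induction b using idx <;>
        simp only [hl, ah, Fin.addCases_left, Fin.addCases_right] at h ⊢
      · exact Fin.strictMono_castAdd _
          (k.strictMono_succAbove ((Fin.strictMono_castAdd _).lt_iff_lt.1 h))
      · exact hl_ah _ _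
      · exact absurd (hl_ah _ _) h.not_gt
      · exact Fin.strictMono_natAdd _
          (k.strictMono_succAbove ((Fin.strictMono_natAdd _).lt_iff_lt.1 h))

variable (k : Fin (m + 1))

theorem P_hl (j : Fin m) : P k (hl j) = hl (k.succAbove j) :=
  Fin.addCases_left (motive := fun _ => Fin (m + 1 + (m + 1)))
    (left := fun j => hl (k.succAbove j)) (right := fun j => ah (k.succAbove j)) j

theorem P_ah (j : Fin m) : P k (ah j) = ah (k.succAbove j) :=
  Fin.addCases_right (motive := fun _ => Fin (m + 1 + (m + 1)))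
    (left := fun j => hl (k.succAbove j)) (right := fun j => ah (k.succAbove j)) j

theorem P_ne (p : Fin (m + m)) : P k p ≠ hl k ∧ P k p ≠ ah k := by
  induction p using idx with
  | h j => exact P_hl k j ▸ ⟨mt hl_inj.1 (k.succAbove_ne j), hl_ne _ _⟩
  | h' j => exact P_ah k j ▸ ⟨(hl_ne _ _).symm, mt ah_inj.1 (k.succAbove_ne j)⟩

theorem P_cases (l : Fin (m + 1 + (m + 1))) : (∃ p, l = P k p) ∨ l = hl k ∨ l = ah k := by
  induction l using idx with
  | h j =>
    rcases Fin.eq_self_or_eq_succAbove k j with rfl | ⟨i, rfl⟩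
    exacts [.inr (.inl rfl), .inl ⟨_, (P_hl k i).symm⟩]
  | h' j =>
    rcases Fin.eq_self_or_eq_succAbove k j with rfl | ⟨i, rfl⟩
    exacts [.inr (.inr rfl), .inl ⟨_, (P_ah k i).symm⟩]

theorem col_P (v : Cm m) (p : Fin (m + m)) :
    (fun q => jc (Lg.ins k) v q (P k p)) = Pi.single p 1 := by
  have e : ∀ y, cx (Lg.ins k y) (P k p) = cx y p := fun y => by
    induction p using idx with
    | h j => rw [P_hl, cx_hl, cx_hl, Lg.ins, Fin.insertNth_apply_succAbove]
    | h' j => rw [P_ah, cx_ah, cx_ah, Lg.ins, Fin.insertNth_apply_succAbove]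
  funext q
  rw [Pi.single_apply, ← Matrix.one_apply, ← Kb.jc_id v]
  simp only [jc, Matrix.of_apply, e]

theorem col_zero (v : Cm m) {l : Fin (m + 1 + (m + 1))} (h : l = hl k ∨ l = ah k) :
    (fun q => jc (Lg.ins k) v q l) = 0 := by
  have e : ∀ y, cx (Lg.ins k y) l = 0 := fun y => by
    rcases h with rfl | rfl
    · rw [cx_hl, Lg.ins, Fin.insertNth_apply_same]
    · rw [cx_ah, Lg.ins, Fin.insertNth_apply_same, star_zero]
  funext q
  simp only [jc, Matrix.of_apply, e, dr_const, Pi.zero_apply]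

theorem nmem_P (K : FI (m + m)) {l : Fin (m + 1 + (m + 1))} (h : l = hl k ∨ l = ah k) :
    l ∉ K.map (P k).toEmbedding := fun h' => by
  obtain ⟨p, -, e⟩ := Finset.mem_map.1 h'
  exact h.elim (fun h => (P_ne k p).1 (e.trans h)) fun h => (P_ne k p).2 (e.trans h)

theorem lr_ins (v : Cm m) (u : Fo (m + 1)) :
    ∀ K, (lr (jc (Lg.ins k) v) *ᵥ u) K = u (K.map (P k).toEmbedding) := by
  induction u using fk_ind with
  | h0 =>
    intro K
    rw [lr_ev, ev, ev, Pi.single_apply, Pi.single_apply]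
    exact if_congr Finset.map_eq_empty.symm rfl rfl
  | he l u ih =>
    intro K
    rw [Matrix.mulVec_mulVec, lr_eps, ← Matrix.mulVec_mulVec, eps_mulVec]
    rcases P_cases k l with ⟨p, rfl⟩ | h
    · rw [col_P, epsV_single, eps_mulVec, ih, Finset.map_erase]
      refine if_congr (Finset.mem_map' (P k).toEmbedding).symm ?_ rfl
      rw [sg, sg, Finset.filter_map, Finset.card_map]
      congr 3
      exact Finset.filter_congr fun a _ => (P k).lt_iff_lt.symm
    · rw [col_zero k v h, if_neg (nmem_P k K h), ← zero_smul ℂ (0 : Fin (m + m) → ℂ), epsV_smul,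
        zero_smul, Matrix.zero_mulVec, Pi.zero_apply]
  | ha u u' h h' =>
    intro K
    rw [Matrix.mulVec_add, Pi.add_apply, Pi.add_apply, h, h']
  | hs c u h =>
    intro K
    rw [Matrix.mulVec_smul, Pi.smul_apply, Pi.smul_apply, h]

theorem map_Hd : (Hd m).map (P k).toEmbedding = (Hd (m + 1)).erase (hl k) := by
  ext l
  rw [Finset.mem_erase]
  rcases P_cases k l with ⟨p, rfl⟩ | h
  · refine (Finset.mem_map' (P k).toEmbedding).trans ?_
    rw [and_iff_right (P_ne k p).1]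
    induction p using idx with
    | h j => exact iff_of_true (hl_mem j) (P_hl k j ▸ hl_mem _)
    | h' j => exact iff_of_false (ah_nmem j) (P_ah k j ▸ ah_nmem _)
  · exact iff_of_false (nmem_P k _ h) fun h' => h.elim h'.1 fun e => ah_nmem k (e ▸ h'.2)

theorem ins (v : Cm m) (u : Fo (m + 1)) :
    (lr (jc (Lg.ins k) v) *ᵥ u) (Hd m) = (-1) ^ (k : ℕ) * vc u k := by
  rw [lr_ins, map_Hd, vc, eps_mulVec, if_pos (hl_mem k), sg_Hd, ← mul_assoc, ← mul_pow,
    neg_mul_neg, one_mul, one_pow, one_mul]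

theorem ins_fo (v : Cm m) (g : Cm (m + 1)) :
    lr (jc (Lg.ins k) v) *ᵥ fo g = ((-1) ^ (k : ℕ) * g k) • ev (Hd m) := by
  funext K
  rw [lr_ins, fo_sum, Finset.sum_apply, Finset.sum_eq_single k (fun l _ h => ?_) (by simp)]
  · rw [iot_Hd, ← map_Hd, smul_smul, mul_comm, Pi.smul_apply, Pi.smul_apply, ev, ev,
      Pi.single_apply, Pi.single_apply]
    exact congrArg _ (if_congr Finset.map_inj rfl rfl)
  · rw [iot_Hd, smul_smul, Pi.smul_apply, ev, Pi.single_eq_of_ne, smul_zero]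
    exact fun e => nmem_P k K (.inl rfl)
      (e ▸ Finset.mem_erase.2 ⟨mt hl_inj.1 h.symm, hl_mem k⟩)

/-! ### manifolds -/

variable {n : ℕ} {M : Mf n} {e e' : Chart n M.X} {x : M.X}

theorem tr_df (he : At e x) (he' : At e' x) :
    DifferentiableAt ℂ (fun z => e' (e.symm z)) (e x) :=
  (transition_contDiffAt he he').differentiableAt (by simp)

theorem jt_eq (he : At e x) (he' : At e' x) :
    jt e e' x = blk (jacM e e' x)ᵀ ((jacM e e' x)ᵀ.map star) := Kb.jc_hol (tr_df he he')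

theorem jt_self (he : At e x) : jt e e x = 1 :=
  (k1b'.jc_congr (mem_of_superset (e.open_target.mem_nhds (e.map_source he.2))
    fun _ hz => e.right_inv hz)).trans (Kb.jc_id _)

theorem det_ne (he : At e x) (he' : At e' x) : (jacM e e' x).det ≠ 0 := fun h => by
  have h1 := (tr_df he he').restrictScalars ℝ
  have h2 := (tr_df he' he).restrictScalars ℝ
  have k := k1b'.jc_comp (ψ := fun z => e' (e.symm z)) (φ := fun z => e (e'.symm z)) h1
    (by rw [e.left_inv he.2]; exact h2)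
  have k2 : jc (fun z => e (e'.symm (e' (e.symm z)))) (e x) = 1 := by
    refine (k1b'.jc_congr ?_).trans (jt_self he)
    filter_upwards [(e.tendsto_symm he.2).eventually (e'.open_source.mem_nhds he'.2)] with z hz
    rw [e'.left_inv hz]
  have k3 := congrArg Matrix.det (k2.symm.trans k)
  rw [Matrix.det_one, Matrix.det_mul, show jc (fun z => e' (e.symm z)) (e x) = jt e e' x from rfl,
    jt_eq he he', f1b.blk_det, Matrix.det_transpose, h, zero_mul, zero_mul] at k3
  exact one_ne_zero k3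

variable [MeasurableSpace M.X] {K : KA n M.X}

theorem at_K (h : TK K) {c : K.I} (hx : x ∈ (K.e c).source) : At (K.e c) x :=
  ⟨(h.atl _).2 ⟨c, rfl⟩, hx⟩

theorem dz_wt (h : TK K) {c : K.I} {z : Cm n} (hz : z ∈ (K.e c).target) (b : Fin n)
    {f f' : Cm n → ℂ} (hf : ∀ y ∈ (K.e c).target, f y = f' y) :
    dz b (fun y => (Real.exp (-K.φ c y) : ℂ) * f y) z = dz b f' z := by
  rw [← dr_hl]
  refine dr_congr (mem_of_superset ((K.e c).open_target.mem_nhds hz) fun y hy => ?_)
  show (Real.exp (-K.φ c y) : ℂ) * f y = f' y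
  rw [h.φ c y hy, neg_zero, Real.exp_zero, Complex.ofReal_one, one_mul, hf y hy]

theorem rule (h : TK K) {g : Ha.Vc K} (hg : Ha.Vec K g) {i j : K.I} (hi : x ∈ (K.e i).source)
    (hj : x ∈ (K.e j).source) :
    fo (g i (K.e i x)) = lam (jt (K.e i) (K.e j) x) *ᵥ fo (g j (K.e j x)) := by
  rw [jt_eq (at_K h hi) (at_K h hj)]
  refine fo_chg (det_ne (at_K h hi) (at_K h hj)) fun c => ?_
  rw [hg.chg i j x hi hj, Ha.ta, h.a i j x hi hj, one_mul]

theorem vc_ex {k : ℕ} {Γ : Rw n M.X (Fo n)} (h : TK K) (hΓ : CF k univ Γ) :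
    ∃ g, Ha.Vec K g ∧ Ha.Sm K g ∧ Ha.Dv K g ∧
      ∀ c, ∀ z ∈ (K.e c).target, g c z = vc (Γ (K.e c) z) := by
  classical
  have sm : ∀ c, ∀ z ∈ (K.e c).target, ContDiffAt ℝ ∞ (Γ (K.e c)) z := fun c z hz =>
    (K.e c).right_inv hz ▸ hΓ.sm _ _ (at_K h ((K.e c).map_target hz)) trivial
  refine ⟨fun c z => if z ∈ (K.e c).target then vc (Γ (K.e c) z) else 0,
    ⟨fun i j x hi hj c => ?_, fun i z hz => if_neg hz⟩, fun c z hz => ?_, fun c z hz => ?_,
    fun c z hz => if_pos hz⟩
  · rw [if_pos ((K.e i).map_source hi), if_pos ((K.e j).map_source hj),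
      hΓ.ch _ _ x (at_K h hi) (at_K h hj) trivial, jt_eq (at_K h hi) (at_K h hj), vc_chg, Ha.ta,
      h.a i j x hi hj, one_mul]
  · refine ContDiffAt.congr_of_eventuallyEq (f := fun z => vc (Γ (K.e c) z))
      (contDiffAt_pi.2 fun b => contDiffAt_pi.1 (cd_mul (eps (hl b)) (sm c z hz)) _)
      (mem_of_superset ((K.e c).open_target.mem_nhds hz) fun y hy => if_pos hy)
  · rw [Finset.sum_congr rfl fun b _ => dz_wt h hz b (f' := fun y => vc (Γ (K.e c) y) b)
      fun y hy => congrFun (if_pos hy) b, dT_vc ((sm c z hz).differentiableAt (by simp))]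
    have := hΓ.cl _ _ (at_K h ((K.e c).map_target hz)) trivial
    rw [(K.e c).right_inv hz] at this
    rw [this]
    rfl

theorem fo_ex {M : Mf (m + 1)} [MeasurableSpace M.X] {K : KA (m + 1) M.X} {g : Ha.Vc K} (h : TK K)
    (hg : Ha.Gam K g) : ∃ Γ : Rw (m + 1) M.X (Fo (m + 1)), CF m univ Γ ∧
      ∀ c, ∀ x ∈ (K.e c).source, Γ (K.e c) (K.e c x) = fo (g c (K.e c x)) := by
  classical
  let Γ : Rw (m + 1) M.X (Fo (m + 1)) := fun e z =>
    if h : ∃ c, K.e c = e then fo (g h.choose z) else 0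
  have key : ∀ e x, At e x → ∃ c, K.e c = e ∧ Γ e = fun z => fo (g c z) := fun e x he =>
    ⟨_, ((h.atl e).1 he.1).choose_spec, funext fun _ => dif_pos ((h.atl e).1 he.1)⟩
  refine ⟨Γ, ⟨fun e x he _ => ?_, fun e e' x he he' _ => ?_, fun e x he _ => ?_,
    fun e x he _ => ?_⟩, fun c x hx => ?_⟩
  · obtain ⟨c, rfl, k⟩ := key e x he
    simp only [k, fo_FA]
    exact cd_mul _ ((hg.hol c _ ((K.e c).map_source he.2)).contDiffAt.restrict_scalars ℝ)
  · obtain ⟨c, rfl, k⟩ := key e x he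
    obtain ⟨c', rfl, k'⟩ := key e' x he'
    rw [k, k']
    exact rule h hg.vec he.2 he'.2
  · obtain ⟨c, rfl, k⟩ := key e x he
    have hz := (K.e c).map_source he.2
    rw [k, dT_fo (hg.hol c _ hz).differentiableAt, ← Finset.sum_congr rfl fun b _ =>
      dz_wt h hz b (f := fun y => g c y b) fun _ _ => rfl, hg.dv c _ hz, zero_smul]
  · obtain ⟨c, rfl, k⟩ := key e x he
    rw [k]
    exact fo_deg _
  · obtain ⟨c', e, k⟩ := key _ x (at_K h hx)
    have := rule h hg.vec (e ▸ hx : x ∈ (K.e c').source) hx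
    rw [e, jt_self (at_K h hx), lam_one, Matrix.one_mulVec] at this
    rw [k]
    exact this

end DcH

open DcH in
/-- **DICT** -/
theorem dict : DICT where
  fo := fo_ex
  vc := vc_ex
  ins := ins
  ins_fo := ins_fo
  top he he' u := by rw [jt_eq he he', top_blk, Matrix.det_transpose]
  top_ev he he' := by rw [jt_eq he he', f1b.blk_Hd, Matrix.det_transpose]

end Vale.Agent.P281Z.Lv
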