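import Vale.Agent.P281Z.Lv.GamS
import Vale.Agent.P281Z.Hg.K1b
import Vale.Agent.P281Z.Pk.Rl

/-!
# P281Z, block LV, row GAM: pull back of closed forms
-/

open scoped Manifold ContDiff Topology Matrix
open Set Filter
open Vale.Agent.P272.K Vale.Agent.P299.IX Vale.Agent.P299.IX.Fock
open Vale.Agent.P277Z (at_chart trans_an)
open Vale.Agent.P281Z.Hg (PC IsPC Rst Fo Rw lr jc jt dT f1a f1b k1a k1b')

noncomputable section

namespace Vale.Agent.P281Z.Lv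

namespace Pb

variable {n n' n'' k : ℕ} {M : Mf n} {M' : Mf n'} {M'' : Mf n''} {φ : M.X → M'.X}
  {ψ : M'.X → M''.X} {x : M.X} {e e₂ : Chart n M.X} {c c₂ : Chart n' M'.X} {b : Chart n'' M''.X}

theorem near (hf : ContinuousAt φ x) (hx : At e x) (hc : At c (φ x)) :
    ∀ᶠ z in 𝓝 (e x), z ∈ e.target ∧ At e (e.symm z) ∧ At c (φ (e.symm z)) := by
  filter_upwards [e.open_target.mem_nhds (e.map_source hx.2),
    (hf.tendsto.comp (e.tendsto_symm hx.2)).eventually (c.open_source.mem_nhds hc.2)] with z a a'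
    using ⟨a, ⟨hx.1, e.map_target a⟩, hc.1, a'⟩

theorem lc_comp {E : Type} (F : M'.X → E) (hf : ContinuousAt φ x) (hx : At e x) (hc : At c (φ x)) :
    (fun z => F (φ (e.symm z))) =ᶠ[𝓝 (e x)] fun z => F (c.symm (c (φ (e.symm z)))) := by
  filter_upwards [near hf hx hc] with z hz
  rw [c.left_inv hz.2.2.2]

theorem sa_id (x : M.X) : SA n n (fun y => y) x :=
  ⟨continuousAt_id, fun _ _ a a' => ((trans_an a' a).restrictScalars (𝕜 := ℝ)).contDiffAt⟩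

theorem sm_comp (hf : ContinuousAt φ x) (hx : At e x) (hc : At c (φ x))
    (h : ContDiffAt ℝ ∞ (fun z => c (φ (e.symm z))) (e x))
    (h' : ContDiffAt ℝ ∞ (fun z => b (ψ (c.symm z))) (c (φ x))) :
    ContDiffAt ℝ ∞ (fun z => b (ψ (φ (e.symm z)))) (e x) :=
  (ContDiffAt.comp (g := fun z => b (ψ (c.symm z))) (e x) (by rwa [e.left_inv hx.2])
    h).congr_of_eventuallyEq (lc_comp (fun y => b (ψ y)) hf hx hc)

theorem one (hf : ContinuousAt φ x) (hx : At e x) (hc : At c (φ x))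
    (h : ContDiffAt ℝ ∞ (fun z => c (φ (e.symm z))) (e x)) : SA n n' φ x :=
  ⟨hf, fun _ _ a a' => sm_comp (ψ := fun y => y) hf a hc
    (sm_comp (φ := fun y => y) continuousAt_id a hx ((sa_id x).sm _ _ a hx) h)
    ((sa_id _).sm _ _ hc a')⟩

theorem sa_comp (hf : SA n n' φ x) (hg : SA n' n'' ψ (φ x)) : SA n n'' (fun y => ψ (φ y)) x :=
  ⟨hg.cont.comp hf.cont, fun _ _ a a' => sm_comp hf.cont a (at_chart _) (hf.sm _ _ a (at_chart _))
    (hg.sm _ _ (at_chart _) a')⟩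

/-- the chain rule in charts -/
theorem comp (hf : SA n n' φ x) (hg : SA n' n'' ψ (φ x)) (hx : At e x) (hc : At c (φ x))
    (hb : At b (ψ (φ x))) : jc (fun z => b (ψ (φ (e.symm z)))) (e x) =
      jc (fun z => c (φ (e.symm z))) (e x) * jc (fun z => b (ψ (c.symm z))) (c (φ x)) := by
  have h1 := (hg.sm c b hc hb).differentiableAt (by simp)
  have h2 : c (φ x) = c (φ (e.symm (e x))) := by rw [e.left_inv hx.2]
  rw [h2] at h1 ⊢
  rw [k1b'.jc_congr (lc_comp (fun y => b (ψ y)) hf.cont hx hc)]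
  exact k1b'.jc_comp (φ := fun w => b (ψ (c.symm w))) ((hf.sm e c hx hc).differentiableAt
    (by simp)) h1

theorem pb {O : Set M.X} {O' : Set M'.X} {Γ' : Rw n' M'.X (Fo n')} (hO : IsOpen O)
    (h : ∀ x ∈ O, SA n n' φ x ∧ φ x ∈ O') (h' : CF k O' Γ') :
    ∃ Γ : Rw n M.X (Fo n), CF k O Γ ∧ ∀ x ∈ O, PbA φ Γ' Γ x := by
  obtain ⟨Γ, h1⟩ : ∃ Γ : Rw n M.X (Fo n), ∀ x ∈ O, PbA φ Γ' Γ x :=
    ⟨fun e z => Hg.pbk (fun y => chartAt (Cm n') (φ (e.symm z)) (φ (e.symm y)))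
      (Γ' (chartAt (Cm n') (φ (e.symm z)))) z, fun x hx e c a a' => by
      simp only [Hg.pbk, e.left_inv a.2]
      rw [h'.ch _ c _ (at_chart _) a' (h x hx).2, Matrix.mulVec_mulVec,
        comp (ψ := fun y => y) (h x hx).1 (sa_id _) a (at_chart _) a', f1a.lr_mul]
      rfl⟩
  have h2 : ∀ e x, At e x → x ∈ O → Γ e =ᶠ[𝓝 (e x)]
      Hg.pbk (fun y => chartAt (Cm n') (φ x) (φ (e.symm y))) (Γ' (chartAt (Cm n') (φ x))) :=
    fun e x a hx => by
      filter_upwards [near (h x hx).1.cont a (at_chart _),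
        (e.tendsto_symm a.2).eventually (hO.mem_nhds hx)] with z k1 k2
      have k3 := h1 _ k2 e _ k1.2.1 k1.2.2
      rwa [e.right_inv k1.1] at k3
  have h3 : ∀ (e : Chart n M.X) x, At e x → x ∈ O → ContDiffAt ℝ ∞ (Γ' (chartAt (Cm n') (φ x)))
      (chartAt (Cm n') (φ x) (φ (e.symm (e x)))) := fun e x a hx => by
    rw [e.left_inv a.2]
    exact h'.sm _ _ (at_chart _) (h x hx).2
  refine ⟨Γ, ⟨fun e x a hx => ?_, fun e e₂ x a a₂ hx => ?_, fun e x a hx => ?_,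
    fun e x a hx => ?_⟩, h1⟩
  · exact (k1b'.pbk_smooth ((h x hx).1.sm _ _ a (at_chart _))
      (h3 e x a hx)).congr_of_eventuallyEq (h2 e x a hx)
  · rw [h1 x hx e _ a (at_chart _), h1 x hx e₂ _ a₂ (at_chart _), Matrix.mulVec_mulVec,
      comp (φ := fun y => y) (sa_id x) (h x hx).1 a a₂ (at_chart _), f1a.lr_mul]
    rfl
  · rw [(k1a f1a f1b).congr (h2 e x a hx), k1b'.nat ((h x hx).1.sm _ _ a (at_chart _))
      (h3 e x a hx), Hg.pbk, e.left_inv a.2, h'.cl _ _ (at_chart _) (h x hx).2, Matrix.mulVec_zero]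
  · rw [h1 x hx e _ a (at_chart _), Matrix.mulVec_mulVec, f1a.lr_dg, ← Matrix.mulVec_mulVec,
      h'.deg _ _ (at_chart _) (h x hx).2]

theorem sum {ι : Type} [Fintype ι] {O : Set M.X} {O' : ι → Set M.X} {Γ : ι → Rw n M.X (Fo n)}
    {c : ι → M.X → ℂ} (h : ∀ i, CF k (O' i) (Γ i)) (h1 : ∀ i x, ∀ᶠ y in 𝓝 x, c i y = c i x)
    (h2 : ∀ i, ∀ x ∈ O, c i x ≠ 0 → x ∈ O' i) :
    CF k O fun e z => ∑ i, c i (e.symm z) • Γ i e z := by
  have h3 : ∀ e x, At e x → x ∈ O → ∀ i, ContDiffAt ℝ ∞ (fun z => c i (e.symm z) • Γ i e z) (e x) ∧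
      dT (fun z => c i (e.symm z) • Γ i e z) (e x) = 0 := fun e x a hx i => by
    have k1 : (fun z => c i (e.symm z) • Γ i e z) =ᶠ[𝓝 (e x)] fun z => c i x • Γ i e z :=
      ((e.tendsto_symm a.2).eventually (h1 i x)).mono fun z hz => congrArg (· • Γ i e z) hz
    rw [(k1a f1a f1b).congr k1]
    by_cases k2 : c i x = 0
    · simp only [k2, zero_smul] at k1 ⊢
      exact ⟨contDiffAt_const.congr_of_eventuallyEq k1, (k1a f1a f1b).const _ _⟩
    · have k3 := (h i).sm e x a (h2 i x hx k2)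
      exact ⟨(k3.const_smul (c i x)).congr_of_eventuallyEq k1, by
        rw [(k1a f1a f1b).smul _ (k3.differentiableAt (by simp)), (h i).cl e x a (h2 i x hx k2),
          smul_zero]⟩
  have h4 : ∀ (A : Matrix _ _ ℂ) e e₂ x, At e x → At e₂ x → x ∈ O →
      (∀ i, x ∈ O' i → Γ i e (e x) = A *ᵥ Γ i e₂ (e₂ x)) →
      ∑ i, c i (e.symm (e x)) • Γ i e (e x) = A *ᵥ ∑ i, c i (e₂.symm (e₂ x)) • Γ i e₂ (e₂ x) :=
    fun A e e₂ x a a₂ hx k1 => by
      rw [e.left_inv a.2, e₂.left_inv a₂.2, Matrix.mulVec_sum]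
      refine Finset.sum_congr rfl fun i _ => ?_
      rw [Matrix.mulVec_smul]
      by_cases k2 : c i x = 0
      · rw [k2, zero_smul, zero_smul]
      · rw [k1 i (h2 i x hx k2)]
  refine ⟨fun e x a hx => ContDiffAt.sum fun i _ => (h3 e x a hx i).1,
    fun e e₂ x a a₂ hx => h4 _ e e₂ x a a₂ hx fun i => (h i).ch e e₂ x a a₂, fun e x a hx => ?_,
    fun e x a hx => (h4 _ e e x a a hx fun i k => ((h i).deg e x a k).symm).symm⟩
  exact (Hg.Kb.dT_sum _ fun i _ => (h3 e x a hx i).1.differentiableAt (by simp)).trans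
    (Finset.sum_eq_zero fun i _ => (h3 e x a hx i).2)

theorem rst {w m : ℕ} {Z : Mf (w + m)} {W : Mf w} (g : Z.X → W.X) {O : Set W.X}
    {Γ : Rw (w + m) Z.X (Fo (w + m))} (h : CF k (g ⁻¹' O) Γ) :
    ∃ γ : W.X → PC w m Z.X W.X → Cm m → Fo m, ∀ t ∈ O, Rst g t Γ (γ t) := by
  refine ⟨fun t q v => Hg.pbk (fun z => chartAt (Cm (w + m)) (q.2.symm (q.1 t, v))
    (q.2.symm (q.1 t, z))) (Γ (chartAt (Cm (w + m)) (q.2.symm (q.1 t, v)))) v, ?_⟩
  rintro _ ht q e x hq hx rfl a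
  have c := at_chart (n := w + m) x
  have h1 : q.2.symm (q.1 (g x), (q.2 x).2) = x := by rw [Pk.Mg.pc_eq hq hx, q.2.left_inv hx]
  have h2 := ((Pk.Mg.sl_an hq hx (anV_chart c)).restrictScalars (𝕜 := ℝ)).differentiableAt
  have h3 := ((trans_an a c).restrictScalars (𝕜 := ℝ)).differentiableAt
  rw [(hq.2.fst x hx).2] at h2
  have h4 : Tendsto (fun z => q.2.symm (q.1 (g x), z)) (𝓝 (q.2 x).2) (𝓝 x) :=
    (q.2.tendsto_symm hx).comp (Pk.Mg.pc_eq hq hx ▸ (Continuous.prodMk_right (q.1 (g x))).tendsto _)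
  have h5 := k1b'.jc_comp (φ := fun z => e ((chartAt (Cm (w + m)) x).symm z)) h2 (by rwa [h1])
  simp only [Hg.pbk, h1] at h5 ⊢
  rw [h.ch _ e x c a ht, Matrix.mulVec_mulVec, ← k1b'.jc_congr
    ((h4.eventually (at_near c)).mono fun z hz => congrArg e hz.left_inv), h5, f1a.lr_mul]
  rfl

end Pb

/-- **PBK** -/
theorem pbk : PBK := ⟨fun _ _ => Pb.one, Pb.comp, Pb.pb, Pb.sum, Pb.rst⟩

end Vale.Agent.P281Z.Lv
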