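import Vale.Agent.P281Z.Lv.Gam
import Vale.Agent.P281Z.Lv.Pbk
import Vale.Agent.P281Z.Lv.Dict

/-!
# P281Z, block LV, row GAM
-/

namespace Vale.Agent.P281Z.Lv

/-- (GAM) -/
theorem stGam : StGam := gam_of pbk dict

end Vale.Agent.P281Z.Lv
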