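import Vale.Agent.P281Z.Lv.Sk
import Vale.Agent.P281Z.Lg.Gl

/-!
# P281Z, block LV: the weight on a fibre
-/

open scoped Manifold ContDiff Topology ENNReal
open Set Filter MeasureTheory Function
open Vale.Agent.P272.K Vale.Agent.P284.H608.K Vale.Agent.P284.H205.K
open Vale.Agent.P277Z (Hol hol_const)
open Vale.Agent.P277Z.Slc (Ind LEq Snc St)
open Vale.Agent.P277Z.Hir (Cpb)
open Vale.Agent.P281Z.Ha Vale.Agent.P281Z.Lg Vale.Agent.P281Z.Pk

noncomputable section

namespace Vale.Agent.P281Z.Lv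

namespace Hy

theorem cpb_of {T : Type} [TopologicalSpace T] {x : T} {f g h v : T → ℝ} (a : Cpb (𝓝 x) f g)
    (hv : ContinuousAt v x) (h0 : 0 < v x) (hh : ∀ y, 0 ≤ h y) (k : ∀ᶠ y in 𝓝 x, g y = v y * h y) :
    Cpb (𝓝 x) f h := by
  obtain ⟨C, hC, a⟩ := a
  have hA := hv.tendsto
  generalize v x = A at hA h0
  refine ⟨C * (2 * A + 2 / A), by positivity, ?_⟩
  filter_upwards [hA.eventually_const_lt (half_lt_self h0),
    hA.eventually_lt_const (lt_two_mul_self h0), k, a] with t b c e a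
  rw [e] at a
  have k0 := div_pos two_pos h0
  have k1 : 1 ≤ (2 * A + 2 / A) * v t := by
    have : 2 / A * (A / 2) = 1 := by field_simp
    nlinarith
  refine ⟨a.1.trans ?_, ?_⟩
  · rw [mul_assoc]
    exact mul_le_mul_of_nonneg_left (mul_le_mul_of_nonneg_right (by linarith) (hh t)) hC.le
  · refine (le_mul_of_one_le_left (hh t) k1).trans ?_
    rw [mul_assoc, mul_comm C, mul_assoc]
    exact mul_le_mul_of_nonneg_left a.2 (by positivity)

/-- the coordinate hyperplanes are null -/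
theorem null_co {n : ℕ} {M : Type} [TopologicalSpace M] [MeasurableSpace M] [BorelSpace M]
    (K : KA n M) (c : K.I) (k : Fin n) : ∀ᵐ y ∂K.μ, y ∈ (K.e c).source → K.e c y k ≠ 0 := by
  have h2 := (K.e c).isOpen_inter_preimage (s := {z | z k ≠ 0})
    (isOpen_ne_fun (continuous_apply k) continuous_const)
  refine (ae_restrict_iff' (K.e c).open_source.measurableSet).1
    (Eventually.mono (p := (· ∈ (K.e c).source ∩ K.e c ⁻¹' {z | z k ≠ 0})) ?_ fun y hy => hy.2)
  rw [map_nuC]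
  refine (ae_map_iff (symm_meas.mono_ac nuC_ac) h2.measurableSet).2 (nuC_ac.ae_le ?_)
  filter_upwards [ae_restrict_of_ae (Measure.ae_eval_ne (fun _ : Fin n => (volume : Measure ℂ)) k 0),
    ae_restrict_mem (K.e c).open_target.measurableSet] with z a b
  exact ⟨(K.e c).map_target b, by rwa [mem_preimage, (K.e c).right_inv b]⟩

section lad

variable {κ : Type} [Fintype κ] [LinearOrder κ]

section one

variable {n : ℕ} {V : Mf n} {L : Lad κ V.X n} {D : κ → Set V.X}
  {fr : L.B → Chart n V.X → V.X → ℂ}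

theorem lab_top {V : Type} (L : Lad κ V n) (z : (L.Y n).X) : L.lab z = ∅ :=
  Finset.card_eq_zero.1 (Nat.add_eq_right.1 (L.card n z))

theorem at_e {V : Type} (L : Lad κ V n) {m : ℕ} {c : (L.K m).I} {z : (L.Y m).X}
    (hz : z ∈ ((L.K m).e c).source) : At ((L.K m).e c) z := ⟨(L.atl m _).2 ⟨c, rfl⟩, hz⟩

/-- the top stratum is isomorphic to the ambient manifold -/
theorem emb (h : Geo L D fr) : Emb n n (L.pt (m := n)) univ :=
  ⟨h.hol n, fun y y' k => h.inj n y y' k ((lab_top L y).trans (lab_top L y').symm), h.imm n,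
    eq_univ_of_forall fun x =>
      let ⟨y, a, _⟩ := h.srj n x ∅ (fun _ k => absurd k (Finset.notMem_empty _)) (Nat.zero_add n)
      ⟨y, a⟩⟩

theorem co_top (h : Geo L D fr) {c : (L.K n).I} {z : (L.Y n).X} (hz : z ∈ ((L.K n).e c).source)
    (l : κ) : L.pt z ∈ D l ↔ zt (L.co c l) ((L.K n).e c z) = 0 :=
  (h.co n c z hz l).2 (lab_top L z ▸ Finset.notMem_empty l)

theorem leq_top (h : Geo L D fr) {c : (L.K n).I} {z : (L.Y n).X} (hz : z ∈ ((L.K n).e c).source)
    (l : κ) : LEq n (L.pt ⁻¹' D l) z fun y => zt (L.co c l) ((L.K n).e c y) := by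
  refine LEq.of_chart ?_ ?_ (at_e L hz) ?_
  · filter_upwards [((L.K n).e c).open_source.mem_nhds hz] with y hy using (co_top h hy l).symm
  · exact (anV_chart (at_e L hz)).cmp (zt_an _ _)
  · cases L.co c l with
    | none => exact fun k => absurd k one_ne_zero
    | some k => exact fun _ => ((ind_chart (at_e L hz)).2 _ (at_e L hz)).ne_zero k

end one

variable {w d m : ℕ} {V : Mf (w + d)} {W : Mf w} {L : Lad κ V.X (w + d)} {D : κ → Set V.X}
  {fr : L.B → Chart (w + d) V.X → V.X → ℂ} {f : V.X → W.X} {χ : Chart w W.X} {y : W.X}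
  (S : Slc L f χ y)

theorem src {c : (S.F.K m).I} {z : (S.F.Y m).X} (hz : z ∈ ((S.F.K m).e c).source) :
    S.j z ∈ ((L.K (w + m)).e (S.par c)).source := by
  rwa [S.src] at hz

theorem zt_eq {c : (S.F.K m).I} {z : (S.F.Y m).X} (hz : z ∈ ((S.F.K m).e c).source) (l : κ) :
    zt (L.co (S.par c) l) ((L.K (w + m)).e (S.par c) (S.j z)) =
      zt (S.F.co c l) ((S.F.K m).e c z) := by
  rw [S.co, S.val m c z hz]
  cases S.F.co c l with
  | none => rfl
  | some k => exact Fin.append_right _ _ k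

theorem fib (z : (S.F.Y m).X) : f (S.F.pt z) = y := by
  rw [← S.pt]
  exact (S.rng m ▸ mem_range_self z : S.j z ∈ gm L f m ⁻¹' {y})

theorem pt_eq : S.F.pt (m := m) = fun z => L.pt (S.j z) := funext fun z => (S.pt m z).symm

theorem cont (h : Geo L D fr) : Continuous (S.F.pt (m := m)) :=
  pt_eq S ▸ (h.hol _).cont.comp (S.emb m).continuous

theorem inj (h : Geo L D fr) : Injective (S.F.pt (m := d)) :=
  pt_eq S ▸ (emb h).inj.comp (S.emb d).injective

theorem mem_iff (h : Geo L D fr) {c : (S.F.K d).I} {z : (S.F.Y d).X}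
    (hz : z ∈ ((S.F.K d).e c).source) (l : κ) :
    S.F.pt z ∈ D l ↔ zt (S.F.co c l) ((S.F.K d).e c z) = 0 := by
  rw [← zt_eq S hz, ← S.pt, co_top h (src S hz)]

end lad

variable {w d m : ℕ} {B : Bs w} {C : Et B d 1} [LinearOrder C.κ] {A : Dt C} {χ : Chart w B.W.X}
  {y : B.W.X} (S : Slc A.L C.g χ y)

theorem pol_pos {κ X : Type} {G : κ → Set X} {a : κ → ℤ} {b : κ → ℕ} {l : κ}
    (h : a l = -1 ∧ 0 < b l) : pol G a b l = G l := if_pos h

theorem pol_neg {κ X : Type} {G : κ → Set X} {a : κ → ℤ} {b : κ → ℕ} {l : κ}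
    (h : ¬ (a l = -1 ∧ 0 < b l)) : pol G a b l = ∅ := if_neg h

theorem of_pol {κ X : Type} {G : κ → Set X} {a : κ → ℤ} {b : κ → ℕ} {l : κ} {x : X}
    (h : x ∈ pol G a b l) : (a l = -1 ∧ 0 < b l) ∧ x ∈ G l := by
  by_cases k : a l = -1 ∧ 0 < b l
  · exact ⟨k, by rwa [pol_pos k] at h⟩
  · exact absurd (pol_neg k ▸ h) (notMem_empty x)

/-- a chart of the stratum in which the equation of a non polar divisor is a coordinate -/
theorem adp (hy : y ∉ C.Q) (z : (S.F.Y m).X) {l : C.κ} (hl : ¬ (A.a l = -1 ∧ 0 < A.b l))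
    (hz : S.F.pt z ∈ C.G l) : ∃ (c : (S.F.K m).I) (k : Fin m), z ∈ ((S.F.K m).e c).source ∧
      ∀ z' ∈ ((S.F.K m).e c).source, S.F.pt z' ∈ C.G l → (S.F.K m).e c z' k = 0 := by
  classical
  obtain ⟨ζ, h1, -⟩ := A.lg.snc (A.L.pt (S.j z))
  have hf : C.g (A.L.pt (S.j z)) = y := (S.pt m z).symm ▸ fib S z
  have h2 := A.lg.reg y hy _ hf χ S.at' ζ h1
  rw [← S.pt] at hz
  have hm : 0 < m := by
    have k1 := ind_le (h2.comp (Sum.map (fun o : Option {l' // l' ∈ A.L.lab (S.j z)} =>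
      o.elim ⟨l, hz⟩ fun l' => ⟨l'.1, (of_pol (A.geo.mem _ _ _ l'.2)).2⟩) id)
      (Injective.sumMap ?_ injective_id))
    · have k2 := A.L.card _ (S.j z)
      simp only [Fintype.card_sum, Fintype.card_option, Fintype.card_coe, Fintype.card_fin] at k1
      omega
    · rintro (_ | a) (_ | a') k
      · rfl
      · exact absurd ((show l = a'.1 from congrArg Subtype.val k) ▸
          (of_pol (A.geo.mem _ _ _ a'.2)).1) hl
      · exact absurd ((show a.1 = l from congrArg Subtype.val k) ▸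
          (of_pol (A.geo.mem _ _ _ a.2)).1) hl
      · exact congrArg some (Subtype.ext (congrArg Subtype.val k :))
  obtain ⟨c, a1, a2, a4, a3⟩ := A.geo.prod (w + m) (S.j z) (Fin w ⊕ Unit)
    (Sum.elim (fun a x => χ (C.g x) a) fun _ => ζ l)
    (Sum.elim (Fin.castAdd m) fun _ => Fin.natAdd w ⟨0, hm⟩)
    (fun l' => if A.a l' = -1 ∧ 0 < A.b l' then ζ l' else fun _ => 1)
    (Injective.sumElim (Fin.castAdd_injective _ _) (injective_of_subsingleton _) fun a _ k => by
      have := congrArg Fin.val k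
      simp only [Fin.val_castAdd, Fin.val_natAdd] at this
      omega)
    (fun l' => by
      split_ifs with k
      · exact pol_pos k ▸ h1 l'
      · exact pol_neg k ▸ ⟨.of_forall fun _ => iff_of_false one_ne_zero (notMem_empty _),
          fun _ _ => ⟨analyticAt_const, fun k => absurd k one_ne_zero⟩⟩)
    (ind_congr (h2.comp (Sum.elim (fun l' => .inl ⟨l'.1, (of_pol l'.2).2⟩)
      (Sum.elim .inr fun _ => .inl ⟨l, hz⟩)) (by
        rintro (a | a | a) (a' | a' | a') k <;> simp only [Sum.elim_inl, Sum.elim_inr,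
          Sum.inl.injEq, Sum.inr.injEq, Subtype.mk.injEq, reduceCtorEq] at k ⊢
        · exact Subtype.ext k
        · exact hl (k ▸ (of_pol a.2).1)
        · exact k
        · exact hl (k.symm ▸ (of_pol a'.2).1))) (by
      rintro (a | a | a)
      · exact .of_forall fun x => by simp only [Sum.elim_inl, if_pos (of_pol a.2).1]
      · exact .of_forall fun x => rfl
      · exact .of_forall fun x => rfl))
    _ (inter_mem (h1 l).1 (A.lg.hol.cont.continuousAt.eventually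
      (χ.open_source.eventually_mem (hf.symm ▸ S.at'.2))))
  obtain ⟨c, rfl⟩ := S.all m c ⟨fun z' k => ⟨(a3 z' k).1.2, fun a => (a3 z' k).2 (.inl a)⟩,
    fun l' k e => not_lt.1 fun e' => a2 l' (.inl ⟨k, e'⟩) e⟩ ⟨_, a1, hf, a4⟩
  refine ⟨c, ⟨0, hm⟩, by rwa [S.src], fun z' k k' => ?_⟩
  have e := (a3 _ (src S k)).2 (.inr ())
  rw [S.val m c z' k, Sum.elim_inr, Fin.append_right] at e
  exact e.trans ((a3 _ (src S k)).1.1.2 (S.pt m z' ▸ k'))

theorem ae (hy : y ∉ C.Q) (m : ℕ) : ∀ᵐ z ∂(S.F.K m).μ, S.F.pt z ∉ oth C.G A.a A.b := by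
  have h : ∀ l, ∀ᵐ z ∂(S.F.K m).μ, ¬ (¬ (A.a l = -1 ∧ 0 < A.b l) ∧ S.F.pt z ∈ C.G l) := fun l => by
    refine measure_null_of_locally_null _ fun z hz => ?_
    obtain ⟨h1, h2⟩ := not_not.1 hz
    obtain ⟨c, k, a1, a2⟩ := adp S hy z h1 h2
    refine ⟨_, inter_mem_nhdsWithin _ (((S.F.K m).e c).open_source.mem_nhds a1),
      measure_mono_null ?_ (ae_iff.1 (null_co (S.F.K m) c k))⟩
    exact fun z' hz' a => a hz'.2 (a2 z' hz'.2 (not_not.1 hz'.1).2)
  exact (ae_all_iff.2 h).mono fun z hz ⟨l, k⟩ => hz l k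

theorem fac {c : (S.F.K d).I} {z : (S.F.Y d).X} (hz : z ∈ ((S.F.K d).e c).source) {l : C.κ}
    {ζ : C.X.X → ℂ} (hζ : LEq (w + d) (C.G l) (S.F.pt z) ζ) : ∃ v : (S.F.Y d).X → ℝ,
      ContinuousAt v z ∧ 0 < v z ∧ ∀ᶠ z' in 𝓝 z, ‖ζ (S.F.pt z')‖ ^ A.b l = v z' *
        ((if A.a l = -1 ∧ 0 < A.b l then 1 else ‖ζ (S.F.pt z')‖ ^ A.b l) *
          ‖zt (S.F.co c l) ((S.F.K d).e c z')‖ ^ A.r l) := by
  have hs := ((S.F.K d).e c).open_source.mem_nhds hz
  split_ifs with k
  · rw [← S.pt, ← pol_pos (G := C.G) k] at hζ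
    obtain ⟨u, a1, a2, a3⟩ := leq_unit (leq_top A.geo (src S hz) l)
      ((imm_iff_sbm.1 (A.geo.imm _ _)).leq ((A.geo.hol _).at _) hζ)
    have hj := (S.emb d).continuous.continuousAt (x := z)
    refine ⟨fun z' => ‖u (S.j z')‖ ^ A.b l, (a1.cont.comp hj).norm.pow _,
      pow_pos (norm_pos_iff.2 a2) _, ?_⟩
    filter_upwards [hj.eventually a3, hs] with z' b1 b2
    rw [← S.pt, b1, zt_eq S b2, norm_mul, mul_pow, one_mul, Dt.r,
      max_eq_left (Nat.one_le_cast.2 k.2), Real.rpow_natCast]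
  · have h0 : ∀ z' ∈ ((S.F.K d).e c).source, 0 < ‖zt (S.F.co c l) ((S.F.K d).e c z')‖ ^ A.r l :=
      fun z' b => Real.rpow_pos_of_pos (norm_pos_iff.2 (mt (mem_iff S A.geo b l).2
        (pol_neg k ▸ notMem_empty _))) _
    refine ⟨fun z' => (‖zt (S.F.co c l) ((S.F.K d).e c z')‖ ^ A.r l)⁻¹,
      (((zt_an _ _).continuousAt.comp (((S.F.K d).e c).continuousAt hz)).norm.rpow_const
        (.inr (zero_le_one.trans (le_max_right _ _)))).inv₀ (h0 z hz).ne', inv_pos.2 (h0 z hz), ?_⟩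
    filter_upwards [hs] with z' b
    rw [mul_left_comm, inv_mul_cancel₀ (h0 z' b).ne', mul_one]

end Hy

open Hy in
/-- **HYP** -/
theorem stHyp : StHyp := fun w d B C _ A χ y hy S => by
  refine ⟨fun l => zero_lt_one.trans_le (le_max_right _ _), inj S A.geo,
    A.lg.cont.comp (cont S A.geo), ae S hy, fun z => ?_⟩
  obtain ⟨c, hc⟩ := (S.F.K d).cover z
  obtain ⟨ζ, h1, -⟩ := A.lg.snc (S.F.pt z)
  have hp := (cont S A.geo (m := d)).continuousAt (x := z)
  choose v a1 a2 a3 using fun l => fac S hc (h1 l)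
  obtain ⟨C', b1, b2⟩ := A.cpg _ ζ h1
  refine ⟨c, fun z' => ∏ l, if A.a l = -1 ∧ 0 < A.b l then 1 else ‖ζ l (S.F.pt z')‖ ^ A.b l, hc,
    ?_, cpb_of ⟨C', b1, hp.eventually b2⟩ (v := fun z' => ∏ l, v l z')
      (tendsto_finsetProd _ fun l _ => a1 l) (Finset.prod_pos fun l _ => a2 l)
      (fun z' => by positivity) ?_⟩
  · filter_upwards [hp.eventually (eventually_all.2 fun l => (h1 l).near)] with z' k
    refine ⟨tendsto_finsetProd _ fun l _ => ?_, by positivity,
      fun k' => Finset.prod_pos fun l _ => ?_⟩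
    · split_ifs
      · exact tendsto_const_nhds
      · exact ((k l).hol.cont.comp (cont S A.geo).continuousAt).norm.pow _
    · split_ifs with e
      · exact one_pos
      · exact pow_pos (norm_pos_iff.2 fun e' => k' ⟨l, e, (k l).mem.1 e'⟩) _
  · filter_upwards [eventually_all.2 a3] with z' k
    rw [← Finset.prod_mul_distrib, ← Finset.prod_mul_distrib]
    exact Finset.prod_congr rfl fun l _ => k l

end Vale.Agent.P281Z.Lv
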