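import Vale.Agent.P281Z.Lv.Sk
import Vale.Agent.P281Z.La.Aa
import Vale.Agent.P281Z.La.Jac
import Vale.Agent.P281Z.Ld.Lad

/-!
# P281Z, block LV: ladders exist
-/

open scoped Manifold ContDiff Topology
open Set Filter Function
open Vale.Agent.P272.K Vale.Agent.P285.H281.FD
open Vale.Agent.P277Z (Hol at_chart hol_const)
open Vale.Agent.P277Z.Slc (Ind LEq Snc St triv isLB_triv)
open Vale.Agent.P281Z.Ha Vale.Agent.P281Z.Lg

noncomputable section

namespace Vale.Agent.P281Z.Lv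

namespace Ladp

variable {κ : Type} [Fintype κ] [LinearOrder κ] {n : ℕ} {V : Mf n} {D : κ → Set V.X}
  {L : Lad κ V.X n} {ac : L.B → Ac V D (triv V.X)} {ψ : Unit → V.X → ℝ} (M : Mk L ac ψ)

theorem at_e {m : ℕ} {c : (L.K m).I} {y : (L.Y m).X} (hy : y ∈ ((L.K m).e c).source) :
    At ((L.K m).e c) y := ⟨(L.atl m _).2 ⟨c, rfl⟩, hy⟩

include M

theorem src {m : ℕ} {c : (L.K m).I} {y : (L.Y m).X} (hy : y ∈ ((L.K m).e c).source) :
    L.pt y ∈ (ac (L.bs c)).ch.source := ((M.src m c y).1 hy).2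

theorem crd {m : ℕ} {c : (L.K m).I} {y : (L.Y m).X} (hy : y ∈ ((L.K m).e c).source) (k : Fin m) :
    (L.K m).e c y k = (ac (L.bs c)).ch (L.pt y) (M.jx c k) := by
  rw [M.crd m c y hy, (M.jx_inj m c).extend_apply]

theorem zt_co {m : ℕ} {c : (L.K m).I} {y : (L.Y m).X} (hy : y ∈ ((L.K m).e c).source) {l : κ}
    (hl : l ∉ L.lab y) :
    zt (L.co c l) ((L.K m).e c y) = zt ((ac (L.bs c)).la l) ((ac (L.bs c)).ch (L.pt y)) := by
  cases h1 : (ac (L.bs c)).la l with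
  | none =>
    rw [Option.eq_none_iff_forall_ne_some.2 fun k e =>
      Option.some_ne_none _ (((M.co_eq m c l k).1 e).symm.trans h1)]
    rfl
  | some b =>
    obtain ⟨k, rfl⟩ := (M.jx_rng m c b).2 fun l' h' e =>
      hl (((ac (L.bs c)).inj l' l b e h1) ▸ (((M.src m c y).1 hy).1 ▸ h'))
    rw [(M.co_eq m c l k).2 h1]
    exact crd M hy k

omit M in
theorem lab_top (y : (L.Y n).X) : L.lab y = ∅ :=
  Finset.card_eq_zero.1 (by have := L.card n y; omega)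

theorem pr_eq {c : (L.K n).I} {y : (L.Y n).X} (hy : y ∈ ((L.K n).e c).source) :
    ∏ l, zt (L.co c l) ((L.K n).e c y) = (ac (L.bs c)).zp (L.pt y) :=
  Finset.prod_congr rfl fun l _ => zt_co M hy (by rw [lab_top]; exact Finset.notMem_empty l)

/-- the sign of the numbering -/
def dl (c : (L.K n).I) : ℂ :=
  (LinearMap.toMatrix' (Ld.ex (M.jx c) : Cm n →ₗ[ℂ] Cm n)).det

theorem dfm {c : (L.K n).I} {y : (L.Y n).X} (hy : y ∈ ((L.K n).e c).source) {a : Chart n V.X}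
    (ha : At a (L.pt y)) :
    (dfM L.pt ((L.K n).e c) a y).det = (jacM (ac (L.bs c)).ch a (L.pt y)).det * dl M c := by
  have h0 := src M hy
  have h1 := (ac (L.bs c)).co.tr_an (co_chart ha.1) h0 ha.2
  have h2 : Ld.ex (M.jx c) ((L.K n).e c y) = (ac (L.bs c)).ch (L.pt y) := (M.crd n c y hy).symm
  have h3 : (fun z => a (L.pt (((L.K n).e c).symm z))) =ᶠ[𝓝 ((L.K n).e c y)]
      (fun z => a ((ac (L.bs c)).ch.symm z)) ∘ Ld.ex (M.jx c) := by
    filter_upwards [((L.K n).e c).open_target.mem_nhds (((L.K n).e c).map_source hy)] with z hz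
    have k := ((L.K n).e c).map_target hz
    have k2 : Ld.ex (M.jx c) z = (ac (L.bs c)).ch (L.pt (((L.K n).e c).symm z)) := by
      rw [M.crd n c _ k, ((L.K n).e c).right_inv hz]
      rfl
    rw [comp_apply, k2, (ac (L.bs c)).ch.left_inv (src M k)]
  have h4 := (h2.symm ▸ h1.differentiableAt.hasFDerivAt).comp ((L.K n).e c y)
    (Ld.ex (M.jx c)).hasFDerivAt
  rw [dfM, df, h3.fderiv_eq, h4.fderiv, (ac (L.bs c)).co.jac_eq (co_chart ha.1) h0 ha.2, dl,
    ← Matrix.det_mul, ← LinearMap.toMatrix'_comp, h2]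
  rfl

theorem dl_ne {c : (L.K n).I} {y : (L.Y n).X} (hy : y ∈ ((L.K n).e c).source) : dl M c ≠ 0 := by
  have h := (imm_iff_det ((M.pt_hol n).at y) (at_e hy) (at_chart _)).1 (M.pt_imm n y)
  rw [dfm M hy (at_chart _)] at h
  exact right_ne_zero_of_mul h

theorem key {c c' : (L.K n).I} {y : (L.Y n).X} (hy : y ∈ ((L.K n).e c).source)
    (hy' : y ∈ ((L.K n).e c').source) (ho : L.pt y ∈ off D) :
    L.ε c / dl M c = L.ε c' / dl M c' := by
  have ha := at_chart (n := n) (L.pt y)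
  have h0 := src M hy
  have h0' := src M hy'
  have h1 := congrArg Matrix.det (dfM_chg ((M.pt_hol n).at y) (at_e hy') (at_e hy) ha)
  rw [Matrix.det_mul, dfm M hy ha, dfm M hy' ha,
    (ac (L.bs c)).co.jd_mul (ac (L.bs c')).co (co_chart ha.1) h0 h0' ha.2] at h1
  have h2 := L.rel n c c' y hy hy'
  rw [pr_eq M hy, pr_eq M hy', ta, M.a_eq n c c' y hy hy'] at h2
  have h3 := M.G_eq _ _ _ (L.mem n c y hy) (L.mem n c' y hy')
  have n1 := (ac (L.bs c')).co.jd_ne (co_chart ha.1) h0' ha.2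
  have n2 := ((ac (L.bs c)).zp_ne h0).2 ho
  have n3 := (ac (L.bs c)).co.jd_ne (ac (L.bs c')).co h0 h0'
  have e1 := L.eps n c
  have e2 := L.eps n c'
  change _ * _ * (1 * _) = _ at h2
  change _ = _ * 1 * _ at h3
  rw [div_eq_div_iff (dl_ne M hy) (dl_ne M hy')]
  generalize (jacM (ac (L.bs c)).ch (ac (L.bs c')).ch (L.pt y)).det = J at *
  generalize (jacM ((L.K n).e c) ((L.K n).e c') y).det = j at *
  have h4 : J * dl M c = dl M c' * j := mul_left_cancel₀ n1 (by linear_combination h1)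
  have h5 : L.ε c * j = L.ε c' * J :=
    mul_left_cancel₀ n2 (by linear_combination h2 + L.ε c' * h3)
  refine mul_left_cancel₀ n3 ?_
  linear_combination (-L.ε c') * h4 - (L.ε c * L.ε c' * dl M c') * h5 +
    (L.ε c' * dl M c' * j) * e1 - (L.ε c * dl M c' * J) * e2

theorem ex_top (x : V.X) : ∃ y : (L.Y n).X, L.pt y = x :=
  let ⟨y, h, _⟩ := M.surj n ∅ (by simp) x (fun l hl => absurd hl (Finset.notMem_empty l))
  ⟨y, h⟩

theorem ex_c (β : L.B) : ∃ c : (L.K n).I, L.bs c = β ∧ dl M c ≠ 0 ∧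
    ∀ y, L.pt y ∈ L.U β → y ∈ ((L.K n).e c).source := by
  obtain ⟨y, h⟩ := ex_top M (ac β).ctr
  obtain ⟨c, h1, h2⟩ := (M.ex n β y (by rw [h, M.U_eq]; exact (ac β).ctr_mem)).1
  refine ⟨c, h1, dl_ne M h2, fun y' h' => (M.src n c y').2 ⟨?_, ?_⟩⟩
  · rw [← ((M.src n c y).1 h2).1, lab_top, lab_top]
  · rw [h1, ← M.U_eq]
    exact h'

/-- the constant of the frame -/
def et (β : L.B) : ℂ := L.ε (ex_c M β).choose / dl M (ex_c M β).choose

theorem et_ne (β : L.B) : et M β ≠ 0 := div_ne_zero (L.eps_ne _) (ex_c M β).choose_spec.2.1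

theorem et_eq {β β' : L.B} {x : V.X} (ho : x ∈ off D) (h : x ∈ L.U β) (h' : x ∈ L.U β') :
    et M β = et M β' := by
  obtain ⟨y, rfl⟩ := ex_top M x
  exact key M ((ex_c M β).choose_spec.2.2 y h) ((ex_c M β').choose_spec.2.2 y h') ho

/-- the frames -/
def fr (β : L.B) (e : Chart n V.X) (x : V.X) : ℂ :=
  et M β / ((ac β).zp x * (jacM (ac β).ch e x).det)

theorem frB (β β' : L.B) (e : Chart n V.X) (x : V.X) (ho : x ∈ off D) (h : x ∈ L.U β)
    (h' : x ∈ L.U β') (he : At e x) : fr M β' e x = L.G β β' x * fr M β e x := by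
  have h3 := M.G_eq _ _ _ h h'
  have k := et_eq M ho h h'
  rw [M.U_eq] at h h'
  have n1 := (ac β').co.jd_ne (co_chart he.1) h' he.2
  have n2 := ((ac β).zp_ne h).2 ho
  have n2' := ((ac β').zp_ne h').2 ho
  have n3 := (ac β).co.jd_ne (ac β').co h h'
  change _ = _ * 1 * _ at h3
  rw [fr, fr, k, (ac β).co.jd_mul (ac β').co (co_chart he.1) h h' he.2, ← mul_div_assoc,
    div_eq_div_iff (mul_ne_zero n2' n1) (mul_ne_zero n2 (mul_ne_zero n3 n1))]
  linear_combination -(et M β' * (jacM (ac β').ch e x).det) * h3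

theorem frC (β : L.B) (e e' : Chart n V.X) (x : V.X) (h : x ∈ L.U β) (he : At e x)
    (he' : At e' x) : fr M β e x = (jacM e e' x).det * fr M β e' x := by
  rw [M.U_eq] at h
  have n1 := (co_chart he.1).jd_ne (co_chart he'.1) he.2 he'.2
  rw [fr, fr, (ac β).co.jd_mul (co_chart he.1) (co_chart he'.1) h he.2 he'.2, ← mul_assoc,
    ← mul_div_assoc, mul_comm (jacM e e' x).det, mul_div_mul_right _ _ n1]

theorem frU (β : L.B) (e : Chart n V.X) (x : V.X) (h : x ∈ L.U β) (he : At e x)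
    (ζ : κ → V.X → ℂ) (hζ : ∀ l, LEq n (D l) x (ζ l)) :
    ∃ u, Hol n u x ∧ u x ≠ 0 ∧ ∀ᶠ y in 𝓝 x, y ∈ off D → fr M β e y * ∏ l, ζ l y = u y := by
  rw [M.U_eq] at h
  choose w a1 a2 a3 using fun l => leq_unit ((ac β).leq h l) (hζ l)
  have n1 := (ac β).co.jd_ne (co_chart he.1) h he.2
  refine ⟨fun y => et M β * (∏ l, w l y) / (jacM (ac β).ch e y).det,
    ((hol_const _ x).mul (Hol.prod _ fun l _ => a1 l)).div
      ((ac β).co.jd_hol (co_chart he.1) h he.2) n1,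
    div_ne_zero (mul_ne_zero (et_ne M β) (Finset.prod_ne_zero_iff.2 fun l _ => a2 l)) n1, ?_⟩
  filter_upwards [eventually_all.2 a3, (ac β).ch.open_source.mem_nhds h] with y k1 k2 k3
  have n2 := ((ac β).zp_ne k2).2 k3
  rw [Finset.prod_congr rfl fun l _ => k1 l, Finset.prod_mul_distrib, fr, div_mul_eq_mul_div,
    ← mul_assoc, mul_comm ((ac β).zp y)]
  exact mul_div_mul_right _ _ n2

theorem top (c : (L.K n).I) (e : Chart n V.X) (y : (L.Y n).X) (hy : y ∈ ((L.K n).e c).source)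
    (he : At e (L.pt y)) (ho : L.pt y ∈ off D) : L.ε c / L.pr c ((L.K n).e c y) =
      (dfM L.pt ((L.K n).e c) e y).det * fr M (L.bs c) e (L.pt y) := by
  have h0 := src M hy
  have k : L.ε c / dl M c = et M (L.bs c) :=
    key M hy ((ex_c M _).choose_spec.2.2 y (L.mem n c y hy)) ho
  have n1 := (ac (L.bs c)).co.jd_ne (co_chart he.1) h0 he.2
  have n2 := ((ac (L.bs c)).zp_ne h0).2 ho
  have n3 := dl_ne M hy
  rw [dfm M hy he, Lad.pr, pr_eq M hy, fr, ← k]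
  field_simp

theorem lb : IsLB n (⟨L.B, L.U, L.G⟩ : Bd V.X) where
  isOpen β := (congrArg IsOpen (M.U_eq β)).mpr (ac β).ch.open_source
  cover x := (M.cover x).imp fun β h => (congrArg (x ∈ ·) (M.U_eq β)).mpr h
  holo β β' e x he h h' := (M.G_hol β β' x h h' e he).contDiffAt
  ne_zero _ _ _ h h' := L.G_ne h h'
  cocycle β β' β'' x h h' h'' := (L.coc β β' β'' x h h' h'').symm

theorem co (m : ℕ) (c : (L.K m).I) (y : (L.Y m).X) (hy : y ∈ ((L.K m).e c).source) (l : κ) :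
    (l ∈ L.lab y → L.co c l = none) ∧
      (l ∉ L.lab y → (L.pt y ∈ D l ↔ zt (L.co c l) ((L.K m).e c y) = 0)) := by
  refine ⟨fun hl => Option.eq_none_iff_forall_ne_some.2 fun k e => ?_, fun hl => ?_⟩
  · exact (M.jx_rng m c _).1 ⟨k, rfl⟩ l (((M.src m c y).1 hy).1 ▸ hl) ((M.co_eq m c l k).1 e)
  · rw [zt_co M hy hl, (ac (L.bs c)).zt_eq (src M hy)]

theorem prod (hs : Surjective ac) (m : ℕ) (z : (L.Y m).X) (α : Type) [Fintype α]
    (h : α → V.X → ℂ) (o : α → Fin m) (ζ : κ → V.X → ℂ) (ho : Injective o)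
    (hζ : ∀ l, LEq n (D l) (L.pt z) (ζ l))
    (hi : Ind n (Sum.elim (fun l : {l // L.pt z ∈ D l} => ζ l) h) (L.pt z)) (hD : Snc n D)
    (O : Set V.X) (hO : O ∈ 𝓝 (L.pt z)) :
    ∃ c : (L.K m).I, z ∈ ((L.K m).e c).source ∧ (∀ l a, L.co c l ≠ some (o a)) ∧
      (∀ l k, L.co c l = some k → (L.K m).e c z k = 0) ∧
      ∀ y ∈ ((L.K m).e c).source, L.pt y ∈ O ∧ ∀ a, (L.K m).e c y (o a) = h a (L.pt y) := by
  obtain ⟨c₀, j, k1, k2, k3, k4, k5⟩ :=
    stAa n V κ D (triv V.X) isLB_triv hD (L.pt z) α h (trv_of_one hζ hi) O hO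
  obtain ⟨β, rfl⟩ := hs c₀
  have hz : L.pt z ∈ L.U β := by
    rw [M.U_eq, ← k1]
    exact (ac β).ctr_mem
  obtain ⟨⟨c₁, rfl, h1⟩, h2⟩ := M.ex m β z hz
  choose p hp using fun a => (M.jx_rng m c₁ (j a)).2 fun l _ => k4 a l
  have hp' : Injective p := fun a b e => k3 (by rw [← hp, ← hp, e])
  obtain ⟨σ, hσ⟩ := Equiv.Perm.exists_extending_pair o p ho hp'
  obtain ⟨c, e1, e2, e3⟩ := h2 (M.jx c₁ ∘ σ) ((M.jx_inj m c₁).comp σ.injective) fun k l hl =>
    (M.jx_rng m c₁ _).1 ⟨σ k, rfl⟩ l (((M.src m c₁ z).1 h1).1 ▸ hl)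
  have e4 : ∀ a, M.jx c (o a) = j a := fun a => by rw [e3, comp_apply, hσ, hp]
  refine ⟨c, e2, fun l a e => k4 a l ?_, fun l k e => ?_, fun y hy => ?_⟩
  · rw [← e4, ← e1]
    exact (M.co_eq m c l _).1 e
  · rw [crd M e2, ← k1, ← e1]
    exact (ac (L.bs c)).ctr_z l _ ((M.co_eq m c l k).1 e)
  · have k6 := src M hy
    rw [e1] at k6
    exact ⟨k2 k6, fun a => by rw [crd M hy, e4, e1, k5 _ k6]⟩

end Ladp

open Ladp in
/-- **LAD** -/
theorem stLad : StLad := by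
  intro κ _ _ n V D hK hD
  obtain ⟨L, θ, ⟨M⟩⟩ := Lg.stLad n V κ D (triv V.X) isLB_triv (fun _ _ => 0) (Ac V D (triv V.X)) id
    hK ⟨fun _ _ _ _ _ => contDiffAt_const, fun _ _ _ _ _ => by simp [triv]⟩ fun x => by
      obtain ⟨c, -, h, -⟩ := stAa n V κ D (triv V.X) isLB_triv hD x Empty _ (trv_empty hD) univ
        univ_mem
      exact ⟨c, h ▸ c.ctr_mem⟩
  refine ⟨L, fr M, ⟨fun m c z hz => ?_, fun m c c' y h h' => M.a_eq m c c' y h h'⟩, hK, hD,
    M.pt_hol, M.pt_imm, M.inj, M.mem, fun m x I h h' => M.surj m I h' x h, co M, lb M, frB M,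
    fun β e e' x _ => frC M β e e' x, frU M, top M,
    fun m z α _ h o ζ a b c => prod M θ.surjective m z α h o ζ a b c hD⟩
  have k := M.φ_eq m c _ (((L.K m).e c).map_target hz)
  rwa [((L.K m).e c).right_inv hz] at k

end Vale.Agent.P281Z.Lv
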