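import Vale.Agent.P281Z.Lv.Ord

/-!
# P281Z, block LV: the numerators of the forms
-/

open scoped Manifold ContDiff Topology
open Set Filter
open Vale.Agent.P272.K Vale.Agent.P285.H281.FD
open Vale.Agent.P277Z (Hol at_chart hol_const)
open Vale.Agent.P277Z.Slc (LEq Snc)
open Vale.Agent.P281Z.Pk

noncomputable section

namespace Vale.Agent.P281Z.Lv

namespace Lm

theorem off_pol {κ X : Type} {G : κ → Set X} {a : κ → ℤ} {b : κ → ℕ} {x : X} (h : x ∈ off G) :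
    x ∈ off (pol G a b) := fun l m => by
  rw [pol] at m
  split_ifs at m
  · exact h l m
  · exact m

variable {w d : ℕ} {B : Bs w} {C : Et B d 1} [LinearOrder C.κ] (A : Dt C) {i j : B.l.ι}
  {x : C.X.X} {c : Chart (w + d) C.X.X} {β : A.L.B}

theorem fr_ne (h : x ∈ off C.G) (hβ : x ∈ A.L.U β) (hc : At c x) : A.fr β c x ≠ 0 := by
  obtain ⟨ζ, hζ, -⟩ := A.geo.snc x
  obtain ⟨u, -, h1, h2⟩ := A.geo.frU β c x hβ hc ζ hζ
  exact left_ne_zero_of_mul (h2.self_of_nhds (off_pol h) ▸ h1)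

/-- the quotient of the form by the frame -/
def qu (i : B.l.ι) (β : A.L.B) (x : C.X.X) : ℂ :=
  C.t i (chartAt (Cm (w + d)) x) x / A.fr β (chartAt (Cm (w + d)) x) x

theorem qu_eq (h : x ∈ C.O i) (hβ : x ∈ A.L.U β) (hc : At c x) :
    C.t i c x = qu A i β x * A.fr β c x := by
  rw [A.lg.tchg i c _ x h hc (at_chart x), A.geo.frC β c _ x (off_pol h.2) hβ hc (at_chart x),
    pow_one, mul_left_comm, qu, div_mul_cancel₀ _ (fr_ne A h.2 hβ (at_chart x))]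

/-- the quotient extends -/
theorem loc (hO : A.Or) (hi : C.g x ∈ B.l.U i \ C.Q) (hβ : x ∈ A.L.U β) :
    ∃ H, Hol (w + d) H x ∧ (x ∉ oth C.G A.a A.b → H x ≠ 0) ∧
      ∀ᶠ y in 𝓝 x, y ∈ off C.G → H y = qu A i β y := by
  classical
  have hc := at_chart (n := w + d) x
  obtain ⟨ζ, hζ, -⟩ := A.lg.snc x
  obtain ⟨b, b1, b2, b3⟩ := Od.mon A hi.1 hc hζ
  obtain ⟨u, u1, u2, u3⟩ := A.geo.frU β _ x hβ hc
    (fun l => if A.a l = -1 ∧ 0 < A.b l then ζ l else fun _ => 1) fun l => by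
      rw [pol]
      split_ifs
      · exact hζ l
      · exact ⟨.of_forall fun _ => by simp, fun _ _ =>
          ⟨analyticAt_const, fun h => (one_ne_zero h).elim⟩⟩
  refine ⟨fun y => b y * (u y)⁻¹ * ∏ l, if A.a l = -1 ∧ 0 < A.b l then 1 else ζ l y ^ A.a l,
    (b1.mul (u1.inv u2)).mul (Hol.prod _ fun l _ => ?_), fun h => mul_ne_zero
      (mul_ne_zero b2 (inv_ne_zero u2)) (Finset.prod_ne_zero_iff.2 fun l _ => ?_), ?_⟩
  · split_ifs with h
    · exact hol_const _ _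
    · by_cases hl : x ∈ C.G l
      · obtain ⟨k, hk⟩ := Int.eq_ofNat_of_zero_le ((hO l x hl hi.2).resolve_left h)
        simpa only [hk, zpow_natCast] using (hζ l).hol.pow k
      · exact (hζ l).hol.zpow (mt (hζ l).mem.1 hl) _
  · split_ifs with h'
    · exact one_ne_zero
    · exact zpow_ne_zero _ fun e => h ⟨l, h', (hζ l).mem.1 e⟩
  · filter_upwards [b3, u3, u1.ne_near u2, off_iff hζ, Od.near_O A hi.1, at_near hc,
      lb_near A.geo.lb hβ] with y k1 k2 k3 k4 k5 k6 k7 k8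
    refine mul_right_cancel₀ (fr_ne A k8 k7 k6) ?_
    rw [← qu_eq A (k5 k8) k7 k6, k1 k8, mul_assoc, mul_assoc]
    refine congrArg _ ((inv_mul_eq_iff_eq_mul₀ k3).2 ?_)
    rw [← k2 (off_pol k8), mul_comm, mul_assoc, ← Finset.prod_mul_distrib]
    refine congrArg _ (Finset.prod_congr rfl fun l _ => ?_)
    split_ifs with h
    · rw [h.1, zpow_neg_one, mul_inv_cancel₀ (k4.1 k8 l)]
    · rw [one_mul]

/-- the numerators -/
def lam (i : B.l.ι) (β : A.L.B) : C.X.X → ℂ := Md.ext (off C.G) (qu A i β)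

theorem spec (hO : A.Or) (hi : C.g x ∈ B.l.U i \ C.Q) (hβ : x ∈ A.L.U β) :
    Hol (w + d) (lam A i β) x ∧ (x ∉ oth C.G A.a A.b → lam A i β x ≠ 0) ∧
      (x ∈ off C.G → lam A i β x = qu A i β x) := by
  obtain ⟨H, h1, h2, h3⟩ := loc A hO hi hβ
  have h4 := Md.ext_ev (.of_forall (Hyp.of_snc A.lg.snc).freq) h1 h3
  exact ⟨h1.congr h4, fun h => h4.self_of_nhds.symm.trans_ne (h2 h),
    fun h => h4.self_of_nhds.symm.trans (h3.self_of_nhds h)⟩

theorem eq (hO : A.Or) (h : x ∈ off C.G) (hi : C.g x ∈ B.l.U i \ C.Q) (hβ : x ∈ A.L.U β)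
    (hc : At c x) : C.t i c x = lam A i β x * A.fr β c x := by
  rw [(spec A hO hi hβ).2.2 h, qu_eq A ⟨⟨hi.1, A.lg.pre x h⟩, h⟩ hβ hc]

include A in
theorem near (hi : C.g x ∈ B.l.U i \ C.Q) : ∀ᶠ y in 𝓝 x, C.g y ∈ B.l.U i \ C.Q :=
  A.lg.hol.cont.continuousAt.eventually
    (((A.lg.base.lb.isOpen i).sdiff A.lg.thin.closed).mem_nhds hi)

end Lm

open Lm in
/-- **LAM** -/
theorem stLam : StLam := fun w d B C _ A hO => by
  have hD := (Hyp.of_snc A.lg.snc).dense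
  refine ⟨lam A, fun i => ⟨fun β x hi hβ => (spec A hO hi hβ).1, fun β β' x hi hβ hβ' => ?_⟩,
    fun i β c x h hi hβ hc => eq A hO h hi hβ hc, fun i β x hi hβ => (spec A hO hi hβ).2.1,
    fun i j β x hi hj hβ => ?_⟩
  · refine P277Z.Slc.Dv.eq_of_dense hD (spec A hO hi hβ).1.cont
      ((lb_hol A.geo.lb hβ hβ').mul (spec A hO hi hβ').1).cont ?_
    filter_upwards [near A hi, lb_near A.geo.lb hβ, lb_near A.geo.lb hβ'] with y k1 k2 k3 k4
    refine mul_right_cancel₀ (fr_ne A k4 k2 (at_chart y)) ?_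
    rw [← eq A hO k4 k1 k2 (at_chart y), eq A hO k4 k1 k3 (at_chart y),
      A.geo.frB β β' _ y (off_pol k4) k2 k3 (at_chart y)]
    ring
  · have a := A.lg.base.ch i _ hi.1
    have ct := A.lg.hol.cont.continuousAt (x := x)
    refine P277Z.Slc.Dv.eq_of_dense hD (spec A hO ⟨hj, hi.2⟩ hβ).1.cont
      ((((lb_hol A.lg.base.lb hi.1 hj).cont.mul
        (co_jac_cont (co_chart a.1) a.2 (A.lg.base.ch j _ hj))).comp ct).mul
          (spec A hO hi hβ).1.cont) ?_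
    filter_upwards [near A hi, near A (i := j) ⟨hj, hi.2⟩, lb_near A.geo.lb hβ]
      with y k1 k2 k3 k4
    refine mul_right_cancel₀ (fr_ne A k4 k3 (at_chart y)) ?_
    rw [← eq A hO k4 k2 k3 (at_chart y), A.lg.lchg i j _ y ⟨⟨k1.1, A.lg.pre y k4⟩, k4⟩
      ⟨⟨k2.1, A.lg.pre y k4⟩, k4⟩ (at_chart y), eq A hO k4 k1 k3 (at_chart y), pow_one]
    exact (mul_assoc _ _ _).symm

end Vale.Agent.P281Z.Lv
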