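import Vale.Agent.P281Z.Lv.Sk
import Vale.Agent.P281Z.Lg.B2
import Vale.Agent.P281Z.Lg.Gl
import Vale.Agent.P281Z.Lg.Rs
import Vale.Agent.P281Z.Ha.Int
import Vale.Agent.P281Z.Ha.Loc

/-!
# P281Z, block LV: locally constant weights
-/

open scoped Topology ComplexConjugate ComplexOrder
open Set Filter MeasureTheory
open Vale.Agent.P272.K Vale.Agent.P284.H608.K
open Vale.Agent.P281Z.Ha Vale.Agent.P281Z.Lg

noncomputable section

namespace Vale.Agent.P281Z.Lv

namespace Mu

variable {m : ℕ} {M : Type} [TopologicalSpace M] [MeasurableSpace M] {K : KA m M} {u : M → ℝ}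
  {a : Sc K}

theorem top (h : Top K a) : Top K (mu K u a) :=
  ⟨fun i j x hi hj => by
    simp only [mu, (K.e i).left_inv hi, (K.e j).left_inv hj, h.chg i j x hi hj]
    ring, fun i z hz => by simp only [mu, h.off i z hz, mul_zero]⟩

theorem near (hu : IsLocallyConstant u) (a : Sc K) {i : K.I} {z : Cm m} (hz : z ∈ (K.e i).target) :
    mu K u a i =ᶠ[𝓝 z] fun y => (u ((K.e i).symm z) : ℂ) * a i y :=
  (((K.e i).continuousAt_symm hz).eventually (hu.eventually_eq _)).mono fun y e => by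
    simp only [mu, e]

theorem sm (hu : IsLocallyConstant u) (h : Sm K a) : Sm K (mu K u a) := fun i z hz =>
  (contDiffAt_const.mul (h i z hz)).congr_of_eventuallyEq (near hu a hz)

theorem hl (hu : IsLocallyConstant u) (h : Hl K a) : Hl K (mu K u a) := fun i z hz =>
  (analyticAt_const.mul (h i z hz)).congr (near hu a hz).symm

theorem h0 (hu : IsLocallyConstant u) (h : H0 K a) : H0 K (mu K u a) := ⟨top h.top, hl hu h.hol⟩

theorem swap (u : M → ℝ) (a a' : Sc K) : pS K (mu K u a) a' = pS K a (mu K u a') := by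
  simp only [pS, dS, mu, map_mul, Complex.conj_ofReal, mul_assoc, mul_left_comm]

theorem pos (I : Int K) (hu : IsLocallyConstant u) (h : ∀ y, 0 < u y) (ha : H0 K a) (h1 : a ≠ 0) :
    0 < (pS K (mu K u a) a).re := by
  have e : mu K u a = mu K (fun y => √(u y)) (mu K (fun y => √(u y)) a) := by
    funext i z
    simp only [mu, ← mul_assoc, ← Complex.ofReal_mul, Real.mul_self_sqrt (h _).le]
  have k := h0 (hu.comp Real.sqrt) ha
  rw [e, swap]
  refine (Complex.pos_iff.1 ((I.nnS _).lt_of_ne' fun c => h1 (funext₂ fun i z => ?_))).1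
  exact (mul_eq_zero.1 (congrFun₂ (I.posS _ k.top (Rn.hl_sm k.hol) c) i z)).resolve_left
    (Complex.ofReal_ne_zero.2 (Real.sqrt_ne_zero'.2 (h _)))

end Mu

/-- (MUF) -/
theorem stMuf : StMuf := by
  intro κ V _ _ n L m
  refine ⟨fun u hu a => ⟨Mu.top, Mu.sm hu, Mu.hl hu, fun h => Mu.pos (stInt stApi _ _ _) hu h⟩,
    fun h b => ⟨fun hb => ⟨L.top_fm (L.num_nm hb.chg), fun c z hz => ?_⟩, fun a ha hv => ?_⟩⟩
  · refine (((analyticAt_const (v := L.ε c)).mul (hb.hol c z hz)).div (L.pr_an c z) (h c z hz)).congr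
      (mem_of_superset (((L.K m).e c).open_target.mem_nhds hz) fun y hy => ?_)
    exact (if_pos hy).symm
  · funext c z
    by_cases hz : z ∈ ((L.K m).e c).target
    · have k := hv c _ (((L.K m).e c).map_target hz) trivial
      rw [((L.K m).e c).right_inv hz] at k
      rw [Lad.fm, if_pos hz, Lad.nm, ← k, Lad.nu, div_eq_iff (h c z hz)]
      linear_combination L.pr c z * a c z * L.eps m c
    · rw [Lad.fm, if_neg hz, ha.off c z hz]

/-- (B2W) -/
theorem stB2w (hB : StB2) : StB2w := by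
  intro κ V _ _ n L hp m hm u hu h0 a ha
  have R := stRs κ V n L
  have I := stInt stApi _ _ (L.K m)
  have := La.finS (K := L.K m) (stFin stApi (stInt stApi) stMon)
  have l : (Rn.Gs (L.K (m + 1))).map (Lad.rsl R m) ≤ Rn.H0s (L.K m) :=
    Submodule.map_le_iff_le_comap.2 fun g hg => Lad.rs_h0 R hg
  have := Submodule.finiteDimensional_of_le l
  have H : La.Hf (Rn.H0s (L.K m)) fun a => pS _ (mu _ u a) :=
    ⟨fun a ha => (La.hfS I).cj _ (Mu.h0 hu ha), fun a _ b _ => by rw [← I.conjS, Mu.swap],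
      fun a ha e => by_contra fun c => (Mu.pos I hu h0 ha c).ne' (by rw [e]; rfl)⟩
  obtain ⟨_, ⟨g, hg, rfl⟩, h2⟩ := La.riesz (H.mono l) (((La.hfS I).cj a ha).mono l)
  have h3 := Mu.h0 hu (Lad.rs_h0 R hg)
  obtain ⟨b, h6, h7, -⟩ := (hB κ V n L hp m hm _ ((Rn.H0s _).sub_mem ha h3)).1 fun g' hg' => by
    have h5 := Lad.rs_h0 R hg'
    rw [pS_sub (I.intS _ _ ha.top h5.top (Rn.hl_sm ha.hol) (Rn.hl_sm h5.hol))
      (I.intS _ _ h3.top h5.top (Rn.hl_sm h3.hol) (Rn.hl_sm h5.hol))]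
    exact sub_eq_zero.2 (h2 _ ⟨g', hg', rfl⟩)
  exact ⟨g, b, hg, h6, h7⟩

end Vale.Agent.P281Z.Lv
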