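import Vale.Agent.P281Z.Lv.Hyp
import Vale.Agent.P281Z.Pk.Nu
import Vale.Agent.P281Z.Pk.Reg0

/-!
# P281Z, block LV: the fibre measure
-/

open scoped Manifold ContDiff Topology ENNReal ComplexConjugate ComplexOrder
open Set Filter MeasureTheory Function
open Vale.Agent.P272.K Vale.Agent.P284.H608.K
open Vale.Agent.P277Z (Hol at_chart)
open Vale.Agent.P281Z.Hg (PC IsPC)
open Vale.Agent.P281Z.Ha Vale.Agent.P281Z.Lg Vale.Agent.P281Z.Pk

noncomputable section

namespace Vale.Agent.P281Z.Lv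

namespace Nut

open Hy Mg

/-- the charts of the top stratum are coordinates on the ambient manifold -/
theorem ex_ch {κ : Type} [Fintype κ] [LinearOrder κ] {n : ℕ} {V : Mf n} {L : Lad κ V.X n}
    {D : κ → Set V.X} {fr : L.B → Chart n V.X → V.X → ℂ} (h : Geo L D fr) (c : (L.K n).I) :
    ∃ a : Chart n V.X, Co n a ∧ a.target = ((L.K n).e c).target ∧
      (∀ v, a.symm v = L.pt (((L.K n).e c).symm v)) ∧
      (∀ z, L.pt z ∈ a.source ↔ z ∈ ((L.K n).e c).source) ∧ (∀ z, a (L.pt z) = (L.K n).e c z) ∧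
      ∀ z ∈ ((L.K n).e c).source, ∀ e, At e (L.pt z) →
        (jacM a e (L.pt z)).det = (dfM L.pt ((L.K n).e c) e z).det := by
  let H := (emb h).cemb.isEmbedding.toHomeomorphOfSurjective (range_eq_univ.1 (emb h).rng)
  have h1 : ∀ z, H.symm (L.pt z) = z := H.symm_apply_apply
  have h2 : ∀ x, L.pt (H.symm x) = x := H.apply_symm_apply
  have h3 : Co n (H.symm.transOpenPartialHomeomorph ((L.K n).e c)) :=
    ⟨fun x hx => ((emb h).lift_at ((holM_id.at x).cng (.of_forall fun x => (h2 x).symm))).anV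
      (at_e L hx), fun v hv e he => by
        have k := ((h.hol n).at _).an (at_e L (((L.K n).e c).map_target hv)) he
        rwa [((L.K n).e c).right_inv hv] at k⟩
  have h4 : ∀ z, L.pt z ∈ (H.symm.transOpenPartialHomeomorph ((L.K n).e c)).source ↔
      z ∈ ((L.K n).e c).source := fun z => by
    change H.symm (L.pt z) ∈ ((L.K n).e c).source ↔ _
    rw [h1]
  have h5 : ∀ z, H.symm.transOpenPartialHomeomorph ((L.K n).e c) (L.pt z) = (L.K n).e c z :=
    fun z => congrArg ((L.K n).e c) (h1 z)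
  refine ⟨_, h3, rfl, fun _ => rfl, h4, h5, fun z hz e he => ?_⟩
  rw [jd_eq h3 (co_chart he.1) ((h4 z).2 hz) he.2, h5, dfM, LinearMap.det_toMatrix']
  rfl

theorem den {n : ℕ} {M : Type} [TopologicalSpace M] [MeasurableSpace M] {K : KA n M} {a : Sc K}
    (ha : Top K a) {c : K.I} {x : M} (hx : x ∈ (K.e c).source) (h0 : K.φ c (K.e c x) = 0) :
    ‖dS K a a x‖ₑ * ENNReal.ofReal (K.w c (K.e c x)).det.re = ‖a c (K.e c x)‖ₑ ^ 2 := by
  obtain ⟨k1, k2⟩ := It.det_re ((K.e c).map_source hx)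
  rw [← Complex.norm_of_nonneg k1.le, ofReal_norm, k2, ← enorm_mul,
    dS_eq hx (fun j => ha.chg c j x hx) fun j => ha.chg c j x hx, wt, h0, neg_zero, Real.exp_zero,
    Complex.ofReal_one, mul_right_comm, one_div_mul_cancel (w_det hx), one_mul, enorm_mul, sq,
    RCLike.enorm_conj]

variable {w d : ℕ} {B : Bs w} {C : Et B d 1} [LinearOrder C.κ] {A : Dt C} {i : B.l.ι} {y : B.W.X}
  (S : Slc A.L C.g (B.ch i) y) {lam : B.l.ι → A.L.B → C.X.X → ℂ} (h : A.Lam lam)
  (hy : y ∈ B.l.U i) (hQ : y ∉ C.Q)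

/-- the form on the fibre -/
abbrev fo (b : A.L.B → C.X.X → ℂ) : Sc (S.F.K d) := S.F.fm (S.F.nm d (S.rb b))

theorem fo_eq (b : A.L.B → C.X.X → ℂ) {c : (S.F.K d).I} {z : (S.F.Y d).X}
    (hz : z ∈ ((S.F.K d).e c).source) : fo S b c ((S.F.K d).e c z) =
      S.F.ε c * b (S.bb (S.F.bs c)) (S.F.pt z) / S.F.pr c ((S.F.K d).e c z) := by
  rw [fo, Lad.fm, if_pos (((S.F.K d).e c).map_source hz), S.F.nm_src _ hz, Slc.rb]

theorem off_pol {x : C.X.X} (hx : x ∈ off C.G) : x ∈ off (pol C.G A.a A.b) :=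
  fun l k => hx l (of_pol k).2

theorem ae_off (hQ : y ∉ C.Q) : ∀ᵐ z ∂(S.F.K d).μ, S.F.pt z ∈ off C.G := by
  filter_upwards [ae S hQ d, S.F.ae_ne] with z a b l k
  obtain ⟨c, hc⟩ := (S.F.K d).cover z
  by_cases e : A.a l = -1 ∧ 0 < A.b l
  · exact b c hc (Finset.prod_eq_zero (Finset.mem_univ l)
      ((mem_iff S A.geo hc l).1 (by rwa [pol_pos e])))
  · exact a ⟨l, e, k⟩

include hy hQ

theorem mem_U (z : (S.F.Y d).X) : C.g (S.F.pt z) ∈ B.l.U i \ C.Q := (fib S z).symm ▸ ⟨hy, hQ⟩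

include h

theorem chg : S.F.Chg (S.F.sk d) (S.rb (lam i)) := by
  rintro β β' _ ⟨z, rfl⟩ a a'
  rw [S.U] at a a'
  rw [S.G]
  exact (h.hol i).chg _ _ _ (mem_U S hy hQ z) a a'

theorem top : Top _ (fo S (lam i)) := S.F.top_fm (S.F.num_nm (chg S h hy hQ))

theorem cont_dS {z : (S.F.Y d).X} (hz : S.F.pt z ∈ off C.G) :
    ContinuousAt (dS _ (fo S (lam i)) (fo S (lam i))) z := by
  obtain ⟨c, hc⟩ := (S.F.K d).cover z
  have h1 := ((S.F.K d).e c).continuousAt hc
  have h2 := ((S.F.K d).e c).open_source.eventually_mem hc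
  have h3 : ContinuousAt (fun z => fo S (lam i) c ((S.F.K d).e c z)) z := by
    refine (((continuousAt_const (y := S.F.ε c)).mul (((h.hol i).hol _ _ (mem_U S hy hQ z)
      (S.U _ ▸ S.F.mem d c z hc)).cont.comp (cont S A.geo).continuousAt)).div
      ((S.F.pr_an c _).continuousAt.comp h1) (Finset.prod_ne_zero_iff.2 fun l _ =>
        mt (mem_iff S A.geo hc l).2 (off_pol hz l))).congr ?_
    filter_upwards [h2] with z' k using (fo_eq S _ k).symm
  refine (((It.wt_sm (((S.F.K d).e c).map_source hc)).continuousAt.comp h1).mul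
    (h3.mul (Complex.continuous_conj.continuousAt.comp h3))).congr ?_
  filter_upwards [h2] with z' k
  exact (dS_eq k (fun j => (top S h hy hQ).chg c j z' k) fun j => (top S h hy hQ).chg c j z' k).symm

theorem meas : Measurable ((S.F.pt ⁻¹' off C.G).indicator
    fun z => ‖dS _ (fo S (lam i)) (fo S (lam i)) z‖ₑ) := by
  simpa only [ENNReal.rpow_one] using meas_ind ((snc_open_off A.lg.snc).preimage (cont S A.geo))
    (fun z hz => cont_dS S h hy hQ hz) 1

/-- the fibre measure is the image of a measure on the top stratum -/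
theorem nu_eq : C.ν i y = ((S.F.K d).μ.withDensity ((S.F.pt ⁻¹' off C.G).indicator
    fun z => ‖dS _ (fo S (lam i)) (fo S (lam i)) z‖ₑ)).map S.F.pt := by
  choose a a1 a2 a3 a4 a5 a6 using fun c : (S.F.K d).I => ex_ch A.geo (S.par c)
  have hp := (cont S A.geo (m := d)).measurable
  have hν := (A.lg.toGeo.nu hy hQ).1
  refine uniq (S := C.g ⁻¹' {y}) (fun c => (a c).open_source) (fun x hx => ?_) hν.1 ?_
    fun c f hf h0 => ?_
  · obtain ⟨z, rfl⟩ := (emb A.geo).ex (mem_univ x)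
    obtain ⟨z, rfl⟩ : z ∈ range S.j := S.rng d ▸ hx
    obtain ⟨c, hc⟩ := (S.F.K d).cover z
    exact mem_iUnion.2 ⟨c, (a4 c _).2 (src S hc)⟩
  · rw [Measure.map_apply hp (isClosed_singleton.preimage A.lg.hol.cont).measurableSet.compl,
      show S.F.pt ⁻¹' (C.g ⁻¹' {y})ᶜ = ∅ from eq_empty_of_forall_notMem fun z k => k (fib S z),
      measure_empty]
  let q : PC w d C.X.X B.W.X := (B.ch i, (a c).transHomeomorph (Fin.appendHomeomorph w d).symm)
  have hq : IsPC C.g q := pc_of_co ((a1 c).trans (apL w d).symm) S.at'.1 fun x hx => by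
    obtain ⟨z, rfl⟩ := (emb A.geo).ex (mem_univ x)
    obtain ⟨k1, k2⟩ := (S.pc d c).fst z ((a4 c z).1 hx)
    exact ⟨k1, funext fun j => (congrFun (a5 c z) _).trans (k2 j)⟩
  have hT : {v | (q.1 y, v) ∈ q.2.target} = ((S.F.K d).e c).target := by
    rw [S.tgt, ← a2]
    rfl
  rw [hν.2 q hq S.at'.2 f hf h0, lintegral_map hf hp, hT]
  refine Eq.trans ?_ ((lintegral_withDensity_eq_lintegral_mul _ (meas S h hy hQ)
    (hf.comp hp)).trans ((S.F.K d).hμ c _ ((meas S h hy hQ).mul (hf.comp hp)) fun z hz => ?_)).symm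
  swap
  · refine mul_eq_zero_of_right _ (h0 _ fun k => hz ?_)
    rw [← S.pt, a4] at k
    rwa [S.src]
  refine setLIntegral_congr_fun ((S.F.K d).e c).open_target.measurableSet fun v hv => ?_
  obtain ⟨z, hz, rfl⟩ := ((S.F.K d).e c).surjOn hv
  have e : q.2.symm (q.1 y, (S.F.K d).e c z) = S.F.pt z := by
    refine (a3 c _).trans ?_
    rw [← S.pt, ← ((A.L.K (w + d)).e (S.par c)).left_inv (src S hz), S.val d c z hz]
    rfl
  simp only [e, ((S.F.K d).e c).left_inv hz, Pi.mul_apply, comp_apply, fmm]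
  rw [mul_comm _ (f _), mul_assoc]
  congr 1
  by_cases k : S.F.pt z ∈ off C.G
  swap
  · rw [indicator_of_notMem fun k' => k k'.2, indicator_of_notMem (by exact k), zero_mul]
  have hU := mem_U S hy hQ z
  have k1 : ∀ v, (qc q).symm v = (a c).symm v := fun v =>
    congrArg (a c).symm ((Fin.appendHomeomorph w d).apply_symm_apply v)
  have k2 : ∀ x, qc q x = a c x := fun x => (Fin.appendHomeomorph w d).apply_symm_apply _
  have k3 : ∀ e x, jacM (qc q) e x = jacM (a c) e x := fun e x => by simp only [jacM, k1, k2]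
  have k4 := A.geo.top (S.par c) _ _ (src S hz) (at_chart _) (S.pt d z ▸ off_pol k)
  have k5 : A.L.pr (S.par c) ((A.L.K (w + d)).e (S.par c) (S.j z)) = S.F.pr c ((S.F.K d).e c z) :=
    Finset.prod_congr rfl fun l _ => zt_eq S hz l
  rw [← a6 c _ (src S hz) _ (at_chart _), S.pt, k5] at k4
  rw [indicator_of_mem (show S.F.pt z ∈ C.O i from ⟨⟨hU.1, fun e => hU.2 (A.lg.sub e)⟩, k⟩),
    indicator_of_mem (by exact k), den (top S h hy hQ) hz
      (S.tri.φ d c _ (((S.F.K d).e c).map_source hz)), fo_eq S _ hz, S.ε, S.bs, rl, k3,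
    jd_self (co_chart S.at'.1) (A.lg.base.ch i _ hU.1).2, h.eq i (A.L.bs (S.par c)) _ _ k hU
      (S.pt d z ▸ A.L.mem _ _ _ (src S hz)) (at_chart _), mul_one, pow_one, mul_assoc,
    mul_comm (A.fr _ _ _), ← k4, Nat.cast_one, div_one, ENNReal.rpow_two, mul_assoc, mul_div_assoc,
    enorm_mul ((-1) ^ _), enorm_pow, enorm_neg, enorm_one, one_pow, one_mul, mul_comm (A.L.ε _),
    mul_div_assoc]

theorem fo_quo {b : A.L.B → C.X.X → ℂ} (hb : S.F.Chg (S.F.sk d) (S.rb b)) {c : (S.F.K d).I}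
    {z : (S.F.Y d).X} (hz : z ∈ ((S.F.K d).e c).source) (k : S.F.pt z ∈ off C.G) :
    fo S b c ((S.F.K d).e c z) =
      A.quo b (lam i) (S.F.pt z) * fo S (lam i) c ((S.F.K d).e c z) := by
  have h1 := S.F.mem d c z hz
  have h2 : ∃ β, S.F.pt z ∈ A.L.U β := ⟨_, S.U _ ▸ h1⟩
  obtain ⟨β, e⟩ := S.bb.surjective h2.choose
  have h3 : S.F.pt z ∈ S.F.U β := by
    rw [S.U, e]
    exact h2.choose_spec
  have h4 : lam i (S.bb β) (S.F.pt z) ≠ 0 :=
    h.ne i _ _ (mem_U S hy hQ z) (S.U β ▸ h3) fun ⟨l, _, k'⟩ => k l k'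
  have h5 := hb _ _ _ ⟨z, rfl⟩ h1 h3
  have h6 := chg S h hy hQ _ _ _ ⟨z, rfl⟩ h1 h3
  simp only [Slc.rb] at h5 h6
  rw [fo_eq S _ hz, fo_eq S _ hz, Dt.quo, dif_pos h2, ← e, h5, h6]
  field_simp

theorem int_eq (F : C.X.X → ℂ) : ∫ x, F x ∂C.ν i y =
    ∫ z, F (S.F.pt z) * dS _ (fo S (lam i)) (fo S (lam i)) z ∂(S.F.K d).μ := by
  rw [nu_eq S h hy hQ, ((cont S A.geo).isClosedEmbedding
    (inj S A.geo)).measurableEmbedding.integral_map, integral_withDensity_eq_integral_toReal_smul₀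
    (meas S h hy hQ).aemeasurable (.of_forall fun z => (indicator_le_self _ _ z).trans_lt
      enorm_lt_top)]
  refine integral_congr_ae ((ae_off S hQ).mono fun z k => ?_)
  simp only
  rw [indicator_of_mem (by exact k), toReal_enorm, Complex.real_smul,
    Complex.norm_of_nonneg' (It.dS_nn _ z), mul_comm]

end Nut

open Hy Nut in
/-- **NUT** -/
theorem stNut : StNut := fun w d B C _ A lam h i y hy hQ S b hb => by
  refine ⟨fun hi ε hε => ?_, fun ε hε => ⟨?_, ?_⟩⟩
  · rw [nu_eq S h hy hQ, ((cont S A.geo).isClosedEmbedding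
      (inj S A.geo)).measurableEmbedding.lintegral_map,
      lintegral_withDensity_eq_lintegral_mul_non_measurable _ (meas S h hy hQ)
        (.of_forall fun z => (indicator_le_self _ _ z).trans_lt enorm_lt_top)]
    refine (lintegral_mono_ae ((ae_off S hQ).mono fun z k => ?_)).trans_lt (hi ε hε).2
    have e := fo_quo S h hy hQ hb.chg (ix_src _ z) k
    rw [Pi.mul_apply, indicator_of_mem (by exact k), dρ, enorm_mul, ← mul_assoc, mul_comm]
    refine mul_le_mul' ((Real.ofReal_le_enorm _).trans_eq ?_) (le_of_eq ?_)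
    · rw [← ofReal_norm, ← ofReal_norm, Complex.norm_real]
    · simp only [dS, e, map_mul, enorm_mul, RCLike.enorm_conj]
      ring
  · rw [int_eq S h hy hQ]
    refine integral_congr_ae ((ae_off S hQ).mono fun z k => ?_)
    have e := fo_quo S h hy hQ hb.chg (ix_src _ z) k
    simp only [dρ, dS, e]
    ring
  · rw [Et.J]
    simp only [Et.wt]
    rw [← integral_eq_lintegral_of_nonneg_ae (.of_forall fun x =>
      Real.rpow_nonneg (R0.rho_nn A.lg.toGeo x).1 ε)
      (A.lg.cont.rpow_const fun _ => .inr hε.le).aestronglyMeasurable, ← integral_complex_ofReal,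
      int_eq S h hy hQ]
    rfl

end Vale.Agent.P281Z.Lv
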