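import Vale.Agent.P281Z.Lv.Sk
import Vale.Agent.P281Z.Pk.EigT
import Vale.Agent.P281Z.Pk.Upp
import Vale.Agent.P281Z.Pk.PushA

/-!
# P281Z, block LV: the poles of the forms are simple
-/

open scoped Manifold ContDiff Topology ENNReal
open Set Filter
open Vale.Agent.P272.K Vale.Agent.P285.H281.FD
open Vale.Agent.P277Z (Hol at_chart)
open Vale.Agent.P277Z.Slc (LEq Snc)
open Vale.Agent.P281Z.Pk

noncomputable section

namespace Vale.Agent.P281Z.Lv

namespace Od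

variable {w d : ℕ} {B : Bs w} {C : Et B d 1} [LinearOrder C.κ] (A : Dt C) {i : B.l.ι} {x : C.X.X}
  {c : Chart (w + d) C.X.X} {ζ : C.κ → C.X.X → ℂ}

include A in
theorem near_O (hi : C.g x ∈ B.l.U i) : ∀ᶠ y in 𝓝 x, y ∈ off C.G → y ∈ C.O i :=
  (A.lg.hol.cont.continuousAt.eventually (lb_near A.lg.base.lb hi)).mono fun y k m =>
    ⟨⟨k, A.lg.pre y m⟩, m⟩

/-- the form is a unit times a monomial -/
theorem mon (hi : C.g x ∈ B.l.U i) (hc : At c x) (hζ : ∀ l, LEq (w + d) (C.G l) x (ζ l)) :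
    ∃ b, Hol (w + d) b x ∧ b x ≠ 0 ∧
      ∀ᶠ y in 𝓝 x, y ∈ off C.G → C.t i c y = b y * ∏ l, ζ l y ^ A.a l :=
  (A.ord i c x hi hc).mon A.lg.snc (((near_O A hi).and (at_near hc)).mono fun y k m =>
    A.lg.nz i c y (k.1 m) k.2) hζ

/-- the consequence of the finiteness of the fibre integrals -/
theorem pos (hN : NU) {l : C.κ} (hl : x ∈ C.G l) (hQ : C.g x ∉ C.Q) {ε : ℝ} (hε : 0 < ε) :
    0 < 2 * (A.a l : ℝ) + A.b l * ε + 2 := by
  have hE := A.lg.toGeo
  obtain ⟨i, hi⟩ := hE.base.lb.cover (C.g x)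
  have hR := hE.reg _ hQ
  obtain ⟨F, j, hj, hS⟩ := hR.fib rfl hE.hol hE.snc
  obtain ⟨a, rfl⟩ := hj.ex (y := x) rfl
  obtain ⟨ζ, hζ, -⟩ := hE.snc (j a)
  have hc := at_chart (n := w + d) (j a)
  have hζ' := hR.leq hE.hol hj hζ
  have ct := hj.hol.cont.continuousAt (x := a)
  obtain ⟨b, b1, b2, b3⟩ := mon A hi hc hζ
  have ho : OrdAt d (fun l => j ⁻¹' C.G l) A.a (fun z => C.t i (chartAt _ (j a)) (j z)) a :=
    ordAt_of_one hζ' (hj.hol.hol b1) (P277Z.nz_of_ne b2) (ct.eventually b3) fun l m =>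
      Frequently.filter_mono (by simpa using ⟨m, b2⟩) (pure_le_nhds a)
  have hm : Measurable fun z => C.wt ε (j z) :=
    ((hE.cont.comp hj.hol.cont).measurable.pow_const ε).ennreal_ofReal
  have hL := hE.li hi hQ hj (hN _ _ _ B C hE i _ hi hQ).1 hm (fun _ => le_rfl)
    (A.lg.fi i _ hi hQ ε hε) hc
  obtain ⟨K, hK, h⟩ := A.cpg _ ζ hζ
  have := Lu.ord_li hS ho hL hζ' (r := 2 / (1 : ℕ)) (by norm_num)
    (γ := fun l => A.b l * ε) (ψ := fun z => C.ρ (j z) ^ ε) (C := K ^ ε) (by positivity) (by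
      filter_upwards [ct.eventually h] with z m _
      refine ⟨?_, (mul_comm _ _).le⟩
      have p : 0 ≤ ∏ l, ‖ζ l (j z)‖ ^ A.b l := by positivity
      rw [← Real.mul_rpow hK.le (nonneg_of_mul_nonneg_right (p.trans m.2) hK),
        ← Lu.wt_rpow (fun l z => ζ l (j z)) (fun l => A.b l) ε z]
      simp only [Real.rpow_natCast]
      exact Real.rpow_le_rpow p m.2 hε.le) hl
  simpa using this

end Od

/-- **ORD** -/
theorem stOrd (hN : NU) : StOrd := fun _ _ _ _ _ A l x hl hQ => by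
  have h0 : (0 : ℝ) ≤ A.b l := Nat.cast_nonneg _
  have h := Od.pos A hN hl hQ (ε := (A.b l + 1)⁻¹) (by positivity)
  have h1 : (A.b l : ℝ) * ((A.b l : ℝ) + 1)⁻¹ < 1 := by
    rw [mul_inv_lt_iff₀ (by positivity)]
    linarith
  have h2 : -2 < A.a l := by
    have : (-2 : ℝ) < A.a l := by linarith
    exact_mod_cast this
  by_cases e : A.a l = -1
  · refine .inl ⟨e, Nat.pos_of_ne_zero fun k => ?_⟩
    rw [e, k] at h
    norm_num at h
  · exact .inr (by omega)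

end Vale.Agent.P281Z.Lv
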