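import Vale.Agent.P281Z.Lv.Sk
import Vale.Agent.P281Z.Pk.Rl
import Vale.Agent.P281Z.Hg.K1b
import Vale.Agent.P281Z.Ha.Api
import Vale.Agent.P284.H205.K.Msr

/-!
# P281Z, block LV, row TR: forms and integrals on the fibres
-/

open scoped Manifold ContDiff Topology Matrix ComplexConjugate ComplexOrder
open Set Filter MeasureTheory
open Vale.Agent.P272.K Vale.Agent.P284.H608.K Vale.Agent.P299.IX.Fock
open Vale.Agent.P277Z (Hol at_chart hol_const)
open Vale.Agent.P281Z.Hg (PC IsPC fdet FibHol FibItg Rst tf Fo Rw Hd jc lr k1b' f1a f1b)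
open Vale.Agent.P281Z.Ha Vale.Agent.P281Z.Lg Vale.Agent.P281Z.Pk

noncomputable section

namespace Vale.Agent.P281Z.Lv

namespace Tr

section pc

variable {w e : ℕ} {X Y : Type} [TopologicalSpace X] [ChartedSpace (Cm (w + e)) X]
  [IsManifold 𝓘(ℂ, Cm (w + e)) ω X] [TopologicalSpace Y] [ChartedSpace (Cm w) Y]
  [IsManifold 𝓘(ℂ, Cm w) ω Y] {g : X → Y} {q q' : PC w e X Y} {x : X}

theorem tr_an (hq : IsPC g q) (hq' : IsPC g q') (hx : x ∈ q.2.source) (hx' : x ∈ q'.2.source) :
    AnalyticAt ℂ (fun z => (q'.2 (q.2.symm ((q.2 x).1, z))).2) (q.2 x).2 :=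
  analyticAt_snd.fun_comp (Mg.sl_an hq hx ((Mg.pc_co hq').an x hx'))

/-- the rule for holomorphic forms of top degree -/
theorem tf_ch {σ : PC w e X Y → Cm e → ℂ} (h : FibHol g (g x) σ) (hq : IsPC g q) (hq' : IsPC g q')
    (hx : x ∈ q.2.source) (hx' : x ∈ q'.2.source) : tf σ q (q.2 x).2 =
      lr (jc (fun z => (q'.2 (q.2.symm ((q.2 x).1, z))).2) (q.2 x).2) *ᵥ tf σ q' (q'.2 x).2 := by
  rw [tf, tf, h.ch q q' x hq hq' hx hx' rfl, k1b'.jc_hol (tr_an hq hq' hx hx').differentiableAt,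
    Matrix.mulVec_smul]
  erw [f1b.blk_Hd]
  rw [Matrix.det_transpose, smul_smul, mul_comm]
  rfl

/-- the rule for restrictions -/
theorem rst_ch {Γ : Rw (w + e) X (Fo (w + e))} {γ : PC w e X Y → Cm e → Fo e}
    (h : Rst g (g x) Γ γ) (hq : IsPC g q) (hq' : IsPC g q')
    (hx : x ∈ q.2.source) (hx' : x ∈ q'.2.source) : γ q (q.2 x).2 =
      lr (jc (fun z => (q'.2 (q.2.symm ((q.2 x).1, z))).2) (q.2 x).2) *ᵥ γ q' (q'.2 x).2 := by
  have he := at_chart (n := w + e) x
  have k : (q'.2 (q.2.symm ((q.2 x).1, (q.2 x).2))).2 = (q'.2 x).2 := by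
    rw [Prod.mk.eta, q.2.left_inv hx]
  have d := ((Mg.sl_an hq' hx' (anV_chart he)).differentiableAt.restrictScalars ℝ)
  rw [h q _ x hq hx rfl he, h q' _ x hq' hx' rfl he, Matrix.mulVec_mulVec, ← f1a.lr_mul,
    ← (hq.2.fst x hx).2, ← (hq'.2.fst x hx').2]
  rw [← k] at d
  have k2 := k1b'.jc_comp ((tr_an hq hq' hx hx').differentiableAt.restrictScalars ℝ) d
  rw [k] at k2
  rw [← k2]
  refine congrArg (fun J => lr J *ᵥ _) (k1b'.jc_congr ?_)
  have c : ContinuousAt (fun z => ((q.2 x).1, z)) (q.2 x).2 := by fun_prop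
  filter_upwards [c.eventually_mem (q.2.open_target.mem_nhds (q.2.map_source hx)),
    (ContinuousAt.comp (f := fun z => ((q.2 x).1, z)) (q.2.continuousAt_symm (q.2.map_source hx))
      c).eventually_mem (q'.2.open_source.mem_nhds
        ((q.2.left_inv hx).symm ▸ hx' : q.2.symm (q.2 x) ∈ _))] with z h1 h2
  have h3 := Mg.pc_eq hq' h2
  rw [(hq.2.fst x hx).2] at h1
  rw [Function.comp, (hq.2.fst x hx).2, Mg.pc_fib hq (hq.2.fst x hx).1 h1] at h3
  rw [(hq'.2.fst x hx').2, (hq.2.fst x hx).2, h3, q'.2.left_inv ((hq.2.fst x hx).2 ▸ h2)]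

end pc

variable {κ : Type} [Fintype κ] [LinearOrder κ] {w d m : ℕ} {V : Mf (w + d)} {W : Mf w}
  {L : Lad κ V.X (w + d)} {f : V.X → W.X} {χ : Chart w W.X} {y : W.X} (S : Slc L f χ y)
  {c c' : (S.F.K m).I} {z : (S.F.Y m).X} {v : Cm m}

theorem gm_j (z : (S.F.Y m).X) : gm L f m (S.j z) = y :=
  (S.rng m).subset (mem_range_self z)

theorem ex_j {x : (L.Y (w + m)).X} (h : gm L f m x = y) : ∃ z, S.j z = x := (S.rng m).superset h

theorem j_src (h : z ∈ ((S.F.K m).e c).source) : S.j z ∈ ((L.K (w + m)).e (S.par c)).source := by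
  rwa [S.src] at h

theorem pq_j (h : z ∈ ((S.F.K m).e c).source) :
    (pq L χ (S.par c)).2 (S.j z) = (χ y, (S.F.K m).e c z) :=
  (Fin.appendHomeomorph w m).symm_apply_eq.2 (S.val m c z h)

theorem pq_symm (h : v ∈ ((S.F.K m).e c).target) :
    (pq L χ (S.par c)).2.symm (χ y, v) = S.j (((S.F.K m).e c).symm v) := by
  have k := ((S.F.K m).e c).map_target h
  have k1 := pq_j S k
  rw [((S.F.K m).e c).right_inv h] at k1
  rw [← k1]
  exact (pq L χ (S.par c)).2.left_inv (j_src S k)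

theorem pq_tgt (c : (S.F.K m).I) :
    {v | (χ y, v) ∈ (pq L χ (S.par c)).2.target} = ((S.F.K m).e c).target := (S.tgt m c).symm

theorem fdet_pq (h : z ∈ ((S.F.K m).e c).source) (h' : z ∈ ((S.F.K m).e c').source) :
    fdet (pq L χ (S.par c)) (pq L χ (S.par c')) (S.j z) = ta (S.F.K m) c c' z := by
  rw [ta, S.tri.a m c c' z h h', one_mul, fdet, pq_j S h]
  refine congrArg Matrix.det (Matrix.ext fun a i => C2.dz_congr i ?_)
  filter_upwards [near_two (((S.F.K m).e c).map_source h) (j := c')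
    (by rwa [((S.F.K m).e c).left_inv h])] with v k
  rw [pq_symm S k.1, pq_j S k.2]

theorem j_hol (z : (S.F.Y m).X) : HolA m (w + m) S.j z ∧ Imm m (w + m) S.j z := by
  obtain ⟨c, h⟩ := (S.F.K m).cover z
  have a1 : At ((S.F.K m).e c) z := ⟨(S.F.atl m _).2 ⟨c, rfl⟩, h⟩
  have a2 : At ((L.K (w + m)).e (S.par c)) (S.j z) := ⟨(L.atl _ _).2 ⟨_, rfl⟩, j_src S h⟩
  have n1 := ((S.F.K m).e c).open_source.mem_nhds h
  have h1 : HolA m (w + m) S.j z := (holA_symm (F := fun z => Fin.append (χ y) ((S.F.K m).e c z))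
    (fun a => Fin.addCases (fun i => by simpa using hol_const _ _)
      (fun i => by simpa using hol_chart a1 i) a) a2.1 (S.val m c z h ▸ a2.mem_target)).cng (by
    filter_upwards [n1] with z' k
    rw [← S.val m c z' k, ((L.K (w + m)).e (S.par c)).left_inv (j_src S k)])
  have e : ∀ z' ∈ ((S.F.K m).e c).source, (fun i => (L.K (w + m)).e (S.par c) (S.j z')
      (Fin.natAdd w i)) = (S.F.K m).e c z' := fun z' k => funext fun i => by
    rw [S.val m c z' k, Fin.append_right]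
  refine ⟨h1, .of_comp (holA_symm (F := fun x i => (L.K (w + m)).e (S.par c) x (Fin.natAdd w i))
    (fun i => hol_chart a2 _) a1.1 (by rw [e z h]; exact a1.mem_target)) h1 ((imm_id z).cng ?_)⟩
  filter_upwards [n1] with z' k
  rw [e z' k, ((S.F.K m).e c).left_inv k]

theorem itg (hP : ∀ c : (S.F.K m).I, IsPC (gm L f m) (pq L χ (S.par c))) {F I}
    {a a' : Sc (S.F.K m)} (h : FibItg (gm L f m) y F I)
    (hF : S.Is (fun c v => a c v * conj (a' c v)) F) (ha : Top _ a) (ha' : Top _ a')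
    (hi : Integrable (dS _ a a') (S.F.K m).μ) : I = pS _ a a' := by
  have hc : IsCompact (range (S.j (m := m))) := isCompact_range (S.emb m).continuous
  obtain ⟨t, ht⟩ := hc.elim_finite_subcover (fun c => ((L.K (w + m)).e (S.par c)).source)
    (fun c => OpenPartialHomeomorph.open_source _) (by
      rintro _ ⟨z, rfl⟩
      exact mem_iUnion.2 (((S.F.K m).cover z).imp fun c => j_src S))
  obtain ⟨ρ, r1, r2, r3, -⟩ := exists_continuous_sum_one_of_isOpen_isCompact
    (s := fun i => ((L.K (w + m)).e (S.par (t.equivFin.symm i).1)).source)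
    (fun i => OpenPartialHomeomorph.open_source _) hc fun x hx => by
      obtain ⟨c, h1, h2⟩ := mem_iUnion₂.1 (ht hx)
      exact mem_iUnion.2 ⟨t.equivFin ⟨c, h1⟩, by simpa using h2⟩
  have r4 : ∀ z, ∑ i, ρ i (S.j z) = 1 := fun z => by simpa using r2 (mem_range_self z)
  have i1 : ∀ i, Integrable (fun z => (ρ i (S.j z) : ℂ) * dS _ a a' z) (S.F.K m).μ := fun i =>
    hi.bdd_mul (c := 1) (Complex.continuous_ofReal.comp ((ρ i).continuous.comp
      (S.emb m).continuous)).aestronglyMeasurable (.of_forall fun z => by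
        rw [Complex.norm_real, Real.norm_of_nonneg (r3 i _).1]
        exact (r3 i _).2)
  rw [← h _ (fun i => pq L χ (S.par (t.equivFin.symm i).1)) (fun i => ρ i) (fun i => hP _)
    (fun _ => S.at'.2) (fun i => (ρ i).continuous) r1 fun x hx => by
      obtain ⟨z, rfl⟩ := ex_j S hx
      exact r4 z, pS, integral_congr_ae (g := fun z => ∑ i, (ρ i (S.j z) : ℂ) * dS _ a a' z)
    (.of_forall fun z => by simp only [← Finset.sum_mul, ← Complex.ofReal_sum, r4]; simp),
    integral_finsetSum _ fun i _ => i1 i]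
  refine Finset.sum_congr rfl fun i _ => ?_
  rw [P284.H205.K.int_chart (i := (t.equivFin.symm i).1) (i1 i).1.restrict fun z hz => by
    rw [image_eq_zero_of_notMem_tsupport (f := ρ i) fun k => hz (by rw [S.src]; exact r1 i k)]
    simp]
  generalize (t.equivFin.symm i).1 = c
  rw [show {v | ((pq L χ (S.par c)).1 y, v) ∈ (pq L χ (S.par c)).2.target} = _ from pq_tgt S c]
  refine setIntegral_congr_fun (OpenPartialHomeomorph.open_target _).measurableSet fun v hv => ?_
  have k := ((S.F.K m).e c).map_target hv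
  have k0 := ((S.F.K m).wpos c v hv).det_pos.ne'
  change (ρ i ((pq L χ (S.par c)).2.symm (χ y, v)) : ℂ) * _ = _ * (_ * _)
  rw [pq_symm S hv, hF c v hv, dS_eq k (fun j => ha.chg c j _ k) fun j => ha'.chg c j _ k,
    ((S.F.K m).e c).right_inv hv, wt, S.tri.φ m c v hv]
  simp only [neg_zero, Real.exp_zero, Complex.ofReal_one]
  field_simp

end Tr

open Tr

theorem stTr (hP : StPc) : StTr := by
  intro κ _ _ w d V W L D fr f G hf χ y S
  have pc : ∀ m (c : (S.F.K m).I), IsPC (gm L f m) (pq L χ (S.par c)) := fun m c =>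
    (hP κ w d V W L D fr f G hf χ S.at'.1 m).1 _ (S.pc m c)
  have pt : S.F.pt (m := d) = fun z => L.pt (S.j z) := funext fun z => (S.pt d z).symm
  have l0 : ∀ x : (L.Y (w + d)).X, L.lab x = ∅ := fun x =>
    Finset.card_eq_zero.1 (by have := L.card _ x; omega)
  refine ⟨?_, fun m => ⟨fun σ h => ?_, fun σ σ' γ Γ O h h' _ _ r k q x hq hx e => ?_,
    fun F I a a' => itg S (pc m)⟩⟩
  · rw [pt]
    refine ⟨fun z => ((G.hol _).at _).cmp (j_hol S z).1, fun z z' k => (S.emb d).injective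
      (G.inj _ _ _ k (by rw [l0, l0])), fun z => .comp ((G.hol _).at _) (j_hol S z).1 (G.imm _ _)
        (j_hol S z).2, Subset.antisymm (range_subset_iff.2 (gm_j S)) fun x hx => ?_⟩
    obtain ⟨x', rfl, -⟩ := G.srj (w + d) x ∅ (fun _ h => absurd h (by simp)) (by simp)
    obtain ⟨z, rfl⟩ := ex_j S (m := d) hx
    exact ⟨z, rfl⟩
  · classical
    refine ⟨fun c v => if v ∈ ((S.F.K m).e c).target then σ (pq L χ (S.par c)) v else 0,
      ⟨⟨fun c c' z k k' => ?_, fun c v hv => if_neg hv⟩, fun c v hv => ?_⟩,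
      fun c v hv => (if_pos hv).symm⟩
    · have k1 := h.ch _ _ _ (pc m c) (pc m c') (j_src S k) (j_src S k') (gm_j S z)
      rw [pq_j S k, pq_j S k', fdet_pq S k k'] at k1
      exact (if_pos (((S.F.K m).e c).map_source k)).trans (k1.trans
        (congrArg _ (if_pos (((S.F.K m).e c').map_source k')).symm))
    · have k := ((S.F.K m).e c).map_target hv
      have k1 := h.hol _ _ (pc m c) (j_src S k) (gm_j S _)
      rw [pq_j S k, ((S.F.K m).e c).right_inv hv] at k1
      exact k1.congr (Eventually.mono (((S.F.K m).e c).open_target.mem_nhds hv)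
        fun v hv => (if_pos hv).symm)
  · obtain ⟨z, rfl⟩ := ex_j S e
    obtain ⟨c, hc⟩ := (S.F.K m).cover z
    have k1 := k c _ (((S.F.K m).e c).map_source hc)
    rw [← e] at h h' r
    rw [tf_ch h hq (pc m c) hx (j_src S hc), tf_ch h' hq (pc m c) hx (j_src S hc),
      rst_ch r hq (pc m c) hx (j_src S hc), pq_j S hc, k1, Matrix.mulVec_add]

end Vale.Agent.P281Z.Lv
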