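import Vale.Agent.P281Z.Lv.Main
import Vale.Agent.P281Z.Lv.Tr
import Vale.Agent.P281Z.Lv.Hyp
import Vale.Agent.P281Z.Lv.Nut
import Vale.Agent.P281Z.Lv.Muf
import Vale.Agent.P281Z.Lv.Ord
import Vale.Agent.P281Z.Lv.Lam
import Vale.Agent.P281Z.Lv.Lad
import Vale.Agent.P281Z.Lv.Ext
import Vale.Agent.P281Z.Lv.Fib
import Vale.Agent.P281Z.Lv.Asy
import Vale.Agent.P281Z.Lv.GamT
import Vale.Agent.P281Z.Lg.All
import Vale.Agent.P281Z.Pk.Nu
import Vale.Agent.P281Z.Hg.All2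

/-!
# P281Z, block LV: the output, from the direct image theorem
-/

namespace Vale.Agent.P281Z.Lv

theorem in_gr (hG : GR) : In :=
  ⟨stLad, stPol, stOrd Pk.nu, stLam, stDep, stFib stPc, stTr stPc, stNum,
    stExt hG (stTr stPc) stNum, stRel, stAsy, stHyp, stNut, stMuf, stB2w Lg.b2, stGam,
    stAsm Hg.hodge2, Lg.stRs, Lg.gl, Lg.b1, Ha.int⟩

theorem lv_gr (hG : GR) : Pk.LV := lv_of (in_gr hG)

end Vale.Agent.P281Z.Lv
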