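import Vale.Agent.P281Z.Lv.Pc
import Vale.Agent.P281Z.Lg.Bas

/-!
# P281Z, block LV: the polar divisors, the depth, relative forms on the deepest strata
-/

open scoped Manifold ContDiff Topology
open Set Filter
open Vale.Agent.P272.K Vale.Agent.P285.H281.FD Vale.Agent.P284.H608.K
open Vale.Agent.P277Z (Hol at_chart hol_const)
open Vale.Agent.P277Z.Slc (Ind LEq Snc St)
open Vale.Agent.P281Z.Hg (PC IsPC Fam)
open Vale.Agent.P281Z.Ha Vale.Agent.P281Z.Lg Vale.Agent.P281Z.Pk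

noncomputable section

namespace Vale.Agent.P281Z.Lv

/-! ### The polar divisors -/

section pol

variable {n : ℕ} {V : Mf n} {κ α : Type} {G : κ → Set V.X} {a : κ → ℤ} {b : κ → ℕ} {x : V.X}
  {l : κ} {ζ ζ' : κ → V.X → ℂ} {h : α → V.X → ℂ}

theorem pol_mem : x ∈ pol G a b l ↔ (a l = -1 ∧ 0 < b l) ∧ x ∈ G l := by
  unfold pol
  split_ifs with k <;> simp [k]

theorem pol_ind (hi : Ind n (Sum.elim (fun l : {l // x ∈ G l} => ζ l) h) x)
    (k : ∀ l, a l = -1 ∧ 0 < b l → ζ l = ζ' l) :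
    Ind n (Sum.elim (fun l : {l // x ∈ pol G a b l} => ζ' l) h) x :=
  (congrArg (Ind n · x) (funext (Sum.rec (fun l => k l (pol_mem.1 l.2).1) fun _ => rfl))).mp
    (hi.comp (Sum.map (fun l : {l // x ∈ pol G a b l} => ⟨l, (pol_mem.1 l.2).2⟩) id)
      (Sum.map_injective.2 ⟨fun _ _ e => Subtype.ext (Subtype.mk.inj e), fun _ _ e => e⟩))

end pol

/-- (POL) -/
theorem stPol : StPol := by
  classical
  intro n p V W f κ _ G a b hS
  refine ⟨fun x => ?_, fun y h x hx e' he' ζ' hζ' => ?_⟩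
  · obtain ⟨ζ, h1, h2⟩ := hS x
    refine ⟨fun l => if a l = -1 ∧ 0 < b l then ζ l else fun _ => 1, fun l => ?_, ?_⟩
    · simp only [pol]
      split_ifs
      · exact h1 l
      · exact ⟨.of_forall fun _ => iff_of_false one_ne_zero id, fun e he =>
          ⟨analyticAt_const, fun k => (one_ne_zero k).elim⟩⟩
    · exact (congrArg (Ind n · x) (funext fun l => (if_pos (pol_mem.1 l.2).1).symm)).mp
        (h2.comp (fun l : {l // x ∈ pol G a b l} => ⟨l, (pol_mem.1 l.2).2⟩)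
          fun _ _ e => Subtype.ext (Subtype.mk.inj e))
  · obtain ⟨ξ, h1, -⟩ := hS x
    refine pol_ind (h x hx e' he' (fun l => if a l = -1 ∧ 0 < b l then ζ' l else ξ l) fun l => ?_)
      fun l k => if_pos k
    have k := hζ' l
    unfold pol at k
    split_ifs at k ⊢
    exacts [k, h1 l]

/-! ### The depth -/

variable {κ : Type} [Fintype κ] [LinearOrder κ] {w d m : ℕ} {V : Mf (w + d)} {W : Mf w}
  {L : Lad κ V.X (w + d)} {f : V.X → W.X} {χ : Chart w W.X} {D : κ → Set V.X}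
  {fr : L.B → Chart (w + d) V.X → V.X → ℂ} {Q : Set W.X}

theorem Geo.sbm (G : Geo L D fr) (hf : HolM (w + d) w f) {z : (L.Y (w + m)).X}
    (h : RegAt (w + d) w f D (gm L f m z)) : Sbm (w + m) w (gm L f m) z := by
  have hχ := at_chart (n := w) (gm L f m z)
  obtain ⟨c, h1, h2, -⟩ := G.ex_pc hf hχ h
  refine (sbm_iff_ind ((G.gm_hol hf m).at z) hχ).2 (ind_congr ((ind_chart (at_e L h2)).comp
    (Fin.castAdd m) (Fin.castAdd_injective w m)) fun a => ?_)
  filter_upwards [((L.K (w + m)).e c).open_source.mem_nhds h2] with y hy using (h1.fst y hy).2 a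

theorem Geo.onto [PreconnectedSpace W.X] (G : Geo L D fr) (hf : HolM (w + d) w f) (hQ : Thin w Q)
    (h : ∀ y ∉ Q, RegAt (w + d) w f D y) {z : (L.Y (w + m)).X} (hz : gm L f m z ∉ Q) :
    Qᶜ ⊆ range (gm L f m) := by
  refine (hQ.preconn.subset_of_closure_inter_subset (u := range (gm L f m) ∩ Qᶜ)
    (isOpen_iff_mem_nhds.2 ?_) ⟨_, hz, ⟨z, rfl⟩, hz⟩ fun y hy => ⟨?_, hy.2⟩).trans inter_subset_left
  · rintro _ ⟨⟨z, rfl⟩, k⟩
    refine inter_mem ?_ (hQ.closed.isOpen_compl.mem_nhds k)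
    rw [← (G.sbm hf (h _ k)).map_nhds ((G.gm_hol hf m).at z)]
    exact range_mem_map
  · exact closure_minimal inter_subset_left (isCompact_range (G.gm_hol hf m).cont).isClosed hy.1

theorem Geo.fam [PreconnectedSpace W.X] (G : Geo L D fr) (hf : HolM (w + d) w f) (hQ : Thin w Q)
    (h : ∀ y ∉ Q, RegAt (w + d) w f D y) {z : (L.Y (w + m)).X} (hz : gm L f m z ∉ Q) :
    ∃ ω₀, Fam w m ω₀ (gm L f m) Qᶜ := by
  obtain ⟨ω₀, h1⟩ := kim _ _ V (L.Y (w + m)) _ (G.hol _) (G.imm _) G.kah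
  refine ⟨ω₀, h1, G.gm_hol hf m, hQ.closed.isOpen_compl, fun x hx => ?_, G.onto hf hQ h hz⟩
  have k : mfderiv 𝓘(ℂ, Cm (w + m)) 𝓘(ℂ, Cm w) (gm L f m) x =
      df (gm L f m) (chartAt (Cm (w + m)) x) (chartAt (Cm w) (gm L f m x)) x := by
    refine (((G.gm_hol hf m).at x).mdifferentiableAt (by simp)).mfderiv.trans ?_
    simp [writtenInExtChartAt, df, Function.comp_def]
    rfl
  rw [k]
  exact G.sbm hf (h _ hx) _ _ (at_chart _) (at_chart _)

theorem Geo.card (G : Geo L D fr) {x : V.X} (h : RegAt (w + d) w f D (f x)) {I : Finset κ}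
    (hI : x ∈ St D I) : I.card ≤ d := by
  obtain ⟨ζ, h1, -⟩ := G.snc x
  have k := ind_le ((h x rfl _ (at_chart _) ζ h1).comp
    (Sum.map (fun l : {l // l ∈ I} => ⟨l, hI l l.2⟩) id)
    (Sum.map_injective.2 ⟨fun _ _ e => Subtype.ext (Subtype.mk.inj e), fun _ _ e => e⟩))
  simp only [Fintype.card_sum, Fintype.card_coe, Fintype.card_fin] at k
  omega

theorem Geo.deeper (G : Geo L D fr) {k : ℕ} {z : (L.Y k).X} {c : (L.K k).I}
    (hz : z ∈ ((L.K k).e c).source) (h : L.pr c ((L.K k).e c z) = 0) :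
    ∃ I : Finset κ, L.pt z ∈ St D I ∧ I.card + k = w + d + 1 := by
  obtain ⟨l, -, h1⟩ := Finset.prod_eq_zero_iff.1 h
  have h2 : l ∉ L.lab z := fun hl => by
    rw [(G.co k c z hz l).1 hl] at h1
    exact one_ne_zero h1
  refine ⟨insert l (L.lab z), fun l' hl' => ?_, ?_⟩
  · rcases Finset.mem_insert.1 hl' with rfl | hl'
    exacts [((G.co k c z hz _).2 h2).2 h1, G.mem k z l' hl']
  · have := L.card k z
    rw [Finset.card_insert_of_notMem h2]
    omega

theorem ex_up {y : W.X} {e : ℕ} (h : y ∈ range (gm L f e)) (h1 : e ≤ m) (h2 : m ≤ d) :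
    y ∈ range (gm L f m) := by
  induction m, h1 using Nat.le_induction with
  | base => exact h
  | succ k _ ih =>
    obtain ⟨z, rfl⟩ := ih (Nat.le_of_succ_le h2)
    obtain ⟨i, hi⟩ := Finset.card_pos.1 (show 0 < (L.lab z).card by have := L.card _ z; omega)
    exact ⟨L.up z hi, congrArg f (L.up_pt _ z i hi)⟩

/-- (DEP) -/
theorem stDep : StDep := by
  classical
  intro w d B C _ A
  have G := A.geo
  have hf := A.lg.hol
  have hQ := A.lg.thin
  have := A.lg.base.conn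
  have hr : ∀ y ∉ C.Q, RegAt (w + d) w C.g (pol C.G A.a A.b) y := fun y hy =>
    (stPol _ _ _ _ _ _ _ _ _ A.lg.snc).2 y (A.lg.reg y hy)
  have h0 : ∃ z, gm A.L C.g d z ∉ C.Q := by
    obtain ⟨y, hy⟩ := hQ.dense.nonempty
    obtain ⟨x, rfl⟩ := A.lg.onto y hy
    obtain ⟨z, rfl, -⟩ := G.srj (w + d) x ∅ (fun _ h => absurd h (Finset.notMem_empty _)) (by simp)
    exact ⟨z, hy⟩
  have h1 : ∃ e, ∃ z, gm A.L C.g e z ∉ C.Q := ⟨d, h0⟩
  have h2 := Nat.find_min' h1 h0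
  have h3 : ∀ m < Nat.find h1, ∀ z, gm A.L C.g m z ∈ C.Q := fun m hm z =>
    not_not.1 fun k => Nat.find_min h1 hm ⟨z, k⟩
  obtain ⟨z₀, h4⟩ := Nat.find_spec h1
  generalize Nat.find h1 = e at h2 h3 z₀ h4
  refine ⟨e, d - e, Nat.add_sub_cancel' h2, h3, fun m k1 k2 => ?_, fun z hz c hc k => ?_⟩
  · obtain ⟨z, hz⟩ := ex_up ⟨z₀, rfl⟩ k1 k2
    exact G.fam hf hQ hr (hz.symm ▸ h4)
  · obtain ⟨I, k1, k2⟩ := G.deeper hc k
    cases e with
    | zero =>
      have := G.card (hr _ hz) k1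
      omega
    | succ e =>
      obtain ⟨y, k3, -⟩ := G.srj (w + e) _ I k1 (by omega)
      exact hz ((congrArg (C.g · ∈ C.Q) k3).mp (h3 e (Nat.lt_succ_self e) y))

/-! ### Relative forms -/

section tz

variable {V : Type} {n : ℕ} {L : Lad κ V n} {b b' : L.B → V → ℂ} {z : (L.Y m).X}
  {e e' : Chart m (L.Y m).X} {c : (L.K m).I}

theorem tz_chg (he : At e z) (he' : At e' z) :
    tz L m b e z = (jacM e e' z).det ^ 1 * tz L m b e' z := by
  have h := at_e L (ix_src (L.K m) z)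
  rw [tz, tz, Mg.jd_mul (co_chart he.1) (co_chart he'.1) (co_chart h.1) he.2 he'.2 h.2, pow_one,
    mul_assoc]

theorem fm_nm_eq (hz : z ∈ ((L.K m).e c).source) : L.fm (L.nm m b) c ((L.K m).e c z) =
    L.ε c * b (L.bs c) (L.pt z) / L.pr c ((L.K m).e c z) := by
  rw [Lad.fm, if_pos (((L.K m).e c).map_source hz), Lad.nm, ((L.K m).e c).left_inv hz]

theorem tz_eq (T : Tri L) {S : Set V} (h : L.Chg S b) (hS : L.pt z ∈ S)
    (hz : z ∈ ((L.K m).e c).source) :
    tz L m b ((L.K m).e c) z = L.ε c * b (L.bs c) (L.pt z) / L.pr c ((L.K m).e c z) := by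
  have h1 := ix_src (L.K m) z
  rw [tz, fm_nm_eq h1, h _ _ _ hS (L.mem m c z hz) (L.mem m _ z h1), L.div_chg hz h1, ta,
    T.a m c _ z hz h1, one_mul]

theorem tz_smul {u : ℂ} (h : ∀ β, L.pt z ∈ L.U β → b' β (L.pt z) = u * b β (L.pt z)) :
    tz L m b' e z = u * tz L m b e z := by
  have h1 := ix_src (L.K m) z
  rw [tz, tz, fm_nm_eq h1, fm_nm_eq h1, h _ (L.mem m _ z h1)]
  ring

end tz

theorem rel_app {b : L.B → V.X → ℂ} {q : PC w m (L.Y (w + m)).X W.X} {z : (L.Y (w + m)).X}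
    (hz : z ∈ q.2.source) : rel L f χ m b q (q.2 z) =
      (-1) ^ (w * m) * rl 1 χ (gm L f m) (tz L (w + m) b) q z := by
  rw [rel, q.2.left_inv hz]

/-- the relative form in the product charts of the ladder -/
theorem rel_pq (T : Tri L) (hχ : χ ∈ atlas (Cm w) W.X) {b : L.B → V.X → ℂ} {S : Set V.X}
    (h : L.Chg S b) {c : (L.K (w + m)).I} (hc : Pc L f χ c) {z : (L.Y (w + m)).X}
    (hS : L.pt z ∈ S) (hz : z ∈ ((L.K (w + m)).e c).source) :
    rel L f χ m b (pq L χ c) ((pq L χ c).2 z) =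
      (-1) ^ (w * m) * (L.ε c * b (L.bs c) (L.pt z) / L.pr c ((L.K (w + m)).e c z)) := by
  rw [rel_app hz, rl_eq (fun _ _ => tz_chg) (hc.isPC hχ) hz (at_e L hz), qc_pq,
    Mg.jd_self (co_chart (at_e L hz).1) hz, tz_eq T h hS hz,
    show (jacM χ (pq L χ c).1 (gm L f m z)).det = 1 from Mg.jd_self (co_chart hχ) (hc.fst z hz).1]
  simp only [mul_one, one_pow]

theorem Geo.tz_hol (G : Geo L D fr) {O : Set V.X} (hO : IsOpen O) {b : L.B → V.X → ℂ}
    (h : HolN L O b) {k : ℕ} {z : (L.Y k).X} (hz : L.pt z ∈ O) {c : (L.K k).I}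
    (hc : z ∈ ((L.K k).e c).source) (h0 : L.pr c ((L.K k).e c z) ≠ 0) {e : Chart k (L.Y k).X}
    (he : At e z) : Hol k (tz L k b e) z := by
  have h1 := at_e L hc
  have h2 : Hol k (fun y => L.pr c ((L.K k).e c y)) z := (anV_chart h1).cmp (L.pr_an c _)
  refine ((Mg.jd_hol (co_chart he.1) (co_chart h1.1) he.2 hc).mul (((hol_const (L.ε c) z).mul
    ((G.hol k).hol (h.hol _ _ hz (L.mem k c z hc)))).div h2 h0)).congr ?_
  filter_upwards [at_near he, at_near h1,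
    (G.hol k).cont.continuousAt.preimage_mem_nhds (hO.mem_nhds hz)] with y k1 k2 k3
  rw [tz_chg k1 k2, tz_eq G.tri h.chg k3 k2.2, pow_one]

section slc

variable {y : W.X} (S : Slc L f χ y) {c : (S.F.K m).I}

theorem Slc.gm_j (z : (S.F.Y m).X) : gm L f m (S.j z) = y := (S.rng m).le (mem_range_self z)

theorem Slc.src' {z : (S.F.Y m).X} (hz : z ∈ ((S.F.K m).e c).source) :
    S.j z ∈ ((L.K (w + m)).e (S.par c)).source := (S.src m c).le hz

theorem Slc.pr_eq (c : (S.F.K m).I) (u : Cm w) (v : Cm m) :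
    L.pr (S.par c) (Fin.append u v) = S.F.pr c v :=
  Finset.prod_congr rfl fun l _ => by
    rw [S.co m c l]
    cases S.F.co c l with
    | none => rfl
    | some k => exact Fin.append_right u v k

theorem Slc.pq_j {z : (S.F.Y m).X} (hz : z ∈ ((S.F.K m).e c).source) :
    (pq L χ (S.par c)).2 (S.j z) = (χ y, (S.F.K m).e c z) := by
  rw [pq_app, S.val m c z hz]
  exact Prod.ext (funext (Fin.append_left _ _)) (funext (Fin.append_right _ _))

end slc

/-- (REL) -/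
theorem stRel : StRel := by
  intro κ _ _ w d V W L D fr f G hf m
  refine ⟨fun χ O b hO hχ hb h0 => ⟨fun q x hq hx hx' => ?_, fun q q' x hq hq' hx hx' h => ?_⟩,
    fun χ y S b hb h0 => ⟨fun c v hv => ?_, fun c v hv => ?_⟩,
    fun χ χ' b b' u q z hq hz h1 h2 h => ?_⟩
  · have h1 := ix_src (L.K (w + m)) x
    exact analyticAt_const.mul (Mg.co_an (Mg.pc_co hq) hx (rl_hol ((G.gm_hol hf m).at x)
      (.of_forall fun _ _ _ => tz_chg) (G.tz_hol (hO.preimage hf.cont) hb hx' h1 (h0 x hx' _ h1)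
        (at_chart x)) hq hx (hχ _ hx')))
  · rw [rel_app hx, rel_app hx', rl_chg hq hq' hx hx' (hχ _ h), pow_one, mul_left_comm]
  · have h1 := ((S.F.K m).e c).map_target hv
    have h2 := rel_pq G.tri S.at'.1 hb (S.pc m c) (S.gm_j _) (S.src' h1)
    rw [S.pq_j h1, S.val m c _ h1, S.pr_eq, ((S.F.K m).e c).right_inv hv, S.pt, ← S.bs] at h2
    refine h2.trans ?_
    rw [Lad.fm, if_pos hv, S.ε, mul_assoc, mul_div_assoc ((-1 : ℂ) ^ (w * m))]
    rfl
  · have h1 := ((S.F.K m).e c).map_target hv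
    have h2 := h0 _ (S.gm_j _) _ (S.src' h1)
    rwa [S.val m c _ h1, S.pr_eq, ((S.F.K m).e c).right_inv hv] at h2
  · have h3 := Mg.pc_at hq hz
    rw [rel_app hz, rel_app hz, rl, rl, tz_smul h,
      Mg.jd_mul (co_chart h1.1) (co_chart h2.1) (co_chart h3.1) h1.2 h2.2 h3.2]
    ring

end Vale.Agent.P281Z.Lv
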