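import Vale.Agent.P281Z.Lv.Defs
import Vale.Agent.P281Z.Pk.One
import Vale.Agent.P281Z.Mf.An

/-!
# P281Z, block LV: from the residues to the line in the variation of Hodge structure
-/

open scoped Manifold ContDiff Topology Matrix
open Set Filter
open Vale.Agent.P272.K Vale.Agent.P285.H281.FD
open Vale.Agent.P277Z (Hol)
open Vale.Agent.P281Z.Hg (PC IsPC FibHol RelHol FibItg FibCl TotCl Rst tf Fam Fo Hd ClMap2 HODGE2)
open Vale.Agent.P281Z.Pk

set_option linter.unusedSectionVars false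

noncomputable section

namespace Vale.Agent.P281Z.Lv

section

variable {p d n : ℕ} {X Y : Type} [TopologicalSpace X] [ChartedSpace (Cm (p + d)) X]
  [TopologicalSpace Y] [ChartedSpace (Cm p) Y] {f : X → Y}

theorem pc_pt {q : PC p d X Y} (hq : IsPC f q) {x : X} (hx : x ∈ q.2.source) :
    (q.1 (f x), (q.2 x).2) = q.2 x := Prod.ext (hq.2.fst x hx).2.symm rfl

theorem rel_fib {O : Set Y} {s : PC p d X Y → Cm p × Cm d → ℂ} (h : RelHol f O s) {t : Y}
    (ht : t ∈ O) : FibHol f t (Hg.rs s t) := by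
  refine ⟨fun q x hq hx e => ?_, fun q q' x hq hq' hx hx' e => ?_⟩ <;> subst e
  · have k := h.hol q x hq hx ht
    rw [← pc_pt hq hx] at k
    exact k.comp (f := fun z => (q.1 (f x), z)) (analyticAt_const.prod analyticAt_id)
  · simp only [Hg.rs, pc_pt hq hx, pc_pt hq' hx']
    exact h.ch q q' x hq hq' hx hx' ht

theorem tf_top (σ : PC p d X Y → Cm d → ℂ) (q : PC p d X Y) (z : Cm d) :
    tf σ q z (Hd d) = σ q z := by
  simp [tf, P299.IX.Fock.ev]

variable {U : Set Y} {wt : X → ℝ} {L : Hg.Loc p n d U}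
  {cf : Y → Y → (PC p d X Y → Cm d → Fo d) → Fin n → ℂ}

theorem fibHol_add {t : Y} {σ σ' : PC p d X Y → Cm d → ℂ} (h : FibHol f t σ) (h' : FibHol f t σ')
    (c : ℂ) : FibHol f t (σ + c • σ') :=
  ⟨fun q x hq hx e => (h.hol q x hq hx e).add ((h'.hol q x hq hx e).const_smul (c := c)),
    fun q q' x hq hq' hx hx' e => by
      simp only [Pi.add_apply, Pi.smul_apply, smul_eq_mul]
      rw [h.ch q q' x hq hq' hx hx' e, h'.ch q q' x hq hq' hx hx' e]
      ring⟩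

theorem cf_smul (h : ClMap2 f wt L cf) {a t : Y} (ht : t ∈ L.N a) {σ σ' : PC p d X Y → Cm d → ℂ}
    (h1 : FibHol f t σ) (h2 : FibHol f t σ') (c : ℂ)
    (e : ∀ q x, IsPC f q → x ∈ q.2.source → f x = t → σ' q (q.2 x).2 = c * σ q (q.2 x).2) :
    cf a t (tf σ') = c • cf a t (tf σ) := by
  have hU := L.sub a ht
  have k : tf (σ + (c - 1) • σ) = tf σ + (c - 1) • tf σ := by
    funext q z
    simp only [tf, Pi.add_apply, Pi.smul_apply, add_smul, smul_eq_mul, mul_smul]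
  rw [h.congr a t ht _ _ (h.tcl t hU _ h2) (h.tcl t hU _ (fibHol_add h1 h1 (c - 1)))
    fun q x hq hx hy => by
      simp only [tf, Pi.add_apply, Pi.smul_apply, smul_eq_mul, e q x hq hx hy]
      congr 1
      ring, k, h.lin a t ht _ _ _ (h.tcl t hU _ h1) (h.tcl t hU _ h1), sub_smul, one_smul,
    add_sub_cancel]

theorem cf_add (h : ClMap2 f wt L cf) {a t : Y} (ht : t ∈ L.N a) {σ σ' : PC p d X Y → Cm d → ℂ}
    {γ : PC p d X Y → Cm d → Fo d} (h0 : FibHol f t σ) (h1 : FibHol f t σ') (h2 : FibCl f t γ)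
    (e : ∀ q x, IsPC f q → x ∈ q.2.source → f x = t →
      tf σ q (q.2 x).2 = tf σ' q (q.2 x).2 + γ q (q.2 x).2) :
    cf a t (tf σ) = cf a t (tf σ') + cf a t γ := by
  have hU := L.sub a ht
  have k : tf (σ + (-1 : ℂ) • σ') = tf σ + (-1 : ℂ) • tf σ' := by
    funext q z
    simp only [tf, Pi.add_apply, Pi.smul_apply, add_smul, smul_eq_mul, mul_smul]
  rw [h.congr a t ht _ _ h2 (h.tcl t hU _ (fibHol_add h0 h1 (-1))) fun q x hq hx hy => by
      rw [k, Pi.add_apply, Pi.add_apply, e q x hq hx hy]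
      simp, k, h.lin a t ht _ _ _ (h.tcl t hU _ h0) (h.tcl t hU _ h1)]
  simp

end

theorem stAsm (H : HODGE2) : StAsm := by
  intro w d B C hC e k Z g wt s R
  have := hC.base.conn
  obtain ⟨ω₀, hF⟩ := R.fam
  obtain ⟨n, L, cf, h⟩ := H w e Z.X B.W.X ω₀ g C.Qᶜ wt hF hC.thin.preconn (fun x _ => R.pos x)
    fun x _ => R.lc x
  have hO : ∀ i, IsOpen (B.l.U i \ C.Q) := fun i =>
    (hC.base.lb.isOpen i).sdiff hC.thin.closed
  have hs : ∀ i, L.Sec (B.l.U i \ C.Q) fun a t => cf a t (tf (Hg.rs (s i) t)) := fun i =>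
    h.hol _ _ (hO i) (fun _ k => k.2) (R.hol i)
  have hp : ∀ a, ∀ t ∈ L.N a, ∀ σ τ, FibHol g t σ → FibHol g t τ →
      FibItg g t (wd wt t σ τ) (star (cf a t (tf σ)) ⬝ᵥ L.Q a *ᵥ cf a t (tf τ)) :=
    fun a t ht σ τ h1 h2 => by
      have k := h.pair a t ht σ (tf τ) h1 (h.tcl t (L.sub a ht) τ h2)
      simp only [tf_top] at k
      exact k
  have hn : ∀ i a, ∀ y ∈ L.N a, y ∈ B.l.U i → cf a y (tf (Hg.rs (s i) y)) ≠ 0 :=
    fun i a y ha hy e => by
      have k1 := rel_fib (R.hol i) ⟨hy, L.sub a ha⟩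
      have k2 := (R.nrm i y hy (L.sub a ha) _ (hp a y ha _ _ k1 k1)).1
      simp [e] at k2
  obtain ⟨S, hS, sp⟩ := R.spl
  refine ⟨n, e, L, fun i a t => cf a t (tf (Hg.rs (s i) t)), k, ⟨fun i => ⟨fun a b t h1 h2 h3 =>
    (hs i).ch a b t h1 h2 ⟨h3, L.sub a h1⟩, fun a c x h1 h2 h3 => (hs i).hol a c x h1 h2
      ⟨h3, L.sub a h2⟩, fun a t h1 h2 => (hs i).top a t h1 ⟨h2, L.sub a h1⟩⟩,
    fun i j a y ha hi hj => ?_, hn, fun i a c y ha hy hc v => ?_⟩, fun i y hy hQ => ?_⟩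
  · refine cf_smul h ha (rel_fib (R.hol i) ⟨hi, L.sub a ha⟩) (rel_fib (R.hol j) ⟨hj, L.sub a ha⟩) _
      fun q x hq hx e => ?_
    subst e
    simp only [Hg.rs, pc_pt hq hx]
    exact R.chg i j q x hq hx hi hj (L.sub a ha)
  · refine one_of L (hO i) (hs i) hS.dense (fun a y h1 h2 => hn i a y h1 h2.1)
      (fun a c y ha hy hc hyS u hu => ?_) a c y ha ⟨hy, L.sub a ha⟩ hc v
    obtain ⟨σ, hσ, rfl⟩ := h.onto a y ha u hu
    obtain ⟨O, s', Γ, γ, m, hsub, P⟩ := sp i y hy.1 hy.2 hyS σ hσ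
    have hOU : O ⊆ C.Qᶜ := fun t ht => (hsub ht).2
    have cl : ∀ t ∈ O, FibCl g t (γ t) := fun t ht =>
      (h.rst O Γ P.opn hOU P.cl t ht).2 _ (P.rst t ht)
    have h' := h.hol O s' P.opn hOU P.hol
    refine ⟨fun t => cf a y (γ y) + cf a t (tf (Hg.rs s' t)) - m t • cf a t (tf (Hg.rs (s i) t)),
      -m y, ((differentiableAt_const _).add (h'.hol a c y hc ha P.mem).self_of_nhds).sub
        ((P.mh y P.mem c hc).differentiableAt.smul ((hs i).hol a c y hc ha hy).self_of_nhds),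
      ?_, ?_⟩
    · rw [cf_add h ha hσ (rel_fib P.hol P.mem) (cl y P.mem) P.eq, neg_smul,
        add_comm _ (cf a y (γ y)), ← sub_eq_add_neg]
    · filter_upwards [h.flat O Γ P.opn hOU P.cl γ P.rst a y ha P.mem, P.opn.mem_nhds P.mem,
        (L.opn a).mem_nhds ha] with t k1 k2 k3
      have k4 := rel_fib (R.hol i) (hsub k2)
      rw [← k1, Matrix.mulVec_sub, Matrix.mulVec_add, dotProduct_sub, dotProduct_add,
        P.ort t k2 _ (h.pair a t k3 _ _ k4 (cl t k2)), zero_add, Matrix.mulVec_smul,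
        dotProduct_smul, P.mean t k2 _ _ (hp a t k3 _ _ k4 (rel_fib P.hol k2)) (hp a t k3 _ _ k4 k4),
        smul_eq_mul, sub_self]
  · have k1 := rel_fib (R.hol i) ⟨hy, hQ⟩
    simp only [Real.rpow_natCast]
    exact R.nrm i y hy hQ _ (hp y y (L.mem y hQ) _ _ k1 k1)

end Vale.Agent.P281Z.Lv
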