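import Vale.Agent.P281Z.Lv.Rel
import Vale.Agent.P281Z.Lg.B2
import Vale.Agent.P281Z.Ha.Int
import Vale.Agent.P281Z.Lv.Asm

/-!
# P281Z, block LV: the assembly
-/

open scoped Manifold ContDiff Topology ComplexConjugate ComplexOrder
open Set Filter MeasureTheory
open Vale.Agent.P272.K Vale.Agent.P285.H281.FD Vale.Agent.P284.H608.K
open Vale.Agent.P277Z (Hol)
open Vale.Agent.P281Z.Hg (PC IsPC FibHol FibItg tf Hd)
open Vale.Agent.P281Z.Ha Vale.Agent.P281Z.Lg Vale.Agent.P281Z.Pk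

noncomputable section

namespace Vale.Agent.P281Z.Lv

/-- the statements which are used -/
structure In : Prop where
  lad : StLad
  pol : StPol
  ord : StOrd
  lam : StLam
  dep : StDep
  fib : StFib
  tr : StTr
  num : StNum
  ext : StExt
  rel : StRel
  asy : StAsy
  hyp : StHyp
  nut : StNut
  muf : StMuf
  b2w : StB2w
  gam : StGam
  asm : StAsm
  rs : StRs
  gl : StGl
  b1 : StB1
  int : StInt

theorem wI_pos {κ : Type} {r : κ → ℝ} (h : ∀ l, 0 < r l) (I : Finset κ) : 0 < wI r I :=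
  Finset.prod_pos fun l _ => div_pos Real.two_pi_pos (h l)

section gen

variable {κ : Type} [Fintype κ] [LinearOrder κ]

theorem lc_lab (H : In) {V : Type} {n : ℕ} (L : Lad κ V n) (m : ℕ) (u : Finset κ → ℝ) :
    IsLocallyConstant fun z : (L.Y m).X => u (L.lab z) :=
  (IsLocallyConstant.iff_eventually_eq _).2 fun z =>
    ((H.rs κ V n L).lab m z).mono fun _ h => congrArg u h

theorem Tri.psd {V : Type} {n : ℕ} {L : Lad κ V n} (h : Tri L) (m : ℕ) : Psd (L.K m) := by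
  intro c z hz
  have k : ∀ᶠ y in 𝓝 z, (fun y => ((L.K m).φ c y : ℂ)) =ᶠ[𝓝 y] fun _ => 0 :=
    Eventually.eventually_nhds (mem_of_superset (((L.K m).e c).open_target.mem_nhds hz)
      fun y hy => by simp [h.φ m c y hy])
  have e : cHess ((L.K m).φ c) z = 0 := by
    ext a b
    have k' : (dzb b fun y => ((L.K m).φ c y : ℂ)) =ᶠ[𝓝 z] fun _ => 0 := k.mono fun y hy => by
      simp [dzb, hy.fderiv_eq]
    simp [cHess, dz, k'.fderiv_eq]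
  exact e ▸ Matrix.PosSemidef.zero

variable {w d m : ℕ} {V : Mf (w + d)} {W : Mf w} {L : Lad κ V.X (w + d)} {f : V.X → W.X}
  {χ : Chart w W.X} {y : W.X} (S : Slc L f χ y)

theorem Slc.symm (c : (S.F.K m).I) {v : Cm m} (hv : v ∈ ((S.F.K m).e c).target) :
    (pq L χ (S.par c)).2.symm (χ y, v) = S.j (((S.F.K m).e c).symm v) := by
  have h := ((S.F.K m).e c).map_target hv
  have k := S.val m c _ h
  rw [((S.F.K m).e c).right_inv hv] at k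
  rw [S.src] at h
  exact (congrArg ((L.K (w + m)).e (S.par c)).symm k).symm.trans
    (((L.K (w + m)).e (S.par c)).left_inv h)

theorem Slc.itg (H : In) {D fr} (G : Geo L D fr) (hf : HolM (w + d) w f) (r : κ → ℝ)
    {σ τ : PC w m (L.Y (w + m)).X W.X → Cm m → ℂ} {a a' : Sc (S.F.K m)} (h : S.Is a τ)
    (h' : S.Is a' σ) (t : Top _ a) (s : Sm _ a) (t' : H0 _ a') {I : ℂ}
    (k : FibItg (gm L f m) y (wd (fun z => wI r (L.lab z)) y σ τ) I) :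
    I = pS _ (mu _ (fun z => wI r (S.F.lab z)) a) a' := by
  have M := (H.muf κ _ _ S.F m).1 _ (lc_lab H S.F m (wI r)) a
  refine ((H.tr κ w d V W L D fr f G hf χ y S).2 m).2.2 _ I _ _ k (fun c v hv => ?_) (M.1 t) t'.top
    ((H.int _ _ _).intS _ _ (M.1 t) t'.top (M.2.1 s) (Rn.hl_sm t'.hol))
  change (wI r (L.lab ((pq L χ (S.par c)).2.symm (χ y, v))) : ℂ) * _ = _
  rw [S.symm c hv, S.lab, h c v hv, h' c v hv, mul_comm (star _), ← mul_assoc]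
  rfl

end gen

variable {w d e k : ℕ} {B : Bs w} {C : Et B d 1} [LinearOrder C.κ] {A : Dt C} {i : B.l.ι}
  {y : B.W.X} {O : Set B.W.X} {b : A.L.B → C.X.X → ℂ} {lam : B.l.ι → A.L.B → C.X.X → ℂ}

theorem Dt.r_pos (A : Dt C) (l : C.κ) : 0 < A.r l := lt_max_of_lt_right one_pos

theorem slc (H : In) (A : Dt C) (hy : y ∈ B.l.U i \ C.Q) : Nonempty (Slc A.L C.g (B.ch i) y) :=
  H.fib _ w d _ _ A.L _ _ _ A.geo A.lg.hol y _ (A.lg.base.ch i y hy.1)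
    ((H.pol _ _ _ _ C.g _ _ A.a A.b A.lg.snc).2 y (A.lg.reg y hy.2))

/-- the form on the deepest strata of a fibre -/
abbrev res (S : Slc A.L C.g (B.ch i) y) (e : ℕ) (b : A.L.B → C.X.X → ℂ) : Sc (S.F.K e) :=
  S.F.fm (S.F.nm e (S.rb b))

structure Fi (S : Slc A.L C.g (B.ch i) y) (e : ℕ) (b : A.L.B → C.X.X → ℂ) : Prop where
  sec : ∀ m, S.F.Sec m (S.rb b)
  is : S.Is (res S e b) (Hg.rs (rel A.L C.g (B.ch i) e b) y)
  pr : ∀ c : (S.F.K e).I, ∀ v ∈ ((S.F.K e).e c).target, S.F.pr c v ≠ 0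
  h0 : H0 _ (res S e b)

theorem fi (H : In) (hD : A.Dep e k) (S : Slc A.L C.g (B.ch i) y) (hy : y ∉ C.Q) (h : y ∈ O)
    (hb : HolN A.L (C.g ⁻¹' O) b) : Fi S e b := by
  have s : C.g ⁻¹' {y} ⊆ C.g ⁻¹' O := preimage_mono (singleton_subset_iff.2 h)
  have k1 := (H.num _ w d _ _ A.L _ _ _ A.geo A.lg.hol).2 _ y S _ b hb s
  have k2 := (H.rel _ w d _ _ A.L _ _ _ A.geo A.lg.hol e).2.1 _ y S b
    (fun β β' x hx => hb.chg β β' x (s hx)) fun z hz => hD.nb z (hz ▸ hy)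
  exact ⟨k1, k2.1, k2.2, (((H.muf _ _ _ S.F e).2 k2.2) _).1 (k1 e)⟩

theorem asy (H : In) (hD : A.Dep e k) (S : Slc A.L C.g (B.ch i) y) (hy : y ∉ C.Q)
    {b b' : A.L.B → C.X.X → ℂ} (h : S.F.Sec d (S.rb b)) (h' : S.F.Sec d (S.rb b')) :
    (∀ ε : ℝ, 0 < ε → Integrable (dρ S.F C.ρ ε (S.rb b) (S.rb b')) (S.F.K d).μ) ∧
    Tendsto (fun ε : ℝ => ((ε ^ k : ℝ) : ℂ) *
      ∫ z, dρ S.F C.ρ ε (S.rb b) (S.rb b') z ∂(S.F.K d).μ) (𝓝[>] 0)
      (𝓝 (pS _ (mu _ (fun z => wI A.r (S.F.lab z)) (res S e b)) (res S e b'))) :=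
  H.asy _ _ _ S.F e k _ _ _ _ _ hD.add (fun m hm => ⟨fun z => hy (S.gm_j z ▸ hD.emp m hm _)⟩)
    (H.hyp w d B C A _ y hy S) h h'

theorem res_ne (H : In) (hD : A.Dep e k) (hl : A.Lam lam) (S : Slc A.L C.g (B.ch i) y)
    (hy : y ∈ B.l.U i \ C.Q) : res S e (lam i) ≠ 0 := by
  intro h
  obtain ⟨_, F⟩ := hD.fam e le_rfl (hD.add ▸ Nat.le_add_right e k)
  obtain ⟨x, hx⟩ := F.onto y hy.2
  obtain ⟨z₀, -⟩ := (S.rng e).superset hx
  have := It.open_pos (S.F.K e)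
  have : Nonempty (S.F.Y e).X := ⟨z₀⟩
  obtain ⟨z, hz⟩ := ((H.hyp w d B C A _ y hy.2 S).ae e).exists
  have h1 := ix_src (S.F.K e) z
  have h2 := ((S.F.K e).e _).map_source h1
  have h3 := congrFun (congrFun h ((S.F.K e).ix z)) ((S.F.K e).e ((S.F.K e).ix z) z)
  have h4 : C.g (S.F.pt z) = y := S.pt e z ▸ S.gm_j z
  simp only [res, Lad.fm, Lad.nm, h2, if_true, ((S.F.K e).e _).left_inv h1] at h3
  exact div_ne_zero (mul_ne_zero (S.F.eps_ne _) (hl.ne i _ _ (by rwa [h4])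
    ((S.U _).subset (S.F.mem e _ z h1)) hz)) ((fi H hD S hy.2 hy (hl.hol i)).pr _ _ h2) h3

theorem quo_hol (hl : A.Lam lam) (hO : IsOpen O) (h : O ⊆ B.l.U i \ C.Q)
    (hb : HolN A.L (C.g ⁻¹' O) b) {x : C.X.X} (hx : x ∈ off C.G) (hx' : C.g x ∈ O) :
    Hol (w + d) (A.quo b (lam i)) x := by
  obtain ⟨β, hβ⟩ := A.geo.lb.cover x
  refine ((hb.hol β x hx' hβ).div ((hl.hol i).hol β x (h hx') hβ)
    (hl.ne i β x (h hx') hβ fun ⟨l, _, k⟩ => hx l k)).congr ?_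
  filter_upwards [(A.geo.lb.isOpen β).mem_nhds hβ,
    (hO.preimage A.lg.hol.cont).mem_nhds hx'] with z h1 h2
  have h3 : ∃ β, z ∈ A.L.U β := ⟨β, h1⟩
  rw [Dt.quo, dif_pos h3, hb.chg _ β z h2 h3.choose_spec h1,
    (hl.hol i).chg _ β z (h h2) h3.choose_spec h1,
    mul_div_mul_left _ _ (A.L.G_ne h3.choose_spec h1)]

theorem rd (H : In) (hD : A.Dep e k) (hl : A.Lam lam) :
    Rd C k (A.L.Y (w + e)) (gm A.L C.g e) (fun z => wI A.r (A.L.lab z))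
      fun i => rel A.L C.g (B.ch i) e (lam i) := by
  have he : e ≤ d := hD.add ▸ Nat.le_add_right e k
  obtain ⟨ω₀, F⟩ := hD.fam e le_rfl he
  have hU : ∀ i, IsOpen (B.l.U i \ C.Q) := fun i => (A.lg.base.lb.isOpen i).inter F.opn
  have R := H.rel _ w d _ _ A.L _ _ _ A.geo A.lg.hol e
  have R1 : ∀ i O b, IsOpen O → O ⊆ B.l.U i \ C.Q → HolN A.L (C.g ⁻¹' O) b →
      Hg.RelHol (gm A.L C.g e) O (rel A.L C.g (B.ch i) e b) := fun i O b h1 h2 h3 =>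
    R.1 _ O b h1 (fun y hy => A.lg.base.ch i y (h2 hy).1) h3 fun z hz => hD.nb z (h2 hz).2
  refine ⟨⟨ω₀, F⟩, fun x => wI_pos A.r_pos _,
    (IsLocallyConstant.iff_eventually_eq _).1 (lc_lab H A.L _ _),
    fun i => R1 i _ _ (hU i) Subset.rfl (hl.hol i), fun i j q x h1 h2 h3 h4 h5 =>
      R.2.2 _ _ _ _ _ q x h1 h2 (A.lg.base.ch i _ h3) (A.lg.base.ch j _ h4)
        fun β hβ => hl.chg i j β _ ⟨h3, h5⟩ h4 hβ, fun i y h1 h2 I hI => ?_, ?_⟩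
  · obtain ⟨S⟩ := slc H A (i := i) ⟨h1, h2⟩
    have P := fi H hD S h2 (O := B.l.U i \ C.Q) ⟨h1, h2⟩ (hl.hol i)
    rw [S.itg H A.geo A.lg.hol A.r P.is P.is P.h0.top (Rn.hl_sm P.h0.hol) P.h0 hI]
    refine ⟨((H.muf _ _ _ S.F e).1 _ (lc_lab H S.F e _) _).2.2.2 (fun _ => wI_pos A.r_pos _) P.h0
      (res_ne H hD hl S ⟨h1, h2⟩), ((Complex.continuous_re.tendsto _).comp
        (asy H hD S h2 (P.sec d) (P.sec d)).2).congr' ?_⟩
    filter_upwards [self_mem_nhdsWithin] with ε hε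
    rw [Function.comp, ← ((H.nut w d B C A lam hl i y h1 h2 S _ (P.sec d)).2 ε hε).2,
      ← Complex.ofReal_mul, Complex.ofReal_re]
  obtain ⟨T, hT, X⟩ := H.ext _ w d _ _ A.L _ _ _ A.geo A.lg.hol A.lg.base.conn
  refine ⟨T, hT, fun i y h1 h2 h3 σ hσ => ?_⟩
  obtain ⟨S⟩ := slc H A (i := i) ⟨h1, h2⟩
  have T1 := (H.tr _ w d _ _ A.L _ _ _ A.geo A.lg.hol _ y S).2 e
  obtain ⟨a, a1, a2⟩ := T1.1 σ hσ
  obtain ⟨g, b', g1, g2, g3⟩ := H.b2w _ _ _ S.F S.tri.psd e he _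
    (lc_lab H S.F e fun I => (wI A.r I)⁻¹) (fun _ => inv_pos.2 (wI_pos A.r_pos _)) a a1
  obtain ⟨O₁, b, o1, o2, o3, o4⟩ := X y h3 _ S b' g2
  obtain ⟨O, Γ, γ, p1, p2, p3, p4, p5, p6, p7⟩ := H.gam _ w d _ _ A.L _ _ _ A.geo A.lg.hol C.Qᶜ e _
    y S (fun I => (wI A.r I)⁻¹) g (hD.fam _ (Nat.le_succ e)) h2 g1 _
    ((o1.inter (hU i)).mem_nhds ⟨o2, h1, h2⟩)
  have q1 : O ⊆ B.l.U i \ C.Q := fun t ht => (p3 ht).2
  have q2 : HolN A.L (C.g ⁻¹' O) b :=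
    ⟨fun β x hx => o3.hol β x (p3 hx).1, fun β β' x hx => o3.chg β β' x (p3 hx).1⟩
  obtain ⟨c, hc⟩ := A.lg.meanH i O p1 q1 _ (fun x => quo_hol hl p1 q1 q2) fun t ht => by
    obtain ⟨S'⟩ := slc H A (q1 ht)
    have P := (fi H hD S' (q1 ht).2 ht q2).sec d
    exact (H.nut w d B C A lam hl i t (q1 ht).1 (q1 ht).2 S' b P).1 (asy H hD S' (q1 ht).2 P P).1
  refine ⟨O, _, Γ, γ, c, q1, p1, p2, R1 i O b p1 q1 q2, p4, p5, ?_, fun t ht I hI => ?_,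
    fun t ht => (hc t ht).1, fun t ht I I' hI hI' => ?_⟩
  · have P := fi H hD S h2 p2 q2
    have M := H.muf _ _ _ S.F e
    have G := H.gl _ _ _ S.F
    have t := (M.1 _ (lc_lab H S.F e fun I => (wI A.r I)⁻¹) _).1 ((H.rs _ _ _ S.F).top e g g1.vec)
    have q3 : res S e b = a - mu _ (fun z => (wI A.r (S.F.lab z))⁻¹) (S.F.rs g) :=
      (o4.mono (Lad.sk_le G he le_rfl)).fm_nm.trans ((M.2 P.pr b').2 _ ⟨fun c c' x h h' => by
        rw [Pi.sub_apply, Pi.sub_apply, Pi.sub_apply, Pi.sub_apply, a1.top.chg c c' x h h',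
          t.chg c c' x h h', mul_sub], fun c z h => by
        rw [Pi.sub_apply, Pi.sub_apply, a1.top.off c z h, t.off c z h, sub_zero]⟩ g3)
    refine T1.2.1 σ _ (γ y) Γ O hσ (rel_fib (R1 i O b p1 q1 q2) p2) p2 p4 (p5 y p2) fun c v hv => ?_
    rw [p6 c v hv, tf, tf, a2 c v hv, P.is c v hv, q3, ← add_smul, Pi.sub_apply, Pi.sub_apply,
      sub_add_cancel]
  · obtain ⟨S'⟩ := slc H A (q1 ht)
    obtain ⟨g', r1, r2, r3, r4⟩ := p7 t ht S'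
    have P := fi H hD S' (q1 ht).2 (q1 ht) (hl.hol i)
    have M := (H.muf _ _ _ S'.F e).1 _ (lc_lab H S'.F e fun I => (wI A.r I)⁻¹) (S'.F.rs g')
    have Q := H.rs _ _ _ S'.F
    rw [S'.itg H A.geo A.lg.hol A.r r4 P.is (M.1 (Q.top e g' r1)) (M.2.1 (Q.sm e g' r1 r2)) P.h0 hI,
      show mu _ _ (mu _ _ _) = S'.F.rs g' from funext₂ fun c z => by
        rw [mu, mu, ← mul_assoc, ← Complex.ofReal_mul, mul_inv_cancel₀ (wI_pos A.r_pos _).ne',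
          Complex.ofReal_one, one_mul], (H.int _ _ _).conjS,
      (H.b1 _ _ _ S'.F e _).1 (P.sec _) (P.sec _) g' r1 r2 r3, map_zero]
  · obtain ⟨S'⟩ := slc H A (q1 ht)
    have P := fi H hD S' (q1 ht).2 (q1 ht) (hl.hol i)
    have P' := fi H hD S' (q1 ht).2 ht q2
    rw [S'.itg H A.geo A.lg.hol A.r P.is P.is P.h0.top (Rn.hl_sm P.h0.hol) P.h0 hI',
      S'.itg H A.geo A.lg.hol A.r P'.is P.is P'.h0.top (Rn.hl_sm P'.h0.hol) P.h0 hI]
    refine tendsto_nhds_unique_of_eventuallyEq (asy H hD S' (q1 ht).2 (P'.sec d) (P.sec d)).2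
      ((asy H hD S' (q1 ht).2 (P.sec d) (P.sec d)).2.const_mul (c t)) ?_
    filter_upwards [self_mem_nhdsWithin] with ε hε
    have N := (H.nut w d B C A lam hl i t (q1 ht).1 (q1 ht).2 S' b (P'.sec d)).2 ε hε
    rw [← N.1, ← N.2, (hc t ht).2 ε hε, mul_left_comm]

/-- (LV) -/
theorem lv_of (H : In) : LV := by
  intro w d B C hC
  let _ : LinearOrder C.κ := LinearOrder.lift' _ (Fintype.equivFin C.κ).injective
  obtain ⟨a, ha⟩ := hC.ord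
  obtain ⟨b, hb⟩ := hC.cpg
  obtain ⟨L, fr, G⟩ := H.lad _ _ _ _ hC.kah (H.pol _ _ _ _ C.g _ _ a b hC.snc).1
  let A : Dt C := ⟨a, b, L, fr, hC, ha, hb, G⟩
  obtain ⟨lam, hl⟩ := H.lam w d B C A (H.ord w d B C A)
  obtain ⟨e, k, hD⟩ := H.dep w d B C A
  exact H.asm w d B C hC e k _ _ _ _ (rd H hD hl)

end Vale.Agent.P281Z.Lv
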