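import Vale.Agent.P281Z.Lg.Cp

/-!
# P281Z, block LV: the flat asymptotics
-/

open scoped Topology
open Set Filter Metric MeasureTheory
open Vale.Agent.P272.K Vale.Agent.P281Z.Lg

noncomputable section

namespace Vale.Agent.P281Z.Lv.As

theorem disc_int {a : ℝ} (ha : -2 < a) (δ : ℝ) : IntegrableOn (fun z : ℂ => ‖z‖ ^ a) (ball 0 δ) :=
  integrableOn_ball_of_norm_le_rpow (C := 1) (α := -a) (by simp) (by simpa using neg_lt.2 ha)
    (.of_forall fun z => by simp [abs_of_nonneg (Real.rpow_nonneg (norm_nonneg z) _)])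
    (measurable_norm.pow_const _).aestronglyMeasurable

theorem disc {s δ : ℝ} (hs : 0 < s) (hδ : 0 < δ) :
    ∫ z in ball (0 : ℂ) δ, ‖z‖ ^ (s - 2) = 2 * Real.pi * (δ ^ s / s) := by
  have h2 := integral_fun_norm_addHaar (volume : Measure ℂ)
    ((Iio δ).indicator fun t : ℝ => t ^ (s - 2))
  have h3 : ∫ y in Ioi (0 : ℝ), y ^ (2 - 1) • (Iio δ).indicator (fun t : ℝ => t ^ (s - 2)) y =
      δ ^ s / s := by
    have h4 := integral_rpow (a := 0) (b := δ) (r := s - 2 + 1) (.inl (by linarith))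
    rw [Real.zero_rpow (by linarith), sub_zero, show s - 2 + 1 + 1 = s by ring,
      intervalIntegral.integral_of_le hδ.le, integral_Ioc_eq_integral_Ioo, ← Ioi_inter_Iio,
      ← setIntegral_indicator measurableSet_Iio] at h4
    rw [← h4]
    refine setIntegral_congr_fun measurableSet_Ioi fun y hy => ?_
    by_cases h : y ∈ Iio δ
    · simp [indicator_of_mem h, Real.rpow_add_one (ne_of_gt hy), mul_comm]
    · simp [indicator_of_notMem h]
  rw [Complex.finrank_real_complex, h3] at h2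
  rw [← integral_indicator measurableSet_ball]
  refine (integral_congr_ae (.of_forall fun z => ?_)).trans (h2.trans ?_)
  · simp [indicator]
  · simp [Measure.real, mul_assoc]

variable {j : ℕ} {r : Fin j → ℝ} {ε δ : ℝ}

/-- the kernel -/
def kr (r : Fin j → ℝ) (ε : ℝ) (t : Fin j → ℂ) : ℝ := ε ^ j * ∏ a, ‖t a‖ ^ (ε * r a - 2)

theorem kr_nn (hε : 0 < ε) (t : Fin j → ℂ) : 0 ≤ kr r ε t := by
  unfold kr
  positivity

theorem kr_meas : Measurable (kr r ε) := by
  unfold kr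
  fun_prop

theorem rs_ball (hδ : 0 < δ) : (volume : Measure (Fin j → ℂ)).restrict (ball 0 δ) =
    .pi fun _ => volume.restrict (ball 0 δ) := by
  rw [ball_pi _ hδ]
  exact Measure.restrict_pi_pi _ _

theorem kr_int (hr : ∀ a, 0 < r a) (hε : 0 < ε) (hδ : 0 < δ) :
    IntegrableOn (kr r ε) (ball 0 δ) := by
  rw [IntegrableOn, rs_ball hδ]
  exact (Integrable.fintype_prod (f := fun a (z : ℂ) => ‖z‖ ^ (ε * r a - 2)) fun a =>
    disc_int (by linarith [mul_pos hε (hr a)]) δ).const_mul _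

theorem mass (hr : ∀ a, 0 < r a) (hε : 0 < ε) (hδ : 0 < δ) :
    ∫ t in ball 0 δ, kr r ε t = (∏ a, 2 * Real.pi / r a) * δ ^ (ε * ∑ a, r a) := by
  simp only [kr]
  rw [rs_ball hδ, integral_const_mul,
    integral_fintype_prod_eq_prod fun a (z : ℂ) => ‖z‖ ^ (ε * r a - 2),
    Finset.prod_congr rfl fun a _ => disc (mul_pos hε (hr a)) hδ, Finset.mul_sum,
    Real.rpow_sum_of_pos hδ, ← Finset.prod_mul_distrib, ← Fin.prod_const,
    ← Finset.prod_mul_distrib]
  exact Finset.prod_congr rfl fun a _ => by field_simp [(hr a).ne']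

theorem mass1 (hr : ∀ a, 0 < r a) (hε : 0 < ε) :
    ∫ t in ball 0 1, kr r ε t = ∏ a, 2 * Real.pi / r a := by
  rw [mass hr hε one_pos, Real.one_rpow, mul_one]

theorem ind_kr (s : Set (Fin j → ℂ)) (M : ℝ) (t : Fin j → ℂ) :
    s.indicator 1 t * M * kr r ε t = s.indicator (kr r ε) t * M := by
  by_cases h : t ∈ s <;> simp [h, mul_comm]

theorem nrm_kr (hε : 0 < ε) {g : ℂ} {M : ℝ} {t : Fin j → ℂ}
    (h : ‖g‖ ≤ (ball 0 1).indicator 1 t * M) :
    ‖g * kr r ε t‖ ≤ (ball 0 1).indicator (kr r ε) t * M := by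
  rw [norm_mul, Complex.norm_real, Real.norm_of_nonneg (kr_nn hε t), ← ind_kr]
  exact mul_le_mul_of_nonneg_right h (kr_nn hε t)

theorem ae_ne : ∀ᵐ t : Fin j → ℂ, ∀ a, t a ≠ 0 := ae_all_iff.2 fun a => Measure.ae_eval_ne _ a 0

/-- the kernel concentrates at the origin -/
theorem conc (hr : ∀ a, 0 < r a) {g : ℝ → (Fin j → ℂ) → ℂ} (hg : ∀ ε, Measurable (g ε)) {M : ℝ}
    (bd : ∀ᶠ ε in 𝓝[>] 0, ∀ t, (∀ a, t a ≠ 0) → ‖g ε t‖ ≤ (ball 0 1).indicator 1 t * M) {g₀ : ℂ}
    (lim : Tendsto (fun p : ℝ × (Fin j → ℂ) => g p.1 p.2) (𝓝[>] 0 ×ˢ 𝓝[{t | ∀ a, t a ≠ 0}] 0)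
      (𝓝 g₀)) : Tendsto (fun ε => ∫ t, g ε t * kr r ε t) (𝓝[>] 0)
      (𝓝 (((∏ a, 2 * Real.pi / r a : ℝ) : ℂ) * g₀)) := by
  set W : ℝ := ∏ a, 2 * Real.pi / r a with hW
  have W0 : 0 < W := Finset.prod_pos fun a _ => div_pos Real.two_pi_pos (hr a)
  refine Metric.tendsto_nhds.2 fun η hη => ?_
  obtain ⟨P, hP, Q, hQ, h⟩ := eventually_prod_iff.1
    (Metric.tendsto_nhds.1 lim (η / 2 / W) (by positivity))
  obtain ⟨δ, hδ, hb⟩ := Metric.eventually_nhds_iff_ball.1
    ((eventually_nhdsWithin_iff.1 hQ).and (ball_mem_nhds _ one_pos))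
  have h1 : Tendsto (fun ε : ℝ => (W - W * δ ^ (ε * ∑ a, r a)) * (M + ‖g₀‖)) (𝓝[>] 0) (𝓝 0) := by
    have c : Continuous fun ε : ℝ => (W - W * δ ^ (ε * ∑ a, r a)) * (M + ‖g₀‖) :=
      (continuous_const.sub (continuous_const.mul ((Real.continuous_const_rpow hδ.ne').comp
        (by fun_prop)))).mul continuous_const
    simpa using (c.tendsto 0).mono_left nhdsWithin_le_nhds
  filter_upwards [hP, bd, self_mem_nhdsWithin, h1.eventually (gt_mem_nhds (half_pos hη))]
    with ε k1 k2 (hε : 0 < ε) k3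
  have i1 := (kr_int hr hε one_pos).integrable_indicator measurableSet_ball
  have i2 := (kr_int hr hε hδ).integrable_indicator measurableSet_ball
  have i3 : Integrable fun t => g ε t * kr r ε t := (i1.mul_const M).mono'
    ((hg ε).mul (Complex.measurable_ofReal.comp kr_meas)).aestronglyMeasurable
    (ae_ne.mono fun t m => nrm_kr hε (k2 t m))
  have i4 : Integrable fun t => (((ball 0 1).indicator (kr r ε) t : ℝ) : ℂ) * g₀ :=
    i1.ofReal.mul_const _
  have e : (W : ℂ) * g₀ = ∫ t, (((ball 0 1).indicator (kr r ε) t : ℝ) : ℂ) * g₀ := by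
    rw [integral_mul_const, integral_complex_ofReal, integral_indicator measurableSet_ball,
      mass1 hr hε]
  rw [dist_eq_norm, e, ← integral_sub i3 i4]
  refine (norm_integral_le_of_norm_le ((i1.mul_const (η / 2 / W)).add
    ((i1.sub i2).mul_const (M + ‖g₀‖))) (ae_ne.mono fun t m0 => ?_)).trans_lt ?_
  · simp only [Pi.add_apply, Pi.sub_apply]
    have m1 := k2 t m0
    by_cases m : t ∈ ball (0 : Fin j → ℂ) 1
    · rw [indicator_of_mem m, Pi.one_apply, one_mul] at m1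
      rw [indicator_of_mem m, mul_comm _ g₀, ← sub_mul, norm_mul, Complex.norm_real,
        Real.norm_of_nonneg (kr_nn hε t), mul_comm]
      by_cases m' : t ∈ ball (0 : Fin j → ℂ) δ
      · rw [indicator_of_mem m', sub_self, zero_mul, add_zero]
        exact mul_le_mul_of_nonneg_left (dist_eq_norm _ g₀ ▸ h k1 ((hb t m').1 m0)).le (kr_nn hε t)
      · rw [indicator_of_notMem m', sub_zero, ← mul_add]
        exact mul_le_mul_of_nonneg_left ((norm_sub_le _ _).trans (le_add_of_nonneg_of_le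
          (by positivity) (add_le_add_left m1 _))) (kr_nn hε t)
    · rw [indicator_of_notMem m, zero_mul, norm_le_zero_iff] at m1
      simp [m1, indicator_of_notMem m, indicator_of_notMem fun k => m (hb t k).2]
  · simp only [Pi.add_apply]
    rw [integral_add (i1.mul_const _) ((i1.sub i2).mul_const _), integral_mul_const,
      integral_mul_const, integral_sub' i1 i2, integral_indicator measurableSet_ball,
      integral_indicator measurableSet_ball, mass1 hr hε, mass hr hε hδ, ← hW,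
      mul_div_cancel₀ _ W0.ne']
    linarith

/-- **FLAT** -/
theorem flat {E : Type} [MeasureSpace E] [SigmaFinite (volume : Measure E)] (hr : ∀ a, 0 < r a)
    {G : ℝ → (Fin j → ℂ) × E → ℂ} (hG : ∀ ε, Measurable (G ε)) {H : E → ℝ} (hH : Integrable H)
    (hb : ∀ᵐ v, ∀ᶠ ε in 𝓝[>] 0, ∀ t, (∀ a, t a ≠ 0) →
      ‖G ε (t, v)‖ ≤ (ball 0 1).indicator 1 t * H v)
    (hb' : ∀ᶠ ε in 𝓝[>] 0, ∀ᵐ v, ∀ t, (∀ a, t a ≠ 0) →
      ‖G ε (t, v)‖ ≤ (ball 0 1).indicator 1 t * H v) {G₀ : E → ℂ}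
    (hl : ∀ᵐ v, Tendsto (fun p : ℝ × (Fin j → ℂ) => G p.1 (p.2, v))
      (𝓝[>] 0 ×ˢ 𝓝[{t | ∀ a, t a ≠ 0}] 0) (𝓝 (G₀ v))) :
    Tendsto (fun ε : ℝ => ((ε ^ j : ℝ) : ℂ) *
      ∫ p, G ε p * ((∏ a, ‖p.1 a‖ ^ (ε * r a - 2) : ℝ) : ℂ)) (𝓝[>] 0)
      (𝓝 (((∏ a, 2 * Real.pi / r a : ℝ) : ℂ) * ∫ v, G₀ v)) := by
  have m : ∀ ε, Measurable fun p : (Fin j → ℂ) × E => G ε p * kr r ε p.1 := fun ε =>
    (hG ε).mul (Complex.measurable_ofReal.comp (kr_meas.comp measurable_fst))
  have i : ∀ᶠ ε in 𝓝[>] 0, Integrable fun p => G ε p * kr r ε p.1 := by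
    filter_upwards [hb', self_mem_nhdsWithin] with ε k (hε : 0 < ε)
    refine (((kr_int hr hε one_pos).integrable_indicator measurableSet_ball).mul_prod hH).mono'
      (m ε).aestronglyMeasurable ?_
    filter_upwards [Measure.quasiMeasurePreserving_fst.ae ae_ne,
      Measure.quasiMeasurePreserving_snd.ae k] with p a b using nrm_kr hε (b p.1 a)
  refine Tendsto.congr' (i.mono fun ε k => (integral_prod_symm _ k).symm.trans ?_) ?_
  · refine (integral_congr_ae (.of_forall fun p => ?_)).trans (integral_const_mul _ _)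
    simp only [kr, Complex.ofReal_mul]
    ring
  rw [← integral_const_mul]
  refine tendsto_integral_filter_of_dominated_convergence
    (fun v => (∏ a, 2 * Real.pi / r a) * H v) (.of_forall fun ε =>
      (m ε).stronglyMeasurable.integral_prod_left'.aestronglyMeasurable) ?_ (hH.const_mul _)
    ((hl.and hb).mono fun v k => conc hr (g := fun ε t => G ε (t, v))
      (fun ε => (hG ε).comp measurable_prodMk_right) k.2 k.1)
  filter_upwards [hb', self_mem_nhdsWithin] with ε k (hε : 0 < ε)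
  refine k.mono fun v k => (norm_integral_le_of_norm_le (((kr_int hr hε
    one_pos).integrable_indicator measurableSet_ball).mul_const (H v))
      (ae_ne.mono fun t a => nrm_kr hε (k t a))).trans_eq ?_
  rw [integral_mul_const, integral_indicator measurableSet_ball, mass1 hr hε]

/-- **FLAT**, with a bound which is uniform for `0 < ε < ε₀` -/
theorem flat' {E : Type} [MeasureSpace E] [SigmaFinite (volume : Measure E)] (hr : ∀ a, 0 < r a)
    {G : ℝ → (Fin j → ℂ) × E → ℂ} (hG : ∀ ε, Measurable (G ε)) {H : E → ℝ} (hH : Integrable H)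
    {P : ℝ → Prop} (hP : ∀ᶠ ε in 𝓝[>] 0, P ε) (hb : ∀ᵐ v, ∀ ε, P ε → ∀ t, (∀ a, t a ≠ 0) →
      ‖G ε (t, v)‖ ≤ (ball 0 1).indicator 1 t * H v) {G₀ : E → ℂ}
    (hl : ∀ᵐ v, Tendsto (fun p : ℝ × (Fin j → ℂ) => G p.1 (p.2, v))
      (𝓝[>] 0 ×ˢ 𝓝[{t | ∀ a, t a ≠ 0}] 0) (𝓝 (G₀ v))) :
    Tendsto (fun ε : ℝ => ((ε ^ j : ℝ) : ℂ) *
      ∫ p, G ε p * ((∏ a, ‖p.1 a‖ ^ (ε * r a - 2) : ℝ) : ℂ)) (𝓝[>] 0)
      (𝓝 (((∏ a, 2 * Real.pi / r a : ℝ) : ℂ) * ∫ v, G₀ v)) :=
  flat hr hG hH (hb.mono fun _ k => hP.mono k) (hP.mono fun ε k => hb.mono fun _ m => m ε k) hl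

/-- monomials with exponents `> -2` are locally integrable -/
theorem int_mon {m : ℕ} {κ : Type} [Fintype κ] {o : κ → Option (Fin m)}
    (h : ∀ l l' k, o l = some k → o l' = some k → l = l') {γ : κ → ℝ} (hγ : ∀ l, -2 < γ l)
    (p : Cm m) (R : ℝ) : IntegrableOn (fun z : Cm m => ∏ l, ‖zt (o l) z‖ ^ γ l) (ball p R) := by
  classical
  let β : Fin m → ℝ := fun k => if h : ∃ l, o l = some k then γ h.choose else 0
  have hβ : ∀ k, -2 < β k := fun k => by
    simp only [β]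
    split_ifs
    exacts [hγ _, by norm_num]
  have e : ∀ z : Cm m, ∏ l, ‖zt (o l) z‖ ^ γ l = ∏ k, ‖z k‖ ^ β k := fun z => by
    have h1 : ∀ l, ‖zt (o l) z‖ ^ γ l = ∏ k, if o l = some k then ‖z k‖ ^ γ l else 1 := fun l => by
      cases o l <;> simp [zt]
    rw [Finset.prod_congr rfl fun l _ => h1 l, Finset.prod_comm]
    refine Finset.prod_congr rfl fun k _ => ?_
    by_cases hk : ∃ l, o l = some k
    · rw [Finset.prod_eq_single hk.choose (fun l _ m => if_neg fun c => m (h _ _ k c hk.choose_spec))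
        (by simp), if_pos hk.choose_spec]
      simp only [β, dif_pos hk]
    · simp only [β, dif_neg hk, Real.rpow_zero]
      exact Finset.prod_eq_one fun l _ => if_neg fun c => hk ⟨l, c⟩
  have h0 : 0 < ‖p‖ + |R| + 1 := by positivity
  refine IntegrableOn.mono_set (t := ball 0 (‖p‖ + |R| + 1)) ?_ (ball_subset_ball' (by
    rw [dist_zero_right]; linarith [le_abs_self R]))
  simp only [e]
  rw [IntegrableOn, rs_ball h0]
  exact Integrable.fintype_prod (f := fun k (z : ℂ) => ‖z‖ ^ β k) fun k => disc_int (hβ k) _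

end Vale.Agent.P281Z.Lv.As
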