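import Vale.Agent.P281Z.Pk.Sk
import Vale.Agent.P281Z.Lg.Defs
import Vale.Agent.P281Z.Hg.S4

/-!
# P281Z, block LV: the variation of Hodge structure of the deepest strata, definitions
-/

open scoped Manifold ContDiff Topology ENNReal Matrix ComplexConjugate
open Set Filter MeasureTheory
open Vale.Agent.P272.K Vale.Agent.P285.H281.FD Vale.Agent.P284.H608.K
open Vale.Agent.P277Z (Hol)
open Vale.Agent.P277Z.Slc (Ind LEq Snc St)
open Vale.Agent.P277Z.Hir (Cpb)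
open Vale.Agent.P277.HD (pull)
open Vale.Agent.P281Z.Hg (PC IsPC fdet FibHol RelHol FibItg TotCl Rst tf Fam Fo Rw Hd)
open Vale.Agent.P281Z.Ha Vale.Agent.P281Z.Lg Vale.Agent.P281Z.Pk

noncomputable section

namespace Vale.Agent.P281Z.Lv

/-! ### The interface with Hodge theory -/

section rd

variable {w e : ℕ} {Z : Mf (w + e)} {W : Mf w}

/-- the weighted density of `conj σ * τ` on the fibre over `t` -/
def wd (wt : Z.X → ℝ) (t : W.X) (σ τ : PC w e Z.X W.X → Cm e → ℂ) : PC w e Z.X W.X → Cm e → ℂ :=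
  fun q z => (wt (q.2.symm (q.1 t, z)) : ℂ) * (star (σ q z) * τ q z)

/-- near `y`, the top form `σ` is a member of the holomorphic family `s'` plus a flat class which
is orthogonal to `s` -/
structure Spl (g : Z.X → W.X) (wt : Z.X → ℝ) (s : PC w e Z.X W.X → Cm w × Cm e → ℂ) (y : W.X)
    (σ : PC w e Z.X W.X → Cm e → ℂ) (O : Set W.X) (s' : PC w e Z.X W.X → Cm w × Cm e → ℂ)
    (Γ : Rw (w + e) Z.X (Fo (w + e))) (γ : W.X → PC w e Z.X W.X → Cm e → Fo e) (m : W.X → ℂ) :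
    Prop where
  opn : IsOpen O
  mem : y ∈ O
  hol : RelHol g O s'
  cl : TotCl w e g O Γ
  rst : ∀ t ∈ O, Rst g t Γ (γ t)
  eq : ∀ q x, IsPC g q → x ∈ q.2.source → g x = y →
    tf σ q (q.2 x).2 = tf (Hg.rs s' y) q (q.2 x).2 + γ y q (q.2 x).2
  ort : ∀ t ∈ O, ∀ I, FibItg g t (wd wt t (Hg.rs s t) fun q z => γ t q z (Hd e)) I → I = 0
  mh : ∀ t ∈ O, Hol w m t
  mean : ∀ t ∈ O, ∀ I I', FibItg g t (wd wt t (Hg.rs s t) (Hg.rs s' t)) I →
    FibItg g t (wd wt t (Hg.rs s t) (Hg.rs s t)) I' → I = m t * I'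

end rd

/-- the residues `s i` of the forms `t i` on the strata `Z` of depth `k` -/
structure Rd {w d e : ℕ} {B : Bs w} (C : Et B d 1) (k : ℕ) (Z : Mf (w + e)) (g : Z.X → B.W.X)
    (wt : Z.X → ℝ) (s : B.l.ι → PC w e Z.X B.W.X → Cm w × Cm e → ℂ) : Prop where
  fam : ∃ ω₀, Fam w e ω₀ g C.Qᶜ
  pos : ∀ x, 0 < wt x
  lc : ∀ x, ∀ᶠ y in 𝓝 x, wt y = wt x
  hol : ∀ i, RelHol g (B.l.U i \ C.Q) (s i)
  chg : ∀ i j q x, IsPC g q → x ∈ q.2.source → g x ∈ B.l.U i → g x ∈ B.l.U j → g x ∉ C.Q →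
    s j q (q.2 x) = B.l.g i j (g x) * s i q (q.2 x)
  nrm : ∀ i, ∀ y ∈ B.l.U i, y ∉ C.Q → ∀ I, FibItg g y (wd wt y (Hg.rs (s i) y) (Hg.rs (s i) y)) I →
    0 < I.re ∧ Tendsto (fun ε : ℝ => ε ^ k * (C.J i ε y).toReal) (𝓝[>] 0) (𝓝 I.re)
  spl : ∃ S, Thin w S ∧ ∀ i, ∀ y ∈ B.l.U i, y ∉ C.Q → y ∉ S → ∀ σ, FibHol g y σ →
    ∃ O s' Γ γ m, O ⊆ B.l.U i \ C.Q ∧ Spl g wt (s i) y σ O s' Γ γ m

/-- (ASM) -/
def StAsm : Prop := ForC fun w _ B C => ∀ (e k : ℕ) (Z : Mf (w + e)) (g : Z.X → B.W.X) wt s,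
  Rd C k Z g wt s → Lv C

/-! ### Ladders -/

section lad

variable {κ : Type} [Fintype κ] [LinearOrder κ]

/-- the line bundle `F` is trivial -/
structure Tri {V : Type} {n : ℕ} (L : Lad κ V n) : Prop where
  φ : ∀ m (c : (L.K m).I), ∀ z ∈ ((L.K m).e c).target, (L.K m).φ c z = 0
  a : ∀ m (c c' : (L.K m).I), ∀ y ∈ ((L.K m).e c).source, y ∈ ((L.K m).e c').source →
    (L.K m).a c c' ((L.K m).e c y) = 1

/-- `L` is the ladder of the strata of `D`; the frame `β` of `K + D` is `fr β e dz_e` -/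
structure Geo {n : ℕ} {V : Mf n} (L : Lad κ V.X n) (D : κ → Set V.X)
    (fr : L.B → Chart n V.X → V.X → ℂ) : Prop where
  tri : Tri L
  kah : V.Kah
  snc : Snc n D
  hol : ∀ m, HolM m n (L.pt (m := m))
  imm : ∀ m y, Imm m n (L.pt (m := m)) y
  inj : ∀ m (y y' : (L.Y m).X), L.pt y = L.pt y' → L.lab y = L.lab y' → y = y'
  mem : ∀ m (y : (L.Y m).X), L.pt y ∈ St D (L.lab y)
  srj : ∀ m x I, x ∈ St D I → I.card + m = n → ∃ y : (L.Y m).X, L.pt y = x ∧ L.lab y = I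
  co : ∀ m (c : (L.K m).I), ∀ y ∈ ((L.K m).e c).source, ∀ l, (l ∈ L.lab y → L.co c l = none) ∧
    (l ∉ L.lab y → (L.pt y ∈ D l ↔ zt (L.co c l) ((L.K m).e c y) = 0))
  lb : IsLB n (⟨L.B, L.U, L.G⟩ : Bd V.X)
  frB : ∀ β β' e, ∀ x ∈ off D, x ∈ L.U β → x ∈ L.U β' → At e x → fr β' e x = L.G β β' x * fr β e x
  frC : ∀ β e e', ∀ x ∈ off D, x ∈ L.U β → At e x → At e' x →
    fr β e x = (jacM e e' x).det * fr β e' x
  frU : ∀ β e, ∀ x ∈ L.U β, At e x → ∀ ζ : κ → V.X → ℂ, (∀ l, LEq n (D l) x (ζ l)) →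
    ∃ u, Hol n u x ∧ u x ≠ 0 ∧ ∀ᶠ y in 𝓝 x, y ∈ off D → fr β e y * ∏ l, ζ l y = u y
  top : ∀ (c : (L.K n).I) e, ∀ y ∈ ((L.K n).e c).source, At e (L.pt y) → L.pt y ∈ off D →
    L.ε c / L.pr c ((L.K n).e c y) = (dfM L.pt ((L.K n).e c) e y).det * fr (L.bs c) e (L.pt y)
  prod : ∀ m (z : (L.Y m).X) (α : Type) [Fintype α] (h : α → V.X → ℂ) (o : α → Fin m)
    (ζ : κ → V.X → ℂ), Function.Injective o → (∀ l, LEq n (D l) (L.pt z) (ζ l)) →
    Ind n (Sum.elim (fun l : {l // L.pt z ∈ D l} => ζ l) h) (L.pt z) → ∀ O ∈ 𝓝 (L.pt z),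
    ∃ c : (L.K m).I, z ∈ ((L.K m).e c).source ∧ (∀ l a, L.co c l ≠ some (o a)) ∧
      (∀ l k, L.co c l = some k → (L.K m).e c z k = 0) ∧
      ∀ y ∈ ((L.K m).e c).source, L.pt y ∈ O ∧ ∀ a, (L.K m).e c y (o a) = h a (L.pt y)

/-- holomorphic numerators on the open set `O` -/
structure HolN {n : ℕ} {V : Mf n} (L : Lad κ V.X n) (O : Set V.X) (b : L.B → V.X → ℂ) : Prop where
  hol : ∀ β, ∀ x ∈ O, x ∈ L.U β → Hol n (b β) x
  chg : L.Chg O b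

variable {w d : ℕ} {V : Mf (w + d)} {W : Mf w} (L : Lad κ V.X (w + d)) (f : V.X → W.X)
  (χ : Chart w W.X)

/-- the map from the strata to the base -/
def gm (m : ℕ) (z : (L.Y (w + m)).X) : W.X := f (L.pt z)

/-- product charts -/
structure Pc {m : ℕ} (c : (L.K (w + m)).I) : Prop where
  fst : ∀ z ∈ ((L.K (w + m)).e c).source, gm L f m z ∈ χ.source ∧
    ∀ a, (L.K (w + m)).e c z (Fin.castAdd m a) = χ (gm L f m z) a
  co : ∀ l k, L.co c l = some k → w ≤ (k : ℕ)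

/-- the chart `c` as a product chart -/
def pq {m : ℕ} (c : (L.K (w + m)).I) : PC w m (L.Y (w + m)).X W.X :=
  (χ, ((L.K (w + m)).e c).transHomeomorph (Fin.appendHomeomorph w m).symm)

/-- the logarithmic form with the numerator `b` on the strata, in the charts of the atlas -/
def tz {n : ℕ} {V : Type} (L : Lad κ V n) (m : ℕ) (b : L.B → V → ℂ) (e : Chart m (L.Y m).X)
    (z : (L.Y m).X) : ℂ :=
  (jacM e ((L.K m).e ((L.K m).ix z)) z).det *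
    L.fm (L.nm m b) ((L.K m).ix z) ((L.K m).e ((L.K m).ix z) z)

/-- the relative form `± tz / dχ` -/
def rel (m : ℕ) (b : L.B → V.X → ℂ) (q : PC w m (L.Y (w + m)).X W.X) (v : Cm w × Cm m) : ℂ :=
  (-1) ^ (w * m) * rl 1 χ (gm L f m) (tz L (w + m) b) q (q.2.symm v)

/-- the ladder of the fibre over `y` -/
structure Slc (y : W.X) : Type 1 where
  F : Lad κ V.X d
  j : ∀ {m}, (F.Y m).X → (L.Y (w + m)).X
  par : ∀ {m}, (F.K m).I → (L.K (w + m)).I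
  bb : F.B ≃ L.B
  at' : At χ y
  tri : Tri F
  U : ∀ β, F.U β = L.U (bb β)
  G : ∀ β β', F.G β β' = L.G (bb β) (bb β')
  emb : ∀ m, Topology.IsEmbedding (j (m := m))
  rng : ∀ m, range (j (m := m)) = gm L f m ⁻¹' {y}
  pt : ∀ m (z : (F.Y m).X), L.pt (j z) = F.pt z
  lab : ∀ m (z : (F.Y m).X), L.lab (j z) = F.lab z
  up : ∀ m (z : (F.Y m).X) i (h : i ∈ F.lab z) (h' : i ∈ L.lab (j z)), j (F.up z h) = L.up (j z) h'
  pc : ∀ m (c : (F.K m).I), Pc L f χ (par c)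
  all : ∀ m (c : (L.K (w + m)).I), Pc L f χ c → (∃ z ∈ ((L.K (w + m)).e c).source,
    gm L f m z = y ∧ ∀ l k, L.co c l = some k → (L.K (w + m)).e c z k = 0) →
    ∃ c' : (F.K m).I, par c' = c
  src : ∀ m (c : (F.K m).I), ((F.K m).e c).source = j ⁻¹' ((L.K (w + m)).e (par c)).source
  tgt : ∀ m (c : (F.K m).I),
    ((F.K m).e c).target = {v | Fin.append (χ y) v ∈ ((L.K (w + m)).e (par c)).target}
  val : ∀ m (c : (F.K m).I), ∀ z ∈ ((F.K m).e c).source,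
    (L.K (w + m)).e (par c) (j z) = Fin.append (χ y) ((F.K m).e c z)
  bs : ∀ m (c : (F.K m).I), bb (F.bs c) = L.bs (par c)
  co : ∀ m (c : (F.K m).I) l, L.co (par c) l = (F.co c l).map (Fin.natAdd w)
  ε : ∀ m (c : (F.K m).I), F.ε c = (-1) ^ (w * m) * L.ε (par c)

variable {L f χ} {y : W.X} (S : Slc L f χ y)

/-- restriction of numerators to the fibre -/
def Slc.rb (b : L.B → V.X → ℂ) : S.F.B → V.X → ℂ := fun β => b (S.bb β)

/-- `a` is `σ` in the slices -/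
def Slc.Is {m : ℕ} {E : Type} (a : (S.F.K m).I → Cm m → E)
    (σ : PC w m (L.Y (w + m)).X W.X → Cm m → E) : Prop :=
  ∀ c, ∀ v ∈ ((S.F.K m).e c).target, σ (pq L χ (S.par c)) v = a c v

end lad

/-- multiplication by a function -/
def mu {m : ℕ} {M : Type} [TopologicalSpace M] [MeasurableSpace M] (K : KA m M) (u : M → ℝ)
    (a : Sc K) : Sc K := fun c z => (u ((K.e c).symm z) : ℂ) * a c z

/-- the density `ρ^ε b conj b'` on the top stratum -/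
def dρ {κ V : Type} [Fintype κ] [LinearOrder κ] {n : ℕ} (L : Lad κ V n) (ρ : V → ℝ) (ε : ℝ)
    (b b' : L.B → V → ℂ) (y : (L.Y n).X) : ℂ :=
  (ρ (L.pt y) ^ ε : ℝ) * dS (L.K n) (L.fm (L.nm n b)) (L.fm (L.nm n b')) y

/-- `ρ` is comparable with `u ∏ |z l| ^ r l`, where `u` is positive off `T` -/
structure Wt {κ V : Type} [Fintype κ] [LinearOrder κ] {n : ℕ} (L : Lad κ V n) (r : κ → ℝ)
    (ρ : V → ℝ) (T : Set V) : Prop where
  pos : ∀ l, 0 < r l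
  inj : Function.Injective (L.pt (m := n))
  cont : Continuous fun y : (L.Y n).X => ρ (L.pt y)
  ae : ∀ m, ∀ᵐ y ∂(L.K m).μ, L.pt y ∉ T
  cpb : ∀ y : (L.Y n).X, ∃ (c : (L.K n).I) (u : (L.Y n).X → ℝ), y ∈ ((L.K n).e c).source ∧
    (∀ᶠ y' in 𝓝 y, ContinuousAt u y' ∧ 0 ≤ u y' ∧ (L.pt y' ∉ T → 0 < u y')) ∧
    Cpb (𝓝 y) (fun y' => ρ (L.pt y')) fun y' => u y' * ∏ l, ‖zt (L.co c l) ((L.K n).e c y')‖ ^ r l

/-- the weight of a stratum -/
def wI {κ : Type} (r : κ → ℝ) (I : Finset κ) : ℝ := ∏ l ∈ I, 2 * Real.pi / r l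

/-! ### The data -/

open Classical in
/-- the polar divisors -/
def pol {κ X : Type} (G : κ → Set X) (a : κ → ℤ) (b : κ → ℕ) (l : κ) : Set X :=
  if a l = -1 ∧ 0 < b l then G l else ∅

/-- the other divisors -/
def oth {κ X : Type} (G : κ → Set X) (a : κ → ℤ) (b : κ → ℕ) : Set X :=
  {x | ∃ l, ¬ (a l = -1 ∧ 0 < b l) ∧ x ∈ G l}

/-- the cover, the ladder of its polar divisors, the numerators of the forms, the depth -/
structure Dt {w d : ℕ} {B : Bs w} (C : Et B d 1) [LinearOrder C.κ] : Type 1 where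
  a : C.κ → ℤ
  b : C.κ → ℕ
  L : Lad C.κ C.X.X (w + d)
  fr : L.B → Chart (w + d) C.X.X → C.X.X → ℂ
  lg : Lg C
  ord : ∀ i c x, C.g x ∈ B.l.U i → At c x → OrdAt (w + d) C.G a (C.t i c) x
  cpg : ∀ x (ζ : C.κ → C.X.X → ℂ), (∀ l, LEq (w + d) (C.G l) x (ζ l)) →
    Cpb (𝓝 x) C.ρ fun y => ∏ l, ‖ζ l y‖ ^ b l
  geo : Geo L (pol C.G a b) fr

namespace Dt

variable {w d : ℕ} {B : Bs w} {C : Et B d 1} [LinearOrder C.κ] (A : Dt C)

/-- only simple poles over the complement of `Q` -/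
def Or : Prop := ∀ l, ∀ x ∈ C.G l, C.g x ∉ C.Q → (A.a l = -1 ∧ 0 < A.b l) ∨ 0 ≤ A.a l

/-- the numerators of the `t i` -/
structure Lam (lam : B.l.ι → A.L.B → C.X.X → ℂ) : Prop where
  hol : ∀ i, HolN A.L (C.g ⁻¹' (B.l.U i \ C.Q)) (lam i)
  eq : ∀ i β c, ∀ x ∈ off C.G, C.g x ∈ B.l.U i \ C.Q → x ∈ A.L.U β → At c x →
    C.t i c x = lam i β x * A.fr β c x
  ne : ∀ i β x, C.g x ∈ B.l.U i \ C.Q → x ∈ A.L.U β → x ∉ oth C.G A.a A.b → lam i β x ≠ 0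
  chg : ∀ i j β x, C.g x ∈ B.l.U i \ C.Q → C.g x ∈ B.l.U j → x ∈ A.L.U β →
    lam j β x = B.l.g i j (C.g x) * (jacM (B.ch i) (B.ch j) (C.g x)).det * lam i β x

/-- the deepest strata over the complement of `Q` have fibres of dimension `e` -/
structure Dep (e k : ℕ) : Prop where
  add : e + k = d
  emp : ∀ m < e, ∀ z, gm A.L C.g m z ∈ C.Q
  fam : ∀ m, e ≤ m → m ≤ d → ∃ ω₀, Fam w m ω₀ (gm A.L C.g m) C.Qᶜ
  nb : ∀ z, gm A.L C.g e z ∉ C.Q → ∀ c, z ∈ ((A.L.K (w + e)).e c).source →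
    A.L.pr c ((A.L.K (w + e)).e c z) ≠ 0

/-- the exponents -/
def r (l : C.κ) : ℝ := max (A.b l) 1

open Classical in
/-- the quotient of two sections -/
def quo (b b' : A.L.B → C.X.X → ℂ) (x : C.X.X) : ℂ :=
  if h : ∃ β, x ∈ A.L.U β then b h.choose x / b' h.choose x else 0

end Dt

/-- a statement on the data -/
def ForA (P : ∀ (w d : ℕ) (B : Bs w) (C : Et B d 1) [LinearOrder C.κ], Dt C → Prop) : Prop :=
  ∀ (w d : ℕ) (B : Bs w) (C : Et B d 1) [LinearOrder C.κ] (A : Dt C), P w d B C A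

/-- a statement on a ladder over a base -/
def ForG (P : ∀ (κ : Type) [Fintype κ] [LinearOrder κ] (w d : ℕ) (V : Mf (w + d)) (W : Mf w)
    (L : Lad κ V.X (w + d)) (_ : κ → Set V.X) (_ : L.B → Chart (w + d) V.X → V.X → ℂ),
    (V.X → W.X) → Prop) : Prop :=
  ∀ (κ : Type) [Fintype κ] [LinearOrder κ] (w d : ℕ) (V : Mf (w + d)) (W : Mf w)
    (L : Lad κ V.X (w + d)) D fr (f : V.X → W.X), Geo L D fr → HolM (w + d) w f →
    P κ w d V W L D fr f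

end Vale.Agent.P281Z.Lv
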