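import Vale.Agent.P284.H286.K.Meas
import Vale.Agent.P281Z.Lg.Defs

/-!
# P281Z, block LV, row FIB: slices of charts and of Kähler atlases
-/

open scoped Manifold ContDiff Topology ENNReal Matrix ComplexConjugate ComplexOrder
open Set Filter MeasureTheory
open Vale.Agent.P272.K Vale.Agent.P284.H608.K Vale.Agent.P281Z.Lg

noncomputable section

namespace Vale.Agent.P281Z.Lv.Fb

variable {w m : ℕ}

theorem sa_nat (k : Fin (m + 1)) (k' : Fin m) :
    Fin.succAbove (n := w + m) (Fin.natAdd w k) (Fin.natAdd w k') =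
      Fin.natAdd w (k.succAbove k') := by
  apply Fin.ext
  simp only [Fin.succAbove, Fin.lt_def, Fin.val_castSucc, Fin.val_natAdd, add_lt_add_iff_left]
  split_ifs <;> simp [add_assoc]

theorem sa_cast (k : Fin (m + 1)) (a : Fin w) :
    Fin.succAbove (n := w + m) (Fin.natAdd w k) (Fin.castAdd m a) = Fin.castAdd (m + 1) a := by
  apply Fin.ext
  rw [Fin.succAbove_of_castSucc_lt]
  · rfl
  · simp only [Fin.lt_def, Fin.val_castSucc, Fin.val_natAdd, Fin.val_castAdd]
    omega

theorem append_ins (t : Cm w) (k : Fin (m + 1)) (v : Cm m) :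
    Fin.append t (ins k v) = ins (m := w + m) (Fin.natAdd w k) (Fin.append t v) := by
  funext i
  refine Fin.addCases (fun a => ?_) (fun j => ?_) i
  · rw [Fin.append_left, ← sa_cast k a]
    simp only [ins, Fin.insertNth_apply_succAbove, Fin.append_left]
  · rw [Fin.append_right]
    refine Fin.succAboveCases k ?_ (fun j' => ?_) j
    · simp only [ins, Fin.insertNth_apply_same]
    · rw [← sa_nat]
      simp only [ins, Fin.insertNth_apply_succAbove, Fin.append_right]

/-- the coordinate in the slice -/
def dn (w : ℕ) {m : ℕ} (o : Option (Fin (w + m))) : Option (Fin m) :=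
  o.bind fun k => if h : w ≤ (k : ℕ) then some ⟨k - w, by omega⟩ else none

theorem dn_some {o : Option (Fin (w + m))} {k : Fin m} :
    dn w o = some k ↔ o = some (Fin.natAdd w k) := by
  rcases o with _ | k'
  · simp [dn]
  · simp only [dn, Option.bind_some, Option.some.injEq]
    split_ifs with h
    · simp only [Option.some.injEq, Fin.ext_iff, Fin.val_natAdd]
      omega
    · simp only [Fin.ext_iff, Fin.val_natAdd, false_iff]
      omega

theorem dn_map {o : Option (Fin (w + m))} (h : ∀ k, o = some k → w ≤ (k : ℕ)) :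
    o = (dn w o).map (Fin.natAdd w) := by
  rcases o with _ | k
  · rfl
  · have h1 := h k rfl
    have h2 : dn w (some k) = some ⟨k - w, by omega⟩ := dn_some.2 (by
      simp only [Option.some.injEq, Fin.ext_iff, Fin.val_natAdd]
      omega)
    rw [h2]
    simp only [Option.map_some, Option.some.injEq, Fin.ext_iff, Fin.val_natAdd]
    omega

theorem zt_dn {o : Option (Fin (w + m))} (h : ∀ k, o = some k → w ≤ (k : ℕ)) (t : Cm w)
    (v : Cm m) : zt (dn w o) v = zt o (Fin.append t v) := by
  conv_rhs => rw [dn_map h]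
  rcases dn w o with _ | k
  · rfl
  · simp [zt]

/-- the inclusion of the second factor -/
def inr (w m : ℕ) : Cm m →L[ℂ] Cm (w + m) :=
  ContinuousLinearMap.pi fun i => Fin.addCases (fun _ => 0) (fun j => ContinuousLinearMap.proj j) i

theorem append_eq (t : Cm w) (v : Cm m) : Fin.append t v = Fin.append t 0 + inr w m v := by
  funext i
  refine Fin.addCases (fun a => ?_) (fun j => ?_) i <;> simp [inr]

theorem inr_single (i : Fin m) (c : ℂ) :
    inr w m (Pi.single i c) = Pi.single (Fin.natAdd w i) c := by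
  funext j
  refine Fin.addCases (fun a => ?_) (fun j => ?_) j
  · rw [Pi.single_eq_of_ne (by simp only [ne_eq, Fin.ext_iff, Fin.val_natAdd, Fin.val_castAdd]; omega)]
    simp [inr]
  · simp [inr, Pi.single_apply]

theorem an_append (t : Cm w) (v : Cm m) : AnalyticAt ℂ (fun v : Cm m => Fin.append t v) v := by
  rw [show (fun v : Cm m => Fin.append t v) = fun v => Fin.append t 0 + inr w m v from
    funext (append_eq t)]
  exact analyticAt_const.add ((inr w m).analyticAt v)

theorem cd_append (t : Cm w) (v : Cm m) : ContDiffAt ℝ ∞ (fun v : Cm m => Fin.append t v) v :=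
  ((an_append t v).contDiffAt (n := ∞)).restrict_scalars ℝ

theorem dz_append (t : Cm w) {v : Cm m} {F : Cm (w + m) → ℂ}
    (hF : DifferentiableAt ℝ F (Fin.append t v)) (i : Fin m) :
    dz i (fun v => F (Fin.append t v)) v = dz (Fin.natAdd w i) F (Fin.append t v) := by
  have h1 : HasFDerivAt (fun v : Cm m => Fin.append t v) ((inr w m).restrictScalars ℝ) v := by
    rw [show (fun v : Cm m => Fin.append t v) = fun v => Fin.append t 0 + inr w m v from
      funext (append_eq t)]
    exact ((inr w m).restrictScalars ℝ).hasFDerivAt.const_add _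
  have h2 : HasFDerivAt (fun v => F (Fin.append t v)) _ v := hF.hasFDerivAt.comp v h1
  simp only [dz, h2.fderiv, ContinuousLinearMap.comp_apply,
    ContinuousLinearMap.coe_restrictScalars', inr_single]

theorem dz_coord {n : ℕ} (i p : Fin n) (z : Cm n) :
    dz i (fun z => z p) z = (1 : Matrix (Fin n) (Fin n) ℂ) p i := by
  have h : HasFDerivAt (fun z : Cm n => z p) (ContinuousLinearMap.proj (R := ℝ) p) z :=
    (ContinuousLinearMap.proj (R := ℝ) (φ := fun _ : Fin n => ℂ) p).hasFDerivAt
  simp only [dz, h.fderiv, ContinuousLinearMap.proj_apply, Pi.single_apply, Matrix.one_apply]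
  split_ifs
  · rw [Complex.I_mul_I]
    norm_num
  · simp

section chart

variable {Z : Type} [TopologicalSpace Z] {S : Set Z} {t : Cm w}

/-- in the chart `e` the set `S` is the slice over `t` -/
def Cut (S : Set Z) (t : Cm w) (e : Chart (w + m) Z) : Prop :=
  ∀ z ∈ e.source, z ∈ S ↔ ∀ a, e z (Fin.castAdd m a) = t a

theorem Cut.mem {e : Chart (w + m) Z} (H : Cut S t e) {v : Cm m} (h : Fin.append t v ∈ e.target) :
    e.symm (Fin.append t v) ∈ S :=
  (H _ (e.map_target h)).2 fun a => by rw [e.right_inv h, Fin.append_left]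

theorem Cut.val {e : Chart (w + m) Z} (H : Cut S t e) {z : S} (h : z.1 ∈ e.source) :
    e z = Fin.append t fun k => e z (Fin.natAdd w k) := by
  funext i
  refine Fin.addCases (fun a => ?_) (fun j => ?_) i
  · rw [Fin.append_left, (H _ h).1 z.2]
  · rw [Fin.append_right]

open Classical in
/-- the slice of a chart -/
def Cut.ch {e : Chart (w + m) Z} (H : Cut S t e) (z₀ : S) : Chart m S where
  toFun z k := e z (Fin.natAdd w k)
  invFun v := if h : Fin.append t v ∈ e.target then ⟨_, H.mem h⟩ else z₀
  source := Subtype.val ⁻¹' e.source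
  target := {v | Fin.append t v ∈ e.target}
  map_source' z hz := by
    change Fin.append t _ ∈ e.target
    rw [← H.val hz]
    exact e.map_source hz
  map_target' v hv := by
    rw [dif_pos (show Fin.append t v ∈ e.target from hv)]
    exact e.map_target hv
  left_inv' z hz := by
    have h1 : Fin.append t (fun k => e z (Fin.natAdd w k)) ∈ e.target :=
      H.val hz ▸ e.map_source hz
    rw [dif_pos h1]
    refine Subtype.ext ?_
    change e.symm _ = _
    rw [← H.val hz, e.left_inv hz]
  right_inv' v hv := by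
    rw [dif_pos (show Fin.append t v ∈ e.target from hv)]
    funext k
    change e (e.symm _) _ = _
    rw [e.right_inv hv, Fin.append_right]
  open_source := e.open_source.preimage continuous_subtype_val
  open_target := e.open_target.preimage
    (continuous_iff_continuousAt.2 fun v => (an_append t v).continuousAt)
  continuousOn_toFun := continuousOn_pi.2 fun k => (continuous_apply _).comp_continuousOn
    (e.continuousOn.comp continuous_subtype_val.continuousOn fun _ h => h)
  continuousOn_invFun := by
    rw [Topology.IsInducing.subtypeVal.continuousOn_iff]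
    refine (e.continuousOn_symm.comp (fun v _ => (an_append t v).continuousAt.continuousWithinAt)
      fun _ h => h).congr fun v hv => ?_
    change Subtype.val (dite _ _ _) = _
    rw [dif_pos (show Fin.append t v ∈ e.target from hv)]
    rfl

variable {e e' : Chart (w + m) Z} (H : Cut S t e) (H' : Cut S t e') (z₀ z₁ : S)

open Classical in
theorem Cut.symm_eq {v : Cm m} (h : v ∈ (H.ch z₀).target) :
    ((H.ch z₀).symm v : Z) = e.symm (Fin.append t v) := by
  change Subtype.val (dite _ _ _) = _
  rw [dif_pos (show Fin.append t v ∈ e.target from h)]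

theorem Cut.symm_ev {v : Cm m} (h : v ∈ (H.ch z₀).target) :
    ∀ᶠ u in 𝓝 v, ((H.ch z₀).symm u : Z) = e.symm (Fin.append t u) := by
  filter_upwards [(H.ch z₀).open_target.mem_nhds h] with u hu using H.symm_eq z₀ hu

theorem Cut.val' {z : S} (h : z.1 ∈ e.source) : e z = Fin.append t (H.ch z₀ z) := H.val h

theorem Cut.an {E : Type} [NormedAddCommGroup E] [NormedSpace ℂ E] {F : Z → E} {v : Cm m}
    (h : v ∈ (H.ch z₀).target) (hF : AnalyticAt ℂ (fun z => F (e.symm z)) (Fin.append t v)) :
    AnalyticAt ℂ (fun u => F ((H.ch z₀).symm u)) v := by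
  refine (hF.fun_comp (f := fun u => Fin.append t u) (an_append t v)).congr ?_
  filter_upwards [H.symm_ev z₀ h] with u hu
  rw [hu]

theorem Cut.jac {x : S} (h : x.1 ∈ e.source)
    (ha : AnalyticAt ℂ (fun z => e' (e.symm z)) (e x)) (p i : Fin m) :
    jacM (H.ch z₀) (H'.ch z₁) x p i = jacM e e' x (Fin.natAdd w p) (Fin.natAdd w i) := by
  rw [H.val' z₀ h] at ha
  have h1 : DifferentiableAt ℝ (fun z => e' (e.symm z) (Fin.natAdd w p))
      (Fin.append t (H.ch z₀ x)) :=
    differentiableAt_pi.1 (ha.differentiableAt.restrictScalars ℝ) _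
  simp only [jacM, Matrix.of_apply]
  rw [H.val' z₀ h, ← dz_append t h1]
  have h2 : (fun z => H'.ch z₁ ((H.ch z₀).symm z) p) =ᶠ[𝓝 (H.ch z₀ x)]
      fun v => e' (e.symm (Fin.append t v)) (Fin.natAdd w p) := by
    filter_upwards [H.symm_ev z₀ ((H.ch z₀).map_source h)] with u hu
    rw [← hu]
    rfl
  simp only [dz, h2.fderiv_eq]

theorem jac_fst {x : Z} (h : x ∈ e.source) (h' : x ∈ e'.source)
    (hf : ∀ z ∈ e.source, z ∈ e'.source → ∀ a, e' z (Fin.castAdd m a) = e z (Fin.castAdd m a))
    (a : Fin w) (i : Fin (w + m)) :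
    jacM e e' x (Fin.castAdd m a) i = (1 : Matrix _ _ ℂ) (Fin.castAdd m a) i := by
  have h1 : e.symm (e x) ∈ e'.source := by rwa [e.left_inv h]
  have h2 : (fun z => e' (e.symm z) (Fin.castAdd m a)) =ᶠ[𝓝 (e x)] fun z => z (Fin.castAdd m a) := by
    filter_upwards [e.open_target.mem_nhds (e.map_source h),
      (e.continuousAt_symm (e.map_source h)).eventually (e'.open_source.mem_nhds h1)] with u k1 k2
    rw [hf _ (e.map_target k1) k2, e.right_inv k1]
  rw [← dz_coord i _ (e x)]
  simp only [jacM, Matrix.of_apply, dz, h2.fderiv_eq]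

end chart

section blocks

variable {J : Matrix (Fin (w + m)) (Fin (w + m)) ℂ}
  (hJ : ∀ a i, J (Fin.castAdd m a) i = (1 : Matrix _ _ ℂ) (Fin.castAdd m a) i)

include hJ

theorem blk_zero (a : Fin w) (i : Fin m) : J (Fin.castAdd m a) (Fin.natAdd w i) = 0 := by
  rw [hJ, Matrix.one_apply_ne]
  simp only [ne_eq, Fin.ext_iff, Fin.val_natAdd, Fin.val_castAdd]
  omega

theorem blk_det : (J.submatrix (Fin.natAdd w) (Fin.natAdd w)).det = J.det := by
  rw [← Matrix.det_submatrix_equiv_self finSumFinEquiv J]
  have h : J.submatrix finSumFinEquiv finSumFinEquiv = Matrix.fromBlocks 1 0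
      (J.submatrix (Fin.natAdd w) (Fin.castAdd m)) (J.submatrix (Fin.natAdd w) (Fin.natAdd w)) := by
    ext (a | a) (b | b)
    · simp [hJ, Matrix.one_apply]
    · simp [blk_zero hJ]
    · simp
    · simp
  rw [h, Matrix.det_fromBlocks_zero₁₂, Matrix.det_one, one_mul]

theorem blk_conj (A : Matrix (Fin (w + m)) (Fin (w + m)) ℂ) :
    (J.transpose * A * J.map (starRingEnd ℂ)).submatrix (Fin.natAdd w) (Fin.natAdd w) =
      (J.submatrix (Fin.natAdd w) (Fin.natAdd w)).transpose *
        A.submatrix (Fin.natAdd w) (Fin.natAdd w) *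
        (J.submatrix (Fin.natAdd w) (Fin.natAdd w)).map (starRingEnd ℂ) := by
  ext i j
  simp [Matrix.mul_apply, Fin.sum_univ_add, blk_zero hJ]

end blocks

end Vale.Agent.P281Z.Lv.Fb
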