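import Vale.Agent.P281Z.Lv.GamA
import Vale.Agent.P281Z.Hg.Ehr

/-!
# P281Z, block LV, row GAM: restrictions of holomorphic forms extend to closed forms
-/

open scoped Manifold ContDiff Topology Matrix
open Set Filter
open Vale.Agent.P272.K Vale.Agent.P285.H281.FD Vale.Agent.P284.H608.K
open Vale.Agent.P299.IX (lam)
open Vale.Agent.P299.IX.Fock (ev)
open Vale.Agent.P281Z.Hg (PC IsPC Rst TotCl Fo Rw Hd lr jc jt Triv f1a k1b')
open Vale.Agent.P281Z.Ha Vale.Agent.P281Z.Lg Vale.Agent.P281Z.Pk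

noncomputable section

namespace Vale.Agent.P281Z.Lv

namespace Gm

variable {κ : Type} [Fintype κ] [LinearOrder κ]

theorem tk {V : Type} {n : ℕ} {L : Lad κ V n} (h : Tri L) (m : ℕ) : TK (L.K m) :=
  ⟨L.atl m, h.φ m, h.a m⟩

/-- the coefficients -/
def cf {V : Type} {n m : ℕ} (L : Lad κ V n) (u : Finset κ → ℝ) (i : κ) (x : (L.Y m).X) : ℂ :=
  if i ∈ L.lab x then u (L.lab x) * sg ((L.lab x).erase i) i else 0

variable {w d m : ℕ} {V : Mf (w + d)} {W : Mf w} {L : Lad κ V.X (w + d)} {f : V.X → W.X}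
  {χ : Chart w W.X} {y : W.X} (S : Slc L f χ y)

theorem sum_eq (hP : PBK) (x0 : (L.Y (w + m + 1)).X) (u : Finset κ → ℝ)
    {Γ₁ : Rw (w + m + 1) (L.Y (w + m + 1)).X (Fo (w + m + 1))}
    {Γ : κ → Rw (w + m) (L.Y (w + m)).X (Fo (w + m))}
    {Γ' : Rw (m + 1) (S.F.Y (m + 1)).X (Fo (m + 1))} {g : Vc (S.F.K (m + 1))}
    {c : (S.F.K m).I} {z : (S.F.Y m).X} (hz : z ∈ ((S.F.K m).e c).source)
    (h1 : ∀ i ∈ S.F.lab z, PbA (upi L x0 i) Γ₁ (Γ i) (S.j z))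
    (h2 : ∀ z', PbA (n' := w + m + 1) (M' := (L.Y (w + m + 1)).X) (S.j (m := m + 1)) Γ₁ Γ' z')
    {E : Type} [AddCommGroup E] [Module ℂ E] (Λ : Fo m →ₗ[ℂ] E) (a : E)
    (h3 : ∀ (c₀ : (S.F.K m).I) c₁ k v, z ∈ ((S.F.K m).e c₀).source →
      ∀ x ∈ ((S.F.K (m + 1)).e c₁).source, Λ (lam (jt ((S.F.K m).e c) ((S.F.K m).e c₀) z) *ᵥ
        (lr (jc (ins k) v) *ᵥ Γ' ((S.F.K (m + 1)).e c₁) ((S.F.K (m + 1)).e c₁ x))) =
      ((jacM ((S.F.K m).e c) ((S.F.K m).e c₀) z).det *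
        ((-1) ^ (k : ℕ) * g c₁ ((S.F.K (m + 1)).e c₁ x) k)) • a) :
    Λ (lr (jc (fun v => (Fin.append (χ y) v : Cm (w + m))) ((S.F.K m).e c z)) *ᵥ
      ∑ i, cf L u i (((L.K (w + m)).e (S.par c)).symm ((L.K (w + m)).e (S.par c) (S.j z))) •
        Γ i ((L.K (w + m)).e (S.par c)) ((L.K (w + m)).e (S.par c) (S.j z))) =
      mu _ (fun z => u (S.F.lab z)) (S.F.rs g) c ((S.F.K m).e c z) • a := by
  rw [mu, Lad.rs, if_pos (((S.F.K m).e c).map_source hz), ((S.F.K m).e c).left_inv hz,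
    ((L.K (w + m)).e (S.par c)).left_inv (j_src S hz), Lad.rp, Finset.mul_sum, Finset.sum_smul,
    Matrix.mulVec_sum, map_sum]
  refine Finset.sum_congr rfl fun i _ => ?_
  rw [cf, S.lab, Matrix.mulVec_smul, map_smul]
  by_cases hi : i ∈ S.F.lab z
  · obtain ⟨k, h, hz₀⟩ := S.F.ex_sl hi (ix_src _ _)
    rw [if_pos hi, dif_pos hi, key S hP x0 hz hi hz₀ (h1 i hi) (h2 _),
      h3 _ _ _ _ hz₀ _ (ix_src _ _), S.F.rt_sl g c z hi h, S.F.sl_ε m _ i k h z hz₀, ta,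
      S.tri.a m _ _ z hz hz₀, smul_smul]
    refine congrArg (· • a) ?_
    have h4 := S.F.eps _ ((S.F.K (m + 1)).ix (S.F.up z hi))
    generalize S.F.ε ((S.F.K (m + 1)).ix (S.F.up z hi)) = ε at h4 ⊢
    linear_combination (-(u (S.F.lab z) : ℂ) * sg ((S.F.lab z).erase i) i * (-1) ^ (k : ℕ) *
      (jacM ((S.F.K m).e c) ((S.F.K m).e (S.F.sl _ h)) z).det *
      g _ ((S.F.K (m + 1)).e _ (S.F.up z hi)) k) * h4
  · rw [if_neg hi, dif_neg hi, mul_zero, zero_smul, zero_smul]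

theorem rs_zero (hm : ¬m < d) (u : (S.F.Y m).X → ℝ) (g : Vc (S.F.K (m + 1))) (c : (S.F.K m).I)
    (v : Cm m) : mu _ u (S.F.rs g) c v = 0 := by
  rw [mu, Lad.rs]
  split_ifs with h
  · rw [Lad.rp, Finset.sum_eq_zero, mul_zero]
    refine fun i _ => dif_neg fun hi => ?_
    have h1 := S.F.card m (((S.F.K m).e c).symm v)
    have h2 := Finset.card_pos.2 ⟨i, hi⟩
    omega
  · exact mul_zero _

end Gm

open Gm

/-- (GAM) -/
theorem gam_of (hP : PBK) (hD : DICT) : StGam := by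
  intro κ _ _ w d V W L D fr f G hf U m χ y S u g hF hy hg N hN
  by_cases hm : m < d
  swap
  · refine ⟨interior N, 0, 0, isOpen_interior, mem_interior_iff_mem_nhds.2 hN, interior_subset,
      ⟨fun _ _ _ _ => contDiffAt_const, fun _ _ _ _ _ _ => (Matrix.mulVec_zero _).symm,
        fun _ _ _ _ => (Hg.k1a f1a Hg.f1b).const 0 _, fun _ _ _ _ => Matrix.mulVec_zero _⟩,
      fun _ _ _ _ _ _ _ _ _ => (Matrix.mulVec_zero _).symm, fun c v _ => ?_,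
      fun t _ S' => ⟨0, ⟨fun _ _ _ _ _ _ => by simp, fun _ _ _ => rfl⟩,
        fun _ _ _ => contDiffAt_const, fun _ _ _ => by simp [dz], fun c v _ => ?_⟩⟩
    · rw [rs_zero S hm, zero_smul]
      rfl
    · rw [rs_zero S' hm]
      rfl
  obtain ⟨ω₀, hF⟩ := hF hm
  obtain ⟨N', r, Φ, -, T⟩ := Hg.ehr w (m + 1) _ _ ω₀ _ U hF y hy
  obtain ⟨x0, hx0⟩ := hF.onto y hy
  have h0 : x0 ∈ range (S.j (m := m + 1)) := by rw [S.rng]; exact hx0
  have : Nonempty (S.F.Y (m + 1)).X := ⟨h0.choose⟩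
  have c0 := (G.gm_hol hf m).cont
  have c1 := (G.gm_hol hf (m + 1)).cont
  obtain ⟨Γ₀, a0, b0⟩ := hD.fo (tk S.tri (m + 1)) hg
  obtain ⟨Γ₁, a1, b1⟩ := hP.pb (φ := rho S r) (T.opn.preimage c1)
    (fun x hx => ⟨rho_sa S hP c1 T hx, mem_univ _⟩) a0
  have h1 : ∀ i, ∃ Γ : Rw (w + m) (L.Y (w + m)).X (Fo (w + m)),
      CF m ({x | i ∈ L.lab x} ∩ gm L f m ⁻¹' N') Γ ∧
      ∀ x ∈ {x | i ∈ L.lab x} ∩ gm L f m ⁻¹' N', PbA (upi L x0 i) Γ₁ Γ x := fun i => by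
    refine hP.pb (IsOpen.inter (isOpen_iff_mem_nhds.2 fun x hx => ?_) (T.opn.preimage c0))
      (fun x hx => ⟨upi_sa x0 hP hx.1, ?_⟩) a1
    · exact (L.lab_near x).mono fun x' h => show i ∈ L.lab x' from h.symm ▸ hx
    · rw [upi_eq x0 hx.1]
      exact show f (L.pt (L.up x hx.1)) ∈ N' from (L.up_pt _ x i hx.1).symm ▸ hx.2
  choose Γ a2 b2 using h1
  have a3 := hP.sum (O := gm L f m ⁻¹' (N' ∩ interior N)) (c := cf L u) a2
    (fun i x => (L.lab_near x).mono fun x' h => by rw [cf, cf, h])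
    fun i x hx h => ⟨not_not.1 fun h' => h (if_neg h'), hx.1⟩
  obtain ⟨γ, hγ⟩ := hP.rst (gm L f m) a3
  have hy' : y ∈ N' ∩ interior N := ⟨T.mem, mem_interior_iff_mem_nhds.2 hN⟩
  have b3 : ∀ t ∈ N', ∀ (S' : Slc L f χ t) z, ∀ i ∈ S'.F.lab z,
      PbA (upi L x0 i) Γ₁ (Γ i) (S'.j (m := m) z) := fun t ht S' z i hi =>
    b2 i _ ⟨show i ∈ L.lab _ by rw [S'.lab]; exact hi,
      show gm L f m _ ∈ N' by rw [j_gm]; exact ht⟩
  refine ⟨N' ∩ interior N, _, γ, T.opn.inter isOpen_interior, hy',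
    fun _ h => interior_subset h.2, ⟨a3.sm, a3.ch, a3.cl, a3.deg⟩, hγ, fun c v hv => ?_,
    fun t ht S' => ?_⟩
  · obtain ⟨z, hz, rfl⟩ := ((S.F.K m).e c).surjOn hv
    rw [rst_val S (hγ y hy') hz]
    refine sum_eq S hP x0 u (Γ' := Γ₀) hz (b3 y T.mem S z) (fun z' e e' h h' => ?_) LinearMap.id _
      fun c₀ c₁ k v h₀ x hx => ?_
    · have h2 : gm L f (m + 1) (S.j z') ∈ N' := by rw [j_gm]; exact T.mem
      have h3 : At e (rho S r (S.j z')) := by rw [rho_j S T]; exact h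
      have h4 := hP.comp (j_sa S hP z') (rho_sa S hP c1 T h2) h h' h3
      simp only [rho_j S T] at h4
      rw [b1 _ h2 e' e h' h3, Matrix.mulVec_mulVec, rho_j S T, ← f1a.lr_mul, ← h4]
      exact a0.ch e e z' h h (mem_univ _)
    · rw [b0 c₁ x hx, hD.ins_fo, Matrix.mulVec_smul, hD.top_ev (at_e S.F hz) (at_e S.F h₀),
        smul_smul, mul_comm]
      rfl
  · obtain ⟨Γ', a4, b4⟩ := hP.pb (φ := S'.j (m := m + 1)) isOpen_univ
      (fun z _ => ⟨j_sa S' hP z, show gm L f (m + 1) _ ∈ N' by rw [j_gm]; exact ht.1⟩) a1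
    obtain ⟨g', v1, v2, v3, v4⟩ := hD.vc (tk S'.tri (m + 1)) a4
    refine ⟨g', v1, v2, v3, fun c v hv => ?_⟩
    obtain ⟨z, hz, rfl⟩ := ((S'.F.K m).e c).surjOn hv
    refine (congrFun (rst_val S' (hγ t ht) hz) (Hd m)).trans ((sum_eq S' hP x0 u (Γ' := Γ') hz
      (b3 t ht.1 S' z) (fun z' => b4 z' (mem_univ _)) (LinearMap.proj (Hd m)) 1
      fun c₀ c₁ k v h₀ x hx => ?_).trans ((smul_eq_mul _ _).trans (mul_one _)))
    rw [LinearMap.proj_apply, hD.top (at_e S'.F hz) (at_e S'.F h₀), hD.ins,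
      v4 c₁ _ (((S'.F.K (m + 1)).e c₁).map_source hx), smul_eq_mul, mul_one]

end Vale.Agent.P281Z.Lv
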