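import Vale.Agent.P281Z.Lg.Defs
import Vale.Agent.P281Z.Hg.DH

/-!
# P281Z, block LV, row GAM: closed forms on open sets, the dictionary with vectors
-/

open scoped Manifold ContDiff Topology Matrix
open Set Filter
open Vale.Agent.P272.K Vale.Agent.P284.H608.K Vale.Agent.P299.IX Vale.Agent.P299.IX.Fock
open Vale.Agent.P281Z.Hg (PC IsPC Rst Fo Rw Hd hl lr jc jt dT ctr)

noncomputable section

namespace Vale.Agent.P281Z.Lv

section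

variable {n n' : ℕ} {M M' : Type} [TopologicalSpace M] [ChartedSpace (Cm n) M]
  [TopologicalSpace M'] [ChartedSpace (Cm n') M']

/-- `Γ` is a smooth closed form of degree `k` on `O` -/
structure CF (k : ℕ) (O : Set M) (Γ : Rw n M (Fo n)) : Prop where
  sm : ∀ e x, At e x → x ∈ O → ContDiffAt ℝ ∞ (Γ e) (e x)
  ch : ∀ e e' x, At e x → At e' x → x ∈ O → Γ e (e x) = lam (jt e e' x) *ᵥ Γ e' (e' x)
  cl : ∀ e x, At e x → x ∈ O → dT (Γ e) (e x) = 0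
  deg : ∀ e x, At e x → x ∈ O → dg k *ᵥ Γ e (e x) = Γ e (e x)

variable (n n') in
/-- `φ` is smooth at `x` -/
structure SA (φ : M → M') (x : M) : Prop where
  cont : ContinuousAt φ x
  sm : ∀ (e : Chart n M) (e' : Chart n' M'), At e x → At e' (φ x) →
    ContDiffAt ℝ ∞ (fun z => e' (φ (e.symm z))) (e x)

/-- at `x`, the form `Γ` is the pull back of `Γ'` -/
def PbA (φ : M → M') (Γ' : Rw n' M' (Fo n')) (Γ : Rw n M (Fo n)) (x : M) : Prop :=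
  ∀ e e', At e x → At e' (φ x) →
    Γ e (e x) = lr (jc (fun z => e' (φ (e.symm z))) (e x)) *ᵥ Γ' e' (e' (φ x))

end

/-- the contraction of `dz_1 ∧ … ∧ dz_n` with `g` -/
def fo {n : ℕ} (g : Cm n) : Fo n := ctr g *ᵥ ev (Hd n)

/-- the vector of a form -/
def vc {n : ℕ} (u : Fo n) : Cm n := fun b => (eps (hl b) *ᵥ u) (Hd n)

/-- (PBK) pull back of closed forms -/
structure PBK : Prop where
  one : ∀ {n n' : ℕ} {M : Mf n} {M' : Mf n'} {φ : M.X → M'.X} {x} (e : Chart n M.X)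
    (e' : Chart n' M'.X), ContinuousAt φ x → At e x → At e' (φ x) →
    ContDiffAt ℝ ∞ (fun z => e' (φ (e.symm z))) (e x) → SA n n' φ x
  comp : ∀ {n n' n'' : ℕ} {M : Mf n} {M' : Mf n'} {M'' : Mf n''} {φ : M.X → M'.X}
    {ψ : M'.X → M''.X} {x} {e : Chart n M.X} {e' : Chart n' M'.X} {e'' : Chart n'' M''.X},
    SA n n' φ x → SA n' n'' ψ (φ x) → At e x → At e' (φ x) → At e'' (ψ (φ x)) →
    jc (fun z => e'' (ψ (φ (e.symm z)))) (e x) =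
      jc (fun z => e' (φ (e.symm z))) (e x) * jc (fun z => e'' (ψ (e'.symm z))) (e' (φ x))
  pb : ∀ {n n' k : ℕ} {M : Mf n} {M' : Mf n'} {φ : M.X → M'.X} {O O'} {Γ' : Rw n' M'.X (Fo n')},
    IsOpen O → (∀ x ∈ O, SA n n' φ x ∧ φ x ∈ O') → CF k O' Γ' →
    ∃ Γ : Rw n M.X (Fo n), CF k O Γ ∧ ∀ x ∈ O, PbA φ Γ' Γ x
  sum : ∀ {n k : ℕ} {M : Mf n} {ι : Type} [Fintype ι] {O} {O' : ι → Set M.X}
    {Γ : ι → Rw n M.X (Fo n)} {c : ι → M.X → ℂ}, (∀ i, CF k (O' i) (Γ i)) →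
    (∀ i x, ∀ᶠ y in 𝓝 x, c i y = c i x) → (∀ i, ∀ x ∈ O, c i x ≠ 0 → x ∈ O' i) →
    CF k O fun e z => ∑ i, c i (e.symm z) • Γ i e z
  rst : ∀ {w m k : ℕ} {Z : Mf (w + m)} {W : Mf w} (g : Z.X → W.X) {O}
    {Γ : Rw (w + m) Z.X (Fo (w + m))}, CF k (g ⁻¹' O) Γ →
    ∃ γ : W.X → PC w m Z.X W.X → Cm m → Fo m, ∀ t ∈ O, Rst g t Γ (γ t)

/-- the charts of `K` are the atlas, and the bundle is trivial -/
structure TK {n : ℕ} {M : Mf n} [MeasurableSpace M.X] (K : KA n M.X) : Prop where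
  atl : ∀ e : Chart n M.X, e ∈ atlas (Cm n) M.X ↔ ∃ c, K.e c = e
  φ : ∀ c, ∀ z ∈ (K.e c).target, K.φ c z = 0
  a : ∀ c c', ∀ y ∈ (K.e c).source, y ∈ (K.e c').source → K.a c c' (K.e c y) = 1

/-- (DICT) forms and vectors -/
structure DICT : Prop where
  fo : ∀ {m : ℕ} {M : Mf (m + 1)} [MeasurableSpace M.X] {K : KA (m + 1) M.X} {g}, TK K →
    Ha.Gam K g → ∃ Γ : Rw (m + 1) M.X (Fo (m + 1)), CF m univ Γ ∧
      ∀ c, ∀ x ∈ (K.e c).source, Γ (K.e c) (K.e c x) = fo (g c (K.e c x))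
  vc : ∀ {n k : ℕ} {M : Mf n} [MeasurableSpace M.X] {K : KA n M.X} {Γ : Rw n M.X (Fo n)}, TK K →
    CF k univ Γ → ∃ g, Ha.Vec K g ∧ Ha.Sm K g ∧ Ha.Dv K g ∧
      ∀ c, ∀ z ∈ (K.e c).target, g c z = vc (Γ (K.e c) z)
  ins : ∀ {m : ℕ} (k : Fin (m + 1)) (v : Cm m) (u : Fo (m + 1)),
    (lr (jc (Lg.ins k) v) *ᵥ u) (Hd m) = (-1) ^ (k : ℕ) * Lv.vc u k
  ins_fo : ∀ {m : ℕ} (k : Fin (m + 1)) (v : Cm m) (g : Cm (m + 1)),
    lr (jc (Lg.ins k) v) *ᵥ Lv.fo g = ((-1) ^ (k : ℕ) * g k) • ev (Hd m)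
  top : ∀ {n : ℕ} {M : Mf n} {e e' : Chart n M.X} {x}, At e x → At e' x → ∀ u : Fo n,
    (lam (jt e e' x) *ᵥ u) (Hd n) = (jacM e e' x).det * u (Hd n)
  top_ev : ∀ {n : ℕ} {M : Mf n} {e e' : Chart n M.X} {x}, At e x → At e' x →
    lam (jt e e' x) *ᵥ ev (Hd n) = (jacM e e' x).det • ev (Hd n)

end Vale.Agent.P281Z.Lv
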