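import Vale.Agent.P281Z.Lv.Pc
import Vale.Agent.P281Z.Lv.GamS
import Vale.Agent.P281Z.Lg.Rs
import Vale.Agent.P281Z.Hg.K1b
import Vale.Agent.P281Z.Hg.Pb1

/-!
# P281Z, block LV, row GAM: the maps between the strata
-/

open scoped Manifold ContDiff Topology Matrix
open Set Filter
open Vale.Agent.P272.K Vale.Agent.P285.H281.FD Vale.Agent.P284.H608.K
open Vale.Agent.P299.IX (lam)
open Vale.Agent.P281Z.Hg (PC IsPC Rst Fo Rw Hd lr jc jt Triv f1a k1b')
open Vale.Agent.P281Z.Ha Vale.Agent.P281Z.Lg Vale.Agent.P281Z.Pk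

noncomputable section

namespace Vale.Agent.P281Z.Lv.Gm

theorem sa_id {n : ℕ} {M : Mf n} (x : M.X) : SA n n (id : M.X → M.X) x :=
  ⟨continuousAt_id, fun e e' a a' => Hg.Pb1H.smo_id.sm e e' x a a'⟩

theorem app_cd {w m : ℕ} (a : Cm w) (v : Cm m) :
    ContDiffAt ℝ ∞ (fun v : Cm m => (Fin.append a v : Cm (w + m))) v := by
  refine contDiffAt_pi.2 fun l => Fin.addCases (fun j => ?_) (fun j => ?_) l
  · simp only [Fin.append_left]
    exact contDiffAt_const
  · simp only [Fin.append_right]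
    exact contDiffAt_apply ℝ ℂ j v

theorem ev_symm {n : ℕ} {M : Type} [TopologicalSpace M] {e : Chart n M} {x : M}
    (hx : x ∈ e.source) {P : M → Prop} (h : ∀ᶠ y in 𝓝 x, P y) :
    ∀ᶠ z in 𝓝 (e x), z ∈ e.target ∧ P (e.symm z) :=
  Eventually.and (e.open_target.mem_nhds (e.map_source hx)) ((e.tendsto_symm hx).eventually h)

variable {κ : Type} [Fintype κ] [LinearOrder κ]

section up

variable {V : Type} {n m : ℕ} (L : Lad κ V n) (x0 : (L.Y (m + 1)).X) (i : κ)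

/-- the inclusion of a stratum in the next one -/
def upi (x : (L.Y m).X) : (L.Y (m + 1)).X := if h : i ∈ L.lab x then L.up x h else x0

variable {L i} {x : (L.Y m).X} {c : (L.K (m + 1)).I} {k : Fin (m + 1)} {h : L.co c i = some k}

theorem upi_eq (hi : i ∈ L.lab x) : upi L x0 i x = L.up x hi := dif_pos hi

theorem upi_sl (hx : x ∈ ((L.K m).e (L.sl c h)).source) :
    upi L x0 i x ∈ ((L.K (m + 1)).e c).source ∧
      (L.K (m + 1)).e c (upi L x0 i x) = ins k ((L.K m).e (L.sl c h) x) := by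
  obtain ⟨hi, h1⟩ := (L.sl_src m c i k h x).1 hx
  rw [upi_eq x0 hi]
  exact ⟨h1, L.sl_e m c i k h x hx hi⟩

theorem upi_near (hx : x ∈ ((L.K m).e (L.sl c h)).source) :
    (fun z => (L.K (m + 1)).e c (upi L x0 i (((L.K m).e (L.sl c h)).symm z))) =ᶠ[
      𝓝 ((L.K m).e (L.sl c h) x)] ins k := by
  filter_upwards [ev_symm hx (((L.K m).e (L.sl c h)).open_source.mem_nhds hx)] with z hz
  rw [(upi_sl x0 hz.2).2, ((L.K m).e (L.sl c h)).right_inv hz.1]

theorem upi_sa (hP : PBK) (hi : i ∈ L.lab x) : SA m (m + 1) (upi L x0 i) x := by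
  obtain ⟨k, h, hx⟩ := L.ex_sl hi (ix_src _ _)
  have h1 := upi_sl x0 hx
  refine hP.one _ _ ?_ (at_e L hx) (at_e L h1.1) ?_
  · have h2 := (((L.K (m + 1)).e _).continuousAt_symm (((L.K (m + 1)).e _).map_source h1.1))
    rw [h1.2] at h2
    refine ((h2.comp (ins_an k _).continuousAt).comp
      (((L.K m).e (L.sl _ h)).continuousAt hx)).congr ?_
    filter_upwards [((L.K m).e (L.sl _ h)).open_source.mem_nhds hx] with y hy
    have h3 := upi_sl x0 hy
    simp only [Function.comp_apply]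
    rw [← h3.2, ((L.K (m + 1)).e _).left_inv h3.1]
  · exact ((((ins_an k _).contDiffAt (n := ω)).restrict_scalars ℝ).of_le
      le_top).congr_of_eventuallyEq (upi_near x0 hx)

end up

variable {w d m : ℕ} {V : Mf (w + d)} {W : Mf w} {L : Lad κ V.X (w + d)} {f : V.X → W.X}
  {χ : Chart w W.X} {y : W.X} (S : Slc L f χ y)

theorem j_src {c : (S.F.K m).I} {z : (S.F.Y m).X} (hz : z ∈ ((S.F.K m).e c).source) :
    S.j z ∈ ((L.K (w + m)).e (S.par c)).source := by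
  rw [S.src] at hz
  exact hz

theorem j_gm (z : (S.F.Y m).X) : gm L f m (S.j z) = y := by
  have h : S.j z ∈ range (S.j (m := m)) := mem_range_self z
  rw [S.rng] at h
  exact h

theorem j_near {c : (S.F.K m).I} {z : (S.F.Y m).X} (hz : z ∈ ((S.F.K m).e c).source) :
    (fun v => (L.K (w + m)).e (S.par c) (S.j (((S.F.K m).e c).symm v))) =ᶠ[
      𝓝 ((S.F.K m).e c z)] fun v => Fin.append (χ y) v := by
  filter_upwards [ev_symm hz (((S.F.K m).e c).open_source.mem_nhds hz)] with v hv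
  rw [S.val m c _ hv.2, ((S.F.K m).e c).right_inv hv.1]

theorem j_sa (hP : PBK) (z : (S.F.Y m).X) : SA m (w + m) S.j z :=
  hP.one _ _ (S.emb m).continuous.continuousAt (at_e S.F (ix_src _ z))
    (at_e L (j_src S (ix_src _ z)))
    ((app_cd _ _).congr_of_eventuallyEq (j_near S (ix_src _ z)))

theorem rst_val {Γ : Rw (w + m) (L.Y (w + m)).X (Fo (w + m))}
    {γ : PC w m (L.Y (w + m)).X W.X → Cm m → Fo m} (h : Rst (gm L f m) y Γ γ) {c : (S.F.K m).I}
    {z : (S.F.Y m).X} (hz : z ∈ ((S.F.K m).e c).source) :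
    γ (pq L χ (S.par c)) ((S.F.K m).e c z) =
      lr (jc (fun v => (Fin.append (χ y) v : Cm (w + m))) ((S.F.K m).e c z)) *ᵥ
        Γ ((L.K (w + m)).e (S.par c)) ((L.K (w + m)).e (S.par c) (S.j z)) := by
  have h1 := h (pq L χ (S.par c)) _ (S.j z) ((S.pc m c).isPC S.at'.1) (j_src S hz) (j_gm S z)
    (at_e L (j_src S hz))
  have h2 : ((pq L χ (S.par c)).2 (S.j z)).2 = (S.F.K m).e c z := by
    funext a
    rw [pq_app, S.val m c z hz]
    exact Fin.append_right _ _ a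
  rw [h2] at h1
  rw [h1, k1b'.jc_congr (ψ := fun v => (Fin.append (χ y) v : Cm (w + m)))]
  filter_upwards [((S.F.K m).e c).open_target.mem_nhds (((S.F.K m).e c).map_source hz)] with v hv
  rw [S.tgt] at hv
  exact ((L.K (w + m)).e (S.par c)).right_inv hv

/-- the retraction on the fibre -/
def rho [Nonempty (S.F.Y m).X] (r : (L.Y (w + m)).X → (L.Y (w + m)).X) (x : (L.Y (w + m)).X) :
    (S.F.Y m).X := Function.invFun S.j (r x)

variable [Nonempty (S.F.Y m).X] {N : Set W.X} {r : (L.Y (w + m)).X → (L.Y (w + m)).X}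
  {Φ : W.X → (L.Y (w + m)).X → (L.Y (w + m)).X}

theorem j_rho (T : Triv w m (gm L f m) y N r Φ) {x : (L.Y (w + m)).X} (hx : gm L f m x ∈ N) :
    S.j (rho S r x) = r x := by
  have h : r x ∈ range (S.j (m := m)) := by
    rw [S.rng]
    exact (T.h2 x hx).1
  exact Function.invFun_eq h

theorem rho_j (T : Triv w m (gm L f m) y N r Φ) (z : (S.F.Y m).X) : rho S r (S.j z) = z := by
  have h1 : gm L f m (S.j z) ∈ N := by rw [j_gm]; exact T.mem
  have h2 := T.h2 _ h1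
  refine (S.emb m).injective ?_
  rw [j_rho S T h1, ← T.h3 _ h2.1]
  conv_rhs => rw [← h2.2, j_gm]

theorem rho_sa (hP : PBK) (hg : Continuous (gm L f m)) (T : Triv w m (gm L f m) y N r Φ)
    {x : (L.Y (w + m)).X} (hx : gm L f m x ∈ N) : SA (w + m) m (rho S r) x := by
  have h1 : ∀ᶠ x' in 𝓝 x, gm L f m x' ∈ N := hg.continuousAt.eventually (T.opn.mem_nhds hx)
  have h2 : ContinuousAt (rho S r) x := (S.emb m).isInducing.continuousAt_iff.2
    ((T.rc x hx).congr (h1.mono fun x' h => (j_rho S T h).symm))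
  have h3 := ix_src (S.F.K m) (rho S r x)
  have h4 := j_src S h3
  rw [j_rho S T hx] at h4
  have h5 := Hg.Pb1H.ca (d := w + m) x
  refine hP.one _ _ h2 h5 (at_e S.F h3) (contDiffAt_pi.2 fun a => ?_)
  refine (contDiffAt_pi.1 (T.rs _ _ x hx h5 (at_e L h4)) (Fin.natAdd w a)).congr_of_eventuallyEq ?_
  filter_upwards [ev_symm h5.2 (h1.and (h2.eventually
    (((S.F.K m).e _).open_source.mem_nhds h3)))] with z hz
  rw [← j_rho S T hz.2.1, S.val m _ _ hz.2.2, Fin.append_right]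

omit [Nonempty (S.F.Y m).X] in
theorem key (hP : PBK) (x0 : (L.Y (w + m + 1)).X)
    {Γ₁ : Rw (w + m + 1) (L.Y (w + m + 1)).X (Fo (w + m + 1))}
    {Γ : Rw (w + m) (L.Y (w + m)).X (Fo (w + m))} {Γ' : Rw (m + 1) (S.F.Y (m + 1)).X (Fo (m + 1))}
    {c : (S.F.K m).I} {z : (S.F.Y m).X} (hz : z ∈ ((S.F.K m).e c).source) {i : κ}
    (hi : i ∈ S.F.lab z) {c₁ : (S.F.K (m + 1)).I} {k : Fin (m + 1)} {h : S.F.co c₁ i = some k}
    (hz₀ : z ∈ ((S.F.K m).e (S.F.sl c₁ h)).source) (h1 : PbA (upi L x0 i) Γ₁ Γ (S.j z))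
    (h2 : PbA (n' := w + m + 1) (M' := (L.Y (w + m + 1)).X) (S.j (m := m + 1)) Γ₁ Γ'
      (S.F.up z hi)) :
    lr (jc (fun v => (Fin.append (χ y) v : Cm (w + m))) ((S.F.K m).e c z)) *ᵥ
        Γ ((L.K (w + m)).e (S.par c)) ((L.K (w + m)).e (S.par c) (S.j z)) =
      lam (jt ((S.F.K m).e c) ((S.F.K m).e (S.F.sl c₁ h)) z) *ᵥ
        (lr (jc (ins k) ((S.F.K m).e (S.F.sl c₁ h) z)) *ᵥ
          Γ' ((S.F.K (m + 1)).e c₁) ((S.F.K (m + 1)).e c₁ (S.F.up z hi))) := by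
  have hi' : i ∈ L.lab (S.j z) := by rw [S.lab]; exact hi
  have e1 : ∀ z' : (S.F.Y m).X, i ∈ S.F.lab z' →
      upi L x0 i (S.j z') = S.j (m := m + 1) (upi S.F (S.F.up z hi) i z') := fun z' h' => by
    have h'' : i ∈ L.lab (S.j z') := by rw [S.lab]; exact h'
    rw [upi_eq x0 h'', upi_eq _ h']
    exact (S.up m z' i h' h'').symm
  have e2 := upi_eq (S.F.up z hi) hi
  have u1 := S.F.up_src hi hz₀
  have a1 : At (n := w + m + 1) (X := (L.Y (w + m + 1)).X) ((L.K (w + (m + 1))).e (S.par c₁))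
      (S.j (m := m + 1) (S.F.up z hi)) := at_e L (j_src S u1)
  have a2 : At (n := w + m + 1) (X := (L.Y (w + m + 1)).X) ((L.K (w + (m + 1))).e (S.par c₁))
      (upi L x0 i (S.j z)) := by rw [e1 z hi, e2]; exact a1
  have s1 := upi_sa (S.F.up z hi) hP hi
  have k1 := hP.comp (j_sa S hP z) (upi_sa x0 hP hi') (at_e S.F hz) (at_e L (j_src S hz)) a2
  have k2 := hP.comp s1 (j_sa S hP _) (at_e S.F hz) (e' := (S.F.K (m + 1)).e c₁)
    (e'' := (L.K (w + (m + 1))).e (S.par c₁)) (by rw [e2]; exact at_e S.F u1) (by rw [e2]; exact a1)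
  have k3 := hP.comp (sa_id z) s1 (at_e S.F hz) (at_e S.F hz₀) (e'' := (S.F.K (m + 1)).e c₁)
    (by rw [id, e2]; exact at_e S.F u1)
  rw [k1b'.jc_congr (j_near S hz)] at k1
  simp only [id] at k3
  rw [k1b'.jc_congr (upi_near _ hz₀)] at k3
  rw [k3, e2] at k2
  have k4 : jc (fun v => (L.K (w + (m + 1))).e (S.par c₁) (upi L x0 i (S.j
      (((S.F.K m).e c).symm v)))) ((S.F.K m).e c z) = _ := (k1b'.jc_congr (by
    filter_upwards [ev_symm hz (S.F.lab_near z)] with v hv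
    rw [e1 _ (hv.2.symm ▸ hi)])).trans k2
  rw [h1 _ _ (at_e L (j_src S hz)) a2, h2 _ _ (at_e S.F u1) a1, e1 z hi, e2]
  simp only [Matrix.mulVec_mulVec]
  refine congrArg (· *ᵥ _) ?_
  refine (f1a.lr_mul _ _).symm.trans ((congrArg lr (k1.symm.trans k4)).trans ?_)
  rw [f1a.lr_mul, f1a.lr_mul, Matrix.mul_assoc]
  rfl

end Vale.Agent.P281Z.Lv.Gm
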