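import Vale.Agent.P281Z.Lv.Sk
import Vale.Agent.P281Z.Lg.Bas
import Vale.Agent.P281Z.Sc.Riem

/-!
# P281Z, block LV: numerators of sections with simple poles
-/

open scoped Manifold ContDiff Topology
open Set Filter
open Vale.Agent.P272.K Vale.Agent.P285.H281.FD Vale.Agent.P284.H608.K
open Vale.Agent.P277Z (Hol at_chart hol_const)
open Vale.Agent.P277Z.Slc (LEq Snc isLB_can)
open Vale.Agent.P281Z.Ha Vale.Agent.P281Z.Lg

noncomputable section

namespace Vale.Agent.P281Z.Lv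

namespace Nm

variable {κ : Type} [Fintype κ] [LinearOrder κ]

section one

variable {n : ℕ} {V : Mf n} {L : Lad κ V.X n} {D : κ → Set V.X}
  {fr : L.B → Chart n V.X → V.X → ℂ} {β : L.B} {e : Chart n V.X} {x : V.X}

theorem fr_ne (h : Geo L D fr) (hx : x ∈ off D) (hβ : x ∈ L.U β) (he : At e x) :
    fr β e x ≠ 0 := by
  obtain ⟨ζ, hζ, -⟩ := h.snc x
  obtain ⟨u, -, h1, h2⟩ := h.frU β e x hβ he ζ hζ
  exact left_ne_zero_of_mul (h2.self_of_nhds hx ▸ h1)

/-- the frame is a unit times the inverse of the equation -/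
theorem fr_eq (h : Geo L D fr) (hβ : x ∈ L.U β) (he : At e x) {ζ : κ → V.X → ℂ}
    (hζ : ∀ l, LEq n (D l) x (ζ l)) : ∃ u, Hol n u x ∧ u x ≠ 0 ∧
      ∀ᶠ y in 𝓝 x, y ∈ off D → fr β e y = u y * ∏ l, ζ l y ^ (-1 : ℤ) := by
  obtain ⟨u, h0, h1, h2⟩ := h.frU β e x hβ he ζ hζ
  refine ⟨u, h0, h1, ?_⟩
  filter_upwards [h2, off_iff hζ] with y a1 a2 a3
  simp only [zpow_neg, zpow_one, Finset.prod_inv_distrib]
  exact (eq_mul_inv_iff_mul_eq₀ (Finset.prod_ne_zero_iff.2 fun l _ => a2.1 a3 l)).2 (a1 a3)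

theorem fr_hol (h : Geo L D fr) (hx : x ∈ off D) (hβ : x ∈ L.U β) (he : At e x) :
    Hol n (fr β e) x := by
  obtain ⟨ζ, hζ, -⟩ := h.snc x
  obtain ⟨u, h0, -, h2⟩ := fr_eq h hβ he hζ
  refine (h0.mul (hol_mono hζ hx fun _ => -1)).congr ?_
  filter_upwards [h2, (Hyp.of_snc h.snc).isOpen.mem_nhds hx] with y a1 a2 using (a1 a2).symm

theorem fr_bd (h : Geo L D fr) (hβ : x ∈ L.U β) (he : At e x) :
    BdP n id D (fun _ => 1) (fr β e) x := by
  obtain ⟨ζ, hζ, -⟩ := h.snc x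
  obtain ⟨u, h0, -, h2⟩ := fr_eq h hβ he hζ
  exact (((bdP_mono continuousAt_id hζ fun _ => -1).cmul h0.cont).mono continuousAt_id
    fun l _ => by simp).congr h2

theorem num (h : Geo L D fr) {O : Set V.X} (hO : IsOpen O) {s : Chart n V.X → V.X → ℂ}
    (hs : SecP n n id O (Bd.can n V.X) D (fun _ => 1) s) : ∃ b, HolN L O b ∧
      ∀ β e, ∀ x ∈ O, x ∈ off D → x ∈ L.U β → At e x → s e x = b β x * fr β e x := by
  set r : L.B → V.X → ℂ := fun β x => s (chartAt (Cm n) x) x / fr β (chartAt (Cm n) x) x with hr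
  have h1 : ∀ β e, ∀ x ∈ O, x ∈ off D → x ∈ L.U β → At e x → s e x = r β x * fr β e x :=
    fun β e x a1 a2 a3 a4 => by
      rw [hs.chg e _ x a1 a4 (at_chart x) a2, h.frC β e _ x a2 a3 a4 (at_chart x), mul_left_comm,
        div_mul_cancel₀ _ (fr_ne h a2 a3 (at_chart x))]
      rfl
  have h2 : ∀ β e, ∀ x ∈ O, x ∈ L.U β → At e x →
      ∀ᶠ y in 𝓝 x, y ∈ off D → r β y = s e y / fr β e y := fun β e x a1 a3 a4 => by
    filter_upwards [hO.mem_nhds a1, lb_near h.lb a3, at_near a4] with y b1 b2 b3 b4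
      using eq_div_of_mul_eq (fr_ne h b4 b2 b3) (h1 β e y b1 b4 b2 b3).symm
  have h3 : SecP n n id O (⟨L.B, L.U, L.G⟩ : Bd V.X) D (fun _ => 0) r := by
    refine ⟨fun β x a1 a3 a2 => ?_, fun β β' x a1 a3 a3' a2 => ?_, fun β x a1 a3 => ?_⟩
    · have a4 := at_chart (n := n) x
      refine ((hs.hol _ x a1 a4 a2).div (fr_hol h a2 a3 a4) (fr_ne h a2 a3 a4)).congr ?_
      filter_upwards [h2 β _ x a1 a3 a4, (Hyp.of_snc h.snc).isOpen.mem_nhds a2] with y b1 b2
        using (b1 b2).symm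
    · have a4 := at_chart (n := n) x
      refine mul_right_cancel₀ (fr_ne h a2 a3 a4) ((h1 β _ x a1 a2 a3 a4).symm.trans ?_)
      rw [h1 β' _ x a1 a2 a3' a4, h.frB β β' _ x a2 a3 a3' a4]
      exact (mul_left_comm _ _ _).trans (mul_assoc _ _ _).symm
    · have a4 := at_chart (n := n) x
      obtain ⟨ζ, hζ, -⟩ := h.snc x
      obtain ⟨u, b1, b2, b3⟩ := fr_eq h a3 a4 hζ
      refine ((((hs.bdP a1 a4).mul_mono continuousAt_id hζ fun _ => 1).cmul
        (b1.inv b2).cont).mono (c' := fun _ => 0) continuousAt_id fun l _ => by simp).congr ?_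
      filter_upwards [h2 β _ x a1 a3 a4, b3] with y c1 c2 c3
      rw [c1 c3, c2 c3]
      simp only [zpow_neg, zpow_one, Finset.prod_inv_distrib, id, div_eq_mul_inv, mul_inv, inv_inv]
      ring
  obtain ⟨b, k1, k2, k3⟩ := h3.ext h.snc h.lb hO fun _ => zero_lt_one
  exact ⟨b, ⟨k1, k2⟩, fun β e x a1 a2 a3 a4 => by rw [k3 β x a1 a3 a2, h1 β e x a1 a2 a3 a4]⟩

theorem at_e {T : Type} (F : Lad κ T n) {m : ℕ} {c : (F.K m).I} {z : (F.Y m).X}
    (hz : z ∈ ((F.K m).e c).source) : At ((F.K m).e c) z := ⟨(F.atl m _).2 ⟨c, rfl⟩, hz⟩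

/-- the numerator of a section is holomorphic on the strata -/
theorem holS {T : Type} {F : Lad κ T n} {m : ℕ} {b : F.B → T → ℂ} (hb : F.Sec m b)
    {c : (F.K m).I} {z : (F.Y m).X} (hz : z ∈ ((F.K m).e c).source) :
    Hol m (fun z => b (F.bs c) (F.pt z)) z :=
  .of_chart (at_e F hz) (hb.hol c _ (((F.K m).e c).map_source hz))

end one

variable {w d : ℕ} {V : Mf (w + d)} {W : Mf w} {L : Lad κ V.X (w + d)} {f : V.X → W.X}
  {χ : Chart w W.X} {y : W.X} (S : Slc L f χ y) {m : ℕ}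

theorem f_pt (z : (S.F.Y m).X) : f (S.F.pt z) = y := by
  have : S.j z ∈ gm L f m ⁻¹' {y} := S.rng m ▸ mem_range_self z
  rwa [← S.pt]

theorem j_src {c : (S.F.K m).I} {z : (S.F.Y m).X} (hz : z ∈ ((S.F.K m).e c).source) :
    S.j z ∈ ((L.K (w + m)).e (S.par c)).source := by rwa [S.src] at hz

/-- holomorphic functions restrict to the fibre -/
theorem hol_j {g : (L.Y (w + m)).X → ℂ} {z : (S.F.Y m).X} (hg : Hol (w + m) g (S.j z)) :
    Hol m (fun z => g (S.j z)) z := by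
  have hz := ix_src (S.F.K m) z
  set c := (S.F.K m).ix z
  have h1 : AnalyticAt ℂ (fun v : Cm m => (Fin.append (χ y) v : Cm (w + m))) ((S.F.K m).e c z) :=
    AnalyticAt.pi fun a => by
      refine Fin.addCases (fun a => ?_) (fun a => ?_) a
      · simpa only [Fin.append_left] using analyticAt_const
      · simp only [Fin.append_right]
        exact (ContinuousLinearMap.proj (R := ℂ) (φ := fun _ : Fin m => ℂ) a).analyticAt _
  refine .of_chart (at_e S.F hz) (((hg _ (at_e L (j_src S hz))).comp_of_eq h1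
    (S.val m c z hz).symm).congr ?_)
  filter_upwards [((S.F.K m).e c).open_target.mem_nhds (((S.F.K m).e c).map_source hz)] with v hv
  have h2 := ((S.F.K m).e c).map_target hv
  have h3 := S.val m c _ h2
  rw [((S.F.K m).e c).right_inv hv] at h3
  simp only [Function.comp, ← h3, ((L.K (w + m)).e (S.par c)).left_inv (j_src S h2)]

end Nm

open Nm

theorem stNum : StNum := by
  intro κ _ _ w d V W L D fr f h _
  refine ⟨fun O hO s hs => num h hO hs, fun χ y S O b hb hO m => ⟨fun c v hv => ?_,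
    fun β β' x ⟨z, hz⟩ a1 a2 => ?_⟩⟩
  · have a1 := ((S.F.K m).e c).map_target hv
    have a2 : Hol (w + d) (b (L.bs (S.par c))) (L.pt (S.j (((S.F.K m).e c).symm v))) :=
      hb.hol _ _ (hO (by rw [S.pt]; exact f_pt S _)) (L.mem _ _ _ (j_src S a1))
    have a3 := hol_j S ((h.hol (w + m)).hol a2) _ (at_e S.F a1)
    rw [((S.F.K m).e c).right_inv hv] at a3
    simp only [S.pt, ← S.bs] at a3
    exact a3
  · rw [S.U] at a1 a2
    rw [S.G]
    exact hb.chg _ _ x (hO (hz ▸ f_pt S z)) a1 a2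

end Vale.Agent.P281Z.Lv
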