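import Vale.Agent.P281Z.Lv.Sk
import Vale.Agent.P281Z.Pk.Rl

/-!
# P281Z, block LV: product charts on the strata
-/

open scoped Manifold ContDiff Topology
open Set Filter
open Vale.Agent.P272.K Vale.Agent.P285.H281.FD Vale.Agent.P284.H608.K
open Vale.Agent.P281Z.Hg (PC IsPC)
open Vale.Agent.P281Z.Ha Vale.Agent.P281Z.Lg Vale.Agent.P281Z.Pk

noncomputable section

namespace Vale.Agent.P281Z.Lv

variable {κ : Type} [Fintype κ] [LinearOrder κ]

theorem at_e {V : Type} {n m : ℕ} (L : Lad κ V n) {c : (L.K m).I} {z : (L.Y m).X}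
    (hz : z ∈ ((L.K m).e c).source) : At ((L.K m).e c) z := ⟨(L.atl m _).2 ⟨c, rfl⟩, hz⟩

variable {w d m : ℕ} {V : Mf (w + d)} {W : Mf w} {L : Lad κ V.X (w + d)} {f : V.X → W.X}
  {χ : Chart w W.X} {D : κ → Set V.X} {fr : L.B → Chart (w + d) V.X → V.X → ℂ}

theorem pq_src (c : (L.K (w + m)).I) : (pq L χ c).2.source = ((L.K (w + m)).e c).source := rfl

theorem pq_app (c : (L.K (w + m)).I) (z : (L.Y (w + m)).X) :
    (pq L χ c).2 z = (fun a => (L.K (w + m)).e c z (Fin.castAdd m a),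
      fun a => (L.K (w + m)).e c z (Fin.natAdd w a)) := rfl

theorem pq_symm (c : (L.K (w + m)).I) (v : Cm w × Cm m) :
    (pq L χ c).2.symm v = ((L.K (w + m)).e c).symm (Fin.append v.1 v.2) := rfl

theorem pq_tgt (c : (L.K (w + m)).I) (v : Cm w × Cm m) :
    v ∈ (pq L χ c).2.target ↔ Fin.append v.1 v.2 ∈ ((L.K (w + m)).e c).target := Iff.rfl

theorem qc_pq (c : (L.K (w + m)).I) : qc (pq L χ c) = (L.K (w + m)).e c := by
  refine OpenPartialHomeomorph.ext _ _ (fun z => ?_) (fun z => ?_) rfl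
  · exact (Fin.appendHomeomorph w m).apply_symm_apply _
  · exact congrArg ((L.K (w + m)).e c).symm ((Fin.appendHomeomorph w m).apply_symm_apply _)

theorem pq_co (c : (L.K (w + m)).I) : Co (w + m) (pq L χ c).2 :=
  (co_chart ((L.atl _ _).2 ⟨c, rfl⟩)).trans (Mg.apL w m).symm

theorem Pc.isPC (hχ : χ ∈ atlas (Cm w) W.X) {c : (L.K (w + m)).I} (h : Pc L f χ c) :
    IsPC (gm L f m) (pq L χ c) :=
  Mg.pc_of_co (pq_co c) hχ fun z hz => ⟨(h.fst z hz).1, funext (h.fst z hz).2⟩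

theorem Geo.gm_hol (G : Geo L D fr) (hf : HolM (w + d) w f) (m : ℕ) :
    HolM (w + m) w (gm L f m) := hf.comp (G.hol _)

theorem Geo.ex_pc (G : Geo L D fr) (hf : HolM (w + d) w f) {z : (L.Y (w + m)).X}
    (hχ : At χ (gm L f m z)) (h : RegAt (w + d) w f D (gm L f m z)) :
    ∃ c, Pc L f χ c ∧ z ∈ ((L.K (w + m)).e c).source ∧
      ∀ l k, L.co c l = some k → (L.K (w + m)).e c z k = 0 := by
  obtain ⟨ζ, h1, -⟩ := G.snc (L.pt z)
  obtain ⟨c, h2, h3, h5, h4⟩ := G.prod (w + m) z (Fin w) (fun a x => χ (f x) a) (Fin.castAdd m) ζ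
    (Fin.castAdd_injective w m) h1 (h _ rfl χ hχ ζ h1) _
    (hf.cont.continuousAt.preimage_mem_nhds (χ.open_source.mem_nhds hχ.2))
  exact ⟨c, ⟨h4, fun l k hk => not_lt.1 fun hw => h3 l ⟨k, hw⟩ hk⟩, h2, h5⟩

/-- (PC) -/
theorem stPc : StPc := fun _ _ _ _ _ _ _ _ _ _ _ G hf _ hχ _ =>
  ⟨fun _ h => h.isPC hχ, fun _ hz h => G.ex_pc hf ⟨hχ, hz⟩ h⟩

end Vale.Agent.P281Z.Lv
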