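import Vale.Agent.P281Z.Lv.Defs

/-!
# P281Z, block LV: statements
-/

open scoped Manifold ContDiff Topology ENNReal Matrix ComplexConjugate
open Set Filter MeasureTheory
open Vale.Agent.P272.K Vale.Agent.P285.H281.FD Vale.Agent.P284.H608.K
open Vale.Agent.P277Z (Hol)
open Vale.Agent.P277Z.Slc (Ind LEq Snc St)
open Vale.Agent.P277.HD (pull)
open Vale.Agent.P281Z.Hg (PC IsPC fdet FibHol RelHol FibItg TotCl Rst tf Fam Fo Rw Hd)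
open Vale.Agent.P281Z.Ha Vale.Agent.P281Z.Lg Vale.Agent.P281Z.Pk

noncomputable section

namespace Vale.Agent.P281Z.Lv

/-- (LAD) ladders exist -/
def StLad : Prop := ∀ (κ : Type) [Fintype κ] [LinearOrder κ] (n : ℕ) (V : Mf n) (D : κ → Set V.X),
  V.Kah → Snc n D → ∃ (L : Lad κ V.X n) (fr : L.B → Chart n V.X → V.X → ℂ), Geo L D fr

/-- (POL) the polar divisors -/
def StPol : Prop := ∀ (n p : ℕ) (V : Mf n) (W : Mf p) (f : V.X → W.X) (κ : Type) [Fintype κ]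
  (G : κ → Set V.X) (a : κ → ℤ) (b : κ → ℕ), Snc n G →
  Snc n (pol G a b) ∧ ∀ y, RegAt n p f G y → RegAt n p f (pol G a b) y

/-- (ORD) the poles are simple -/
def StOrd : Prop := ForA fun _ _ _ _ _ A => A.Or

/-- (LAM) the numerators of the forms -/
def StLam : Prop := ForA fun _ _ _ _ _ A => A.Or → ∃ lam, A.Lam lam

/-- (PC) product charts -/
def StPc : Prop := ForG fun _ _ _ w d _ _ L D _ f => ∀ χ ∈ atlas (Cm w) _, ∀ m,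
  (∀ c : (L.K (w + m)).I, Pc L f χ c → IsPC (gm L f m) (pq L χ c)) ∧
  ∀ z : (L.Y (w + m)).X, gm L f m z ∈ χ.source → RegAt (w + d) w f D (gm L f m z) →
    ∃ c, Pc L f χ c ∧ z ∈ ((L.K (w + m)).e c).source ∧
      ∀ l k, L.co c l = some k → (L.K (w + m)).e c z k = 0

/-- (DEP) the depth -/
def StDep : Prop := ForA fun _ _ _ _ _ A => ∃ e k, A.Dep e k

/-- (FIB) the ladder of a fibre -/
def StFib : Prop := ForG fun _ _ _ w d _ _ L D _ f => ∀ y χ, At χ y → RegAt (w + d) w f D y →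
  Nonempty (Slc L f χ y)

/-- (TR) forms and integrals on the fibres -/
def StTr : Prop := ForG fun _ _ _ w d _ W L _ _ f => ∀ χ y (S : Slc L f χ y),
  Emb d (w + d) (S.F.pt (m := d)) (f ⁻¹' {y}) ∧ ∀ m,
  (∀ σ, FibHol (gm L f m) y σ → ∃ a, H0 (S.F.K m) a ∧ S.Is a σ) ∧
  (∀ σ σ' (γ : PC w m (L.Y (w + m)).X W.X → Cm m → Fo m) Γ O, FibHol (gm L f m) y σ →
    FibHol (gm L f m) y σ' → y ∈ O → TotCl w m (gm L f m) O Γ → Rst (gm L f m) y Γ γ →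
    (∀ c : (S.F.K m).I, ∀ v ∈ ((S.F.K m).e c).target, tf σ (pq L χ (S.par c)) v =
      tf σ' (pq L χ (S.par c)) v + γ (pq L χ (S.par c)) v) →
    ∀ q x, IsPC (gm L f m) q → x ∈ q.2.source → gm L f m x = y →
      tf σ q (q.2 x).2 = tf σ' q (q.2 x).2 + γ q (q.2 x).2) ∧
  ∀ F I (a a' : Sc (S.F.K m)), FibItg (gm L f m) y F I →
    S.Is (fun c v => a c v * conj (a' c v)) F → Top _ a → Top _ a' →
    Integrable (dS _ a a') (S.F.K m).μ → I = pS _ a a'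

/-- (NUM) numerators of sections with simple poles; restriction to the fibres -/
def StNum : Prop := ForG fun _ _ _ w d V _ L D fr f =>
  (∀ O, IsOpen O → ∀ s, SecP (w + d) (w + d) id O (Bd.can (w + d) V.X) D (fun _ => 1) s →
    ∃ b, HolN L O b ∧ ∀ β e, ∀ x ∈ O, x ∈ off D → x ∈ L.U β → At e x → s e x = b β x * fr β e x) ∧
  ∀ χ y (S : Slc L f χ y) O b, HolN L O b → f ⁻¹' {y} ⊆ O → ∀ m, S.F.Sec m (S.rb b)

/-- (EXT) sections on a general fibre extend to a neighbourhood -/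
def StExt : Prop := ForG fun _ _ _ w d _ W L _ _ f => ConnectedSpace W.X → ∃ T, Thin w T ∧
  ∀ y ∉ T, ∀ χ (S : Slc L f χ y) b', S.F.Sec d b' → ∃ O b, IsOpen O ∧ y ∈ O ∧
    HolN L (f ⁻¹' O) b ∧ S.F.Agr (S.F.sk d) (S.rb b) b'

/-- (REL) relative forms on the deepest strata -/
def StRel : Prop := ForG fun _ _ _ w _ _ W L _ _ f => ∀ m,
  (∀ χ O b, IsOpen O → (∀ y ∈ O, At χ y) → HolN L (f ⁻¹' O) b →
    (∀ z, gm L f m z ∈ O → ∀ c, z ∈ ((L.K (w + m)).e c).source →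
      L.pr c ((L.K (w + m)).e c z) ≠ 0) → RelHol (gm L f m) O (rel L f χ m b)) ∧
  (∀ χ y (S : Slc L f χ y) b, L.Chg (f ⁻¹' {y}) b →
    (∀ z, gm L f m z = y → ∀ c, z ∈ ((L.K (w + m)).e c).source →
      L.pr c ((L.K (w + m)).e c z) ≠ 0) →
    S.Is (S.F.fm (S.F.nm m (S.rb b))) (Hg.rs (rel L f χ m b) y) ∧
      ∀ c : (S.F.K m).I, ∀ v ∈ ((S.F.K m).e c).target, S.F.pr c v ≠ 0) ∧
  ∀ (χ χ' : Chart w W.X) b b' (u : ℂ) q z, IsPC (gm L f m) q → z ∈ q.2.source →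
    At χ (gm L f m z) → At χ' (gm L f m z) → (∀ β, L.pt z ∈ L.U β →
      b' β (L.pt z) = u * (jacM χ χ' (gm L f m z)).det * b β (L.pt z)) →
    rel L f χ' m b' q (q.2 z) = u * rel L f χ m b q (q.2 z)

/-- (ASY) the asymptotics of the weighted integrals -/
def StAsy : Prop := ForL fun _ _ _ _ n L => ∀ (e k : ℕ) r ρ T b b', e + k = n →
  (∀ m < e, IsEmpty (L.Y m).X) → Wt L r ρ T → L.Sec n b → L.Sec n b' →
  (∀ ε : ℝ, 0 < ε → Integrable (dρ L ρ ε b b') (L.K n).μ) ∧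
    Tendsto (fun ε : ℝ => ((ε ^ k : ℝ) : ℂ) * ∫ y, dρ L ρ ε b b' y ∂(L.K n).μ) (𝓝[>] 0)
      (𝓝 (pS _ (mu _ (fun y => wI r (L.lab y)) (L.fm (L.nm e b))) (L.fm (L.nm e b'))))

/-- (ASYG) the same for a section `b` of depth at most `k` -/
def StAsyG : Prop := ForL fun _ _ _ _ n L => ∀ (e k : ℕ) r ρ T b b', e + k = n →
  (∀ m, m + 1 = e → L.Agr (L.sk m) b 0) → Wt L r ρ T → L.Sec n b → L.Sec n b' →
    Tendsto (fun ε : ℝ => ((ε ^ k : ℝ) : ℂ) * ∫ y, dρ L ρ ε b b' y ∂(L.K n).μ) (𝓝[>] 0)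
      (𝓝 (pS _ (mu _ (fun y => wI r (L.lab y)) (L.fm (L.nm e b))) (L.fm (L.nm e b'))))

/-- (HYP) the weight on a fibre -/
def StHyp : Prop := ForA fun _ _ _ C _ A => ∀ χ, ∀ y ∉ C.Q, ∀ S : Slc A.L C.g χ y,
  Wt S.F A.r C.ρ (oth C.G A.a A.b)

/-- (NUT) the fibre measure -/
def StNut : Prop := ForA fun _ d B C _ A => ∀ lam, A.Lam lam → ∀ i, ∀ y ∈ B.l.U i, y ∉ C.Q →
  ∀ S : Slc A.L C.g (B.ch i) y, ∀ b, S.F.Sec d (S.rb b) →
  ((∀ ε : ℝ, 0 < ε → Integrable (dρ S.F C.ρ ε (S.rb b) (S.rb b)) (S.F.K d).μ) →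
    C.L2 i y (A.quo b (lam i))) ∧ ∀ ε : ℝ, 0 < ε →
  ∫ x, A.quo b (lam i) x * (C.ρ x ^ ε : ℝ) ∂C.ν i y =
      ∫ z, dρ S.F C.ρ ε (S.rb b) (S.rb (lam i)) z ∂(S.F.K d).μ ∧
    ((C.J i ε y).toReal : ℂ) = ∫ z, dρ S.F C.ρ ε (S.rb (lam i)) (S.rb (lam i)) z ∂(S.F.K d).μ

/-- (MUF) locally constant weights; strata without boundary -/
def StMuf : Prop := ForL fun _ _ _ _ _ L => ∀ m,
  (∀ u : (L.Y m).X → ℝ, IsLocallyConstant u → ∀ a : Sc (L.K m),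
    (Top _ a → Top _ (mu _ u a)) ∧ (Sm _ a → Sm _ (mu _ u a)) ∧ (Hl _ a → Hl _ (mu _ u a)) ∧
    ((∀ y, 0 < u y) → H0 _ a → a ≠ 0 → 0 < (pS _ (mu _ u a) a).re)) ∧
  ((∀ c : (L.K m).I, ∀ z ∈ ((L.K m).e c).target, L.pr c z ≠ 0) → ∀ b,
    (L.Sec m b → H0 _ (L.fm (L.nm m b))) ∧
    ∀ a : Sc (L.K m), Top _ a → L.Val (L.nu a) univ b → L.fm (L.nm m b) = a)

/-- (B2W) the weighted splitting -/
def StB2w : Prop := ForL fun _ _ _ _ n L => (∀ m, Psd (L.K m)) → ∀ m ≤ n, ∀ u : (L.Y m).X → ℝ,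
  IsLocallyConstant u → (∀ y, 0 < u y) → ∀ a : Sc (L.K m), H0 _ a →
  ∃ g b, Gam (L.K (m + 1)) g ∧ L.Sec n b ∧ L.Val (L.nu (a - mu _ u (L.rs g))) univ b

/-- (GAM) restrictions of holomorphic forms extend to closed forms -/
def StGam : Prop := ForG fun κ _ _ w d _ W L _ _ f => ∀ U m χ y (S : Slc L f χ y)
  (u : Finset κ → ℝ) g, (m < d → ∃ ω₀, Fam w (m + 1) ω₀ (gm L f (m + 1)) U) → y ∈ U →
  Gam (S.F.K (m + 1)) g → ∀ N ∈ 𝓝 y,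
  ∃ (O : Set W.X) (Γ : Rw (w + m) (L.Y (w + m)).X (Fo (w + m)))
    (γ : W.X → PC w m (L.Y (w + m)).X W.X → Cm m → Fo m), IsOpen O ∧ y ∈ O ∧ O ⊆ N ∧
    TotCl w m (gm L f m) O Γ ∧ (∀ t ∈ O, Rst (gm L f m) t Γ (γ t)) ∧
    (∀ c : (S.F.K m).I, ∀ v ∈ ((S.F.K m).e c).target, γ y (pq L χ (S.par c)) v =
      mu _ (fun z => u (S.F.lab z)) (S.F.rs g) c v • P299.IX.Fock.ev (Hd m)) ∧
    ∀ t ∈ O, ∀ S' : Slc L f χ t, ∃ g', Vec (S'.F.K (m + 1)) g' ∧ Sm _ g' ∧ Dv _ g' ∧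
      S'.Is (mu _ (fun z => u (S'.F.lab z)) (S'.F.rs g')) fun q z => γ t q z (Hd m)

end Vale.Agent.P281Z.Lv
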